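import Mathlib

/-!
Row 32 (Heilbronn), section 5 of blueprint 10070: random affine maps mod a prime `P`
and caps inside the elliptic paraboloid.  (helper558)
-/

set_option autoImplicit false

namespace Crest.Agent.R032

open Matrix Finset

/-- affine maps of `F_P^3` (linear part, translation) -/
abbrev AffH (P : ℕ) := Matrix (Fin 3) (Fin 3) (ZMod P) × (Fin 3 → ZMod P)

/-- invertible affine maps -/
def AffSet (P : ℕ) [Fact P.Prime] : Finset (AffH P) := Finset.univ.filter fun h => h.1.det ≠ 0

/-- action -/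
def AffH.act {P : ℕ} (h : AffH P) (u : Fin 3 → ZMod P) : Fin 3 → ZMod P := h.1.mulVec u + h.2

/-- no three distinct collinear points -/
def IsCap {P : ℕ} (E : Finset (Fin 3 → ZMod P)) : Prop :=
  ∀ x ∈ E, ∀ y ∈ E, ∀ z ∈ E, x ≠ y → x ≠ z → y ≠ z → crossProduct (y - x) (z - x) ≠ 0

lemma mem_affSet {P : ℕ} [Fact P.Prime] (h : AffH P) : h ∈ AffSet P ↔ h.1.det ≠ 0 := by
  simp [AffSet]

/-- the invertible matrices -/
def GLset (P : ℕ) [Fact P.Prime] : Finset (Matrix (Fin 3) (Fin 3) (ZMod P)) :=
  Finset.univ.filter fun M => M.det ≠ 0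

lemma affSet_eq (P : ℕ) [Fact P.Prime] : AffSet P = GLset P ×ˢ (Finset.univ : Finset (Fin 3 → ZMod P)) := by
  ext h
  simp [AffSet, GLset]

lemma card_vec (P : ℕ) [Fact P.Prime] : (Finset.univ : Finset (Fin 3 → ZMod P)).card = P ^ 3 := by
  simp [ZMod.card]

lemma card_affSet (P : ℕ) [Fact P.Prime] : (AffSet P).card = (GLset P).card * P ^ 3 := by
  rw [affSet_eq, Finset.card_product, card_vec]

lemma card_GLset (P : ℕ) [Fact P.Prime] :
    (GLset P).card = (P ^ 3 - 1) * (P ^ 3 - P) * (P ^ 3 - P ^ 2) := by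
  have h1 : Nat.card (GL (Fin 3) (ZMod P)) = (P ^ 3 - 1) * (P ^ 3 - P) * (P ^ 3 - P ^ 2) := by
    rw [Matrix.card_GL_field]
    simp [Fin.prod_univ_three, ZMod.card]
  rw [← h1]
  have e : GL (Fin 3) (ZMod P) ≃ {M : Matrix (Fin 3) (Fin 3) (ZMod P) // M ∈ GLset P} :=
    { toFun := fun g => ⟨g.1, by
        have : IsUnit (g.1 : Matrix (Fin 3) (Fin 3) (ZMod P)).det :=
          (Matrix.isUnit_iff_isUnit_det _).1 g.isUnit
        simpa [GLset] using this.ne_zero⟩
      invFun := fun M => Matrix.GeneralLinearGroup.mkOfDetNeZero M.1 (Finset.mem_filter.1 M.2).2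
      left_inv := fun g => by
        ext
        rfl
      right_inv := fun M => by
        rfl }
  rw [Nat.card_congr e]
  simp

theorem card_GLset_ge (P : ℕ) [hP : Fact P.Prime] : P ^ 9 ≤ 8 * (GLset P).card := by
  rw [card_GLset]
  have h2 : 2 ≤ P := hP.out.two_le
  have a1 : P ^ 3 ≤ 2 * (P ^ 3 - 1) := by
    have : 2 ≤ P ^ 3 := by nlinarith [Nat.pow_le_pow_left h2 3]
    omega
  have a2 : P ^ 3 ≤ 2 * (P ^ 3 - P) := by
    have : 2 * P ≤ P ^ 3 := by nlinarith [Nat.pow_le_pow_left h2 2, sq_nonneg P]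
    omega
  have a3 : P ^ 3 ≤ 2 * (P ^ 3 - P ^ 2) := by
    have : 2 * P ^ 2 ≤ P ^ 3 := by nlinarith [Nat.pow_le_pow_left h2 2, sq_nonneg P]
    omega
  calc P ^ 9 = P ^ 3 * P ^ 3 * P ^ 3 := by ring
    _ ≤ (2 * (P ^ 3 - 1)) * (2 * (P ^ 3 - P)) * (2 * (P ^ 3 - P ^ 2)) := by gcongr
    _ = 8 * ((P ^ 3 - 1) * (P ^ 3 - P) * (P ^ 3 - P ^ 2)) := by ring

theorem card_affSet_ge (P : ℕ) [Fact P.Prime] : P ^ 12 ≤ 8 * (AffSet P).card := by
  rw [card_affSet]
  calc P ^ 12 = P ^ 9 * P ^ 3 := by ring
    _ ≤ (8 * (GLset P).card) * P ^ 3 := Nat.mul_le_mul_right _ (card_GLset_ge P)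
    _ = 8 * ((GLset P).card * P ^ 3) := by ring

/-- (5a) each point is mapped uniformly -/
theorem card_act_mem (P : ℕ) [Fact P.Prime] (u : Fin 3 → ZMod P) (E : Finset (Fin 3 → ZMod P)) :
    P ^ 3 * ((AffSet P).filter fun h => h.act u ∈ E).card = (AffSet P).card * E.card := by
  have key : ((AffSet P).filter fun h => h.act u ∈ E).card = (GLset P).card * E.card := by
    rw [← Finset.card_product]
    refine Finset.card_bij' (fun h _ => (h.1, h.1.mulVec u + h.2))
      (fun k _ => (k.1, k.2 - k.1.mulVec u)) ?_ ?_ ?_ ?_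
    · intro h hh
      rw [Finset.mem_filter, mem_affSet] at hh
      rw [Finset.mem_product]
      exact ⟨by simpa [GLset] using hh.1, hh.2⟩
    · intro k hk
      rw [Finset.mem_product] at hk
      rw [Finset.mem_filter, mem_affSet]
      refine ⟨by simpa [GLset] using hk.1, ?_⟩
      have : k.1.mulVec u + (k.2 - k.1.mulVec u) = k.2 := by abel
      simp only [AffH.act]
      rw [this]
      exact hk.2
    · intro h _
      simp
    · intro k _
      simp
  rw [key, card_affSet]
  ring

lemma act_sub {P : ℕ} (h : AffH P) (u v : Fin 3 → ZMod P) :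
    h.act v - h.act u = h.1.mulVec (v - u) := by
  simp [AffH.act, Matrix.mulVec_sub]

lemma mulVec_inj {P : ℕ} [Fact P.Prime] {M : Matrix (Fin 3) (Fin 3) (ZMod P)} (hM : M.det ≠ 0)
    {u v : Fin 3 → ZMod P} (h : M.mulVec u = M.mulVec v) : u = v := by
  have : M.mulVec (u - v) = 0 := by rw [Matrix.mulVec_sub, h, sub_self]
  have := Matrix.eq_zero_of_mulVec_eq_zero hM this
  exact sub_eq_zero.1 this

lemma act_ne {P : ℕ} [Fact P.Prime] {h : AffH P} (hh : h ∈ AffSet P) {u v : Fin 3 → ZMod P}
    (huv : u ≠ v) : h.act u ≠ h.act v := by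
  intro he
  apply huv
  have : h.1.mulVec u = h.1.mulVec v := by
    simpa [AffH.act] using he
  exact mulVec_inj ((mem_affSet h).1 hh) this

/-- dependent vectors are proportional -/
lemma exists_smul_of_cross {P : ℕ} [Fact P.Prime] {a b : Fin 3 → ZMod P} (ha : a ≠ 0)
    (h : crossProduct a b = 0) : ∃ l : ZMod P, b = l • a := by
  have h0 := congrFun h 0
  have h1 := congrFun h 1
  have h2 := congrFun h 2
  simp only [cross_apply, Matrix.cons_val_zero, Matrix.cons_val_one, Matrix.cons_val,
    Pi.zero_apply] at h0 h1 h2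
  by_cases a0 : a 0 = 0
  · by_cases a1 : a 1 = 0
    · have a2 : a 2 ≠ 0 := by
        intro a2
        apply ha
        ext i
        fin_cases i <;> simp [a0, a1, a2]
      refine ⟨b 2 / a 2, ?_⟩
      ext i
      fin_cases i
      · simp only [Pi.smul_apply, smul_eq_mul, Fin.zero_eta, Fin.isValue]
        field_simp
        rw [a0] at h1 ⊢
        linear_combination h1
      · simp only [Pi.smul_apply, smul_eq_mul, Fin.mk_one, Fin.isValue]
        field_simp
        linear_combination (-1 : ZMod P) * h0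
      · simp only [Pi.smul_apply, smul_eq_mul, Fin.reduceFinMk, Fin.isValue]
        field_simp
    · refine ⟨b 1 / a 1, ?_⟩
      ext i
      fin_cases i
      · simp only [Pi.smul_apply, smul_eq_mul, Fin.zero_eta, Fin.isValue]
        field_simp
        linear_combination (-1 : ZMod P) * h2
      · simp only [Pi.smul_apply, smul_eq_mul, Fin.mk_one, Fin.isValue]
        field_simp
      · simp only [Pi.smul_apply, smul_eq_mul, Fin.reduceFinMk, Fin.isValue]
        field_simp
        linear_combination h0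
  · refine ⟨b 0 / a 0, ?_⟩
    ext i
    fin_cases i
    · simp only [Pi.smul_apply, smul_eq_mul, Fin.zero_eta, Fin.isValue]
      field_simp
    · simp only [Pi.smul_apply, smul_eq_mul, Fin.mk_one, Fin.isValue]
      field_simp
      linear_combination h2
    · simp only [Pi.smul_apply, smul_eq_mul, Fin.reduceFinMk, Fin.isValue]
      field_simp
      linear_combination (-1 : ZMod P) * h1

lemma cross_self_smul {P : ℕ} (a : Fin 3 → ZMod P) (l : ZMod P) :
    crossProduct a (l • a) = 0 := by
  rw [map_smul, cross_self, smul_zero]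

/-- (5c) three distinct collinear points never land in a cap -/
theorem cap_kills (P : ℕ) [Fact P.Prime] {E : Finset (Fin 3 → ZMod P)} (hE : IsCap E) {h : AffH P}
    (hh : h ∈ AffSet P) {u v w : Fin 3 → ZMod P} (huv : u ≠ v) (huw : u ≠ w) (hvw : v ≠ w)
    (hdep : crossProduct (v - u) (w - u) = 0) :
    ¬ (h.act u ∈ E ∧ h.act v ∈ E ∧ h.act w ∈ E) := by
  rintro ⟨hu, hv, hw⟩
  refine hE _ hu _ hv _ hw (act_ne hh huv) (act_ne hh huw) (act_ne hh hvw) ?_
  rw [act_sub, act_sub]
  obtain ⟨l, hl⟩ := exists_smul_of_cross (sub_ne_zero.2 huv.symm) hdep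
  rw [hl, Matrix.mulVec_smul, cross_self_smul]

/-- (5d) independent triples -/
theorem card_act_triple (P : ℕ) [Fact P.Prime] (E : Finset (Fin 3 → ZMod P))
    (u v w : Fin 3 → ZMod P) (hind : crossProduct (v - u) (w - u) ≠ 0) :
    ((AffSet P).filter fun h => h.act u ∈ E ∧ h.act v ∈ E ∧ h.act w ∈ E).card
      ≤ E.card ^ 3 * P ^ 3 := by
  classical
  -- a third vector
  obtain ⟨i, hi⟩ : ∃ i, crossProduct (v - u) (w - u) i ≠ 0 := by
    by_contra hc
    push Not at hc
    exact hind (funext hc)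
  set x : Fin 3 → ZMod P := Pi.single i 1 with hx
  set N : Matrix (Fin 3) (Fin 3) (ZMod P) := Matrix.of ![x, v - u, w - u] with hN
  have hdet : N.det ≠ 0 := by
    have : N.det = x ⬝ᵥ crossProduct (v - u) (w - u) := by
      rw [hN, triple_product_eq_det]
      rfl
    rw [this, hx, single_one_dotProduct]
    exact hi
  have hcard : (E ×ˢ E ×ˢ E ×ˢ (Finset.univ : Finset (Fin 3 → ZMod P))).card
      = E.card ^ 3 * P ^ 3 := by
    rw [Finset.card_product, Finset.card_product, Finset.card_product, card_vec]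
    ring
  rw [← hcard]
  refine Finset.card_le_card_of_injOn (fun h => (h.act u, h.act v, h.act w, h.1.mulVec x)) ?_ ?_
  · intro h hh
    simp only [Finset.coe_filter, Set.mem_ofPred_eq] at hh
    simp only [Finset.coe_product, Set.mem_prod, Finset.mem_coe, Finset.mem_univ, and_true]
    exact hh.2
  · intro h hh k hk hhk
    simp only [Prod.mk.injEq] at hhk
    obtain ⟨e1, e2, e3, e4⟩ := hhk
    have f2 : h.1.mulVec (v - u) = k.1.mulVec (v - u) := by
      rw [← act_sub, ← act_sub, e1, e2]
    have f3 : h.1.mulVec (w - u) = k.1.mulVec (w - u) := by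
      rw [← act_sub, ← act_sub, e1, e3]
    have hM : (h.1 - k.1) * Nᵀ = 0 := by
      ext r s
      have : ((h.1 - k.1) * Nᵀ) r s = ((h.1 - k.1).mulVec (N s)) r := by
        simp [Matrix.mul_apply, Matrix.mulVec, dotProduct]
      rw [this]
      have : (h.1 - k.1).mulVec (N s) = 0 := by
        rw [Matrix.sub_mulVec]
        fin_cases s
        · exact sub_eq_zero.2 e4
        · exact sub_eq_zero.2 f2
        · exact sub_eq_zero.2 f3
      rw [this]
      rfl
    have hu : IsUnit (Nᵀ).det := by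
      rw [Matrix.det_transpose]
      exact hdet.isUnit
    have hM0 : h.1 - k.1 = 0 := by
      have := congrArg (fun A => A * (Nᵀ)⁻¹) hM
      simpa [Matrix.mul_assoc, Matrix.mul_nonsing_inv _ hu] using this
    have h1 : h.1 = k.1 := sub_eq_zero.1 hM0
    have h2 : h.2 = k.2 := by
      have : h.1.mulVec u + h.2 = k.1.mulVec u + k.2 := e1
      rw [h1] at this
      exact add_left_cancel this
    exact Prod.ext h1 h2

/-- combined (5c)+(5d)+(5e) for distinct residues -/
theorem card_triple_le (P : ℕ) [Fact P.Prime] {E : Finset (Fin 3 → ZMod P)} (hE : IsCap E)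
    {u v w : Fin 3 → ZMod P} (huv : u ≠ v) (huw : u ≠ w) (hvw : v ≠ w) :
    ((AffSet P).filter fun h => h.act u ∈ E ∧ h.act v ∈ E ∧ h.act w ∈ E).card * P ^ 9
      ≤ 8 * (AffSet P).card * E.card ^ 3 := by
  by_cases hc : crossProduct (v - u) (w - u) = 0
  · have : ((AffSet P).filter fun h => h.act u ∈ E ∧ h.act v ∈ E ∧ h.act w ∈ E) = ∅ := by
      rw [Finset.filter_eq_empty_iff]
      intro h hh
      exact cap_kills P hE hh huv huw hvw hc
    rw [this]
    simp
  · calc ((AffSet P).filter fun h => h.act u ∈ E ∧ h.act v ∈ E ∧ h.act w ∈ E).card * P ^ 9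
        ≤ (E.card ^ 3 * P ^ 3) * P ^ 9 := Nat.mul_le_mul_right _ (card_act_triple P E u v w hc)
      _ = P ^ 12 * E.card ^ 3 := by ring
      _ ≤ (8 * (AffSet P).card) * E.card ^ 3 := Nat.mul_le_mul_right _ (card_affSet_ge P)

/-! ### caps -/

/-- the elliptic paraboloid -/
def Parab (P : ℕ) [Fact P.Prime] (g : ZMod P) : Finset (Fin 3 → ZMod P) :=
  Finset.univ.filter fun v => v 0 = v 1 ^ 2 - g * v 2 ^ 2

lemma card_parab (P : ℕ) [Fact P.Prime] (g : ZMod P) : (Parab P g).card = P ^ 2 := by
  have : (Parab P g).card = (Finset.univ : Finset (Fin 2 → ZMod P)).card := by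
    refine Finset.card_bij' (fun v _ => ![v 1, v 2])
      (fun w _ => ![w 0 ^ 2 - g * w 1 ^ 2, w 0, w 1]) ?_ ?_ ?_ ?_
    · intro v _
      simp
    · intro w _
      simp [Parab]
    · intro v hv
      simp only [Parab, Finset.mem_filter, Finset.mem_univ, true_and] at hv
      ext i
      fin_cases i
      · simp [hv]
      · simp
      · simp
    · intro w _
      ext i
      fin_cases i <;> simp
  rw [this]
  simp [ZMod.card]

lemma isCap_parab (P : ℕ) [Fact P.Prime] (g : ZMod P) (hg : ¬ IsSquare g) : IsCap (Parab P g) := by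
  intro x hx y hy z hz hxy hxz hyz hc
  simp only [Parab, Finset.mem_filter, Finset.mem_univ, true_and] at hx hy hz
  obtain ⟨l, hl⟩ := exists_smul_of_cross (sub_ne_zero.2 hxy.symm) hc
  have l0 : l ≠ 0 := by
    rintro rfl
    rw [zero_smul, sub_eq_zero] at hl
    exact hxz hl.symm
  have l1 : l - 1 ≠ 0 := by
    intro h
    have : l = 1 := sub_eq_zero.1 h
    rw [this, one_smul] at hl
    exact hyz (sub_left_injective hl).symm
  set d0 := y 0 - x 0 with hd0
  set d1 := y 1 - x 1 with hd1
  set d2 := y 2 - x 2 with hd2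
  have z0 : z 0 = x 0 + l * d0 := by
    have := congrFun hl 0
    simp only [Pi.sub_apply, Pi.smul_apply, smul_eq_mul] at this
    linear_combination this
  have z1 : z 1 = x 1 + l * d1 := by
    have := congrFun hl 1
    simp only [Pi.sub_apply, Pi.smul_apply, smul_eq_mul] at this
    linear_combination this
  have z2 : z 2 = x 2 + l * d2 := by
    have := congrFun hl 2
    simp only [Pi.sub_apply, Pi.smul_apply, smul_eq_mul] at this
    linear_combination this
  have y0 : y 0 = x 0 + d0 := by rw [hd0]; ring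
  have y1 : y 1 = x 1 + d1 := by rw [hd1]; ring
  have y2 : y 2 = x 2 + d2 := by rw [hd2]; ring
  set A := 2 * x 1 * d1 - 2 * g * x 2 * d2 - d0 with hA
  set B := d1 ^ 2 - g * d2 ^ 2 with hB
  have e1 : A + B = 0 := by
    rw [y0, y1, y2] at hy
    rw [hA, hB]
    linear_combination hx - hy
  have e2 : l * A + l ^ 2 * B = 0 := by
    rw [z0, z1, z2] at hz
    rw [hA, hB]
    linear_combination hx - hz
  have e3 : A + l * B = 0 := by
    have : l * (A + l * B) = 0 := by linear_combination e2
    exact (mul_eq_zero.1 this).resolve_left l0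
  have B0 : B = 0 := by
    have : (l - 1) * B = 0 := by linear_combination e3 - e1
    exact (mul_eq_zero.1 this).resolve_left l1
  have A0 : A = 0 := by rw [B0, add_zero] at e1; exact e1
  have d20 : d2 = 0 := by
    by_contra h2
    apply hg
    refine ⟨d1 / d2, ?_⟩
    field_simp
    linear_combination (-1 : ZMod P) * B0
  have d10 : d1 = 0 := by
    have : d1 ^ 2 = 0 := by
      have := B0
      rw [hB, d20] at this
      linear_combination this
    exact pow_eq_zero_iff (two_ne_zero) |>.1 this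
  have d00 : d0 = 0 := by
    have := A0
    rw [hA, d10, d20] at this
    linear_combination (-1 : ZMod P) * this
  apply hxy
  ext i
  fin_cases i
  · simp only [Fin.zero_eta, Fin.isValue]
    rw [y0, d00, add_zero]
  · simp only [Fin.mk_one, Fin.isValue]
    rw [y1, d10, add_zero]
  · simp only [Fin.reduceFinMk, Fin.isValue]
    rw [y2, d20, add_zero]

lemma exists_nonsquare (P : ℕ) [Fact P.Prime] (hP : 2 < P) : ∃ g : ZMod P, ¬ IsSquare g := by
  apply FiniteField.exists_nonsquare
  rw [ZMod.ringChar_zmod_n]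
  omega

/-- (5b) caps of any size up to `P^2` -/
theorem exists_cap (P : ℕ) [Fact P.Prime] (hP : 2 < P) (s : ℕ) (hs : s ≤ P ^ 2) :
    ∃ E : Finset (Fin 3 → ZMod P), E.card = s ∧ IsCap E := by
  obtain ⟨g, hg⟩ := exists_nonsquare P hP
  rw [← card_parab P g] at hs
  obtain ⟨E, hE, hEc⟩ := Finset.exists_subset_card_eq hs
  refine ⟨E, hEc, ?_⟩
  intro x hx y hy z hz
  exact isCap_parab P g hg x (hE hx) y (hE hy) z (hE hz)

/-! ### integer points -/

/-- reduction mod `P` of an integer point -/
def red (P : ℕ) (u : Fin 3 → ℤ) : Fin 3 → ZMod P := fun i => ((u i : ℤ) : ZMod P)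

/-- integer points with coordinates differing by less than `P` are distinct mod `P` -/
lemma red_ne {P : ℕ} {u v : Fin 3 → ℤ} (hd : ∀ i, |u i - v i| < P) (h : u ≠ v) :
    red P u ≠ red P v := by
  intro he
  apply h
  ext i
  have h1 : ((u i : ℤ) : ZMod P) = ((v i : ℤ) : ZMod P) := congrFun he i
  have h2 : (P : ℤ) ∣ u i - v i := by
    have := (ZMod.intCast_eq_intCast_iff_dvd_sub (v i) (u i) P).1 h1.symm
    exact this
  have h3 : u i - v i = 0 := Int.eq_zero_of_abs_lt_dvd h2 (hd i)
  linarith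

/-- The final form used by the assembly: for integer points pairwise at coordinate distance `< P`,
the number of affine maps sending three distinct points into a cap. -/
theorem box_card_triple (P : ℕ) [Fact P.Prime] {E : Finset (Fin 3 → ZMod P)} (hE : IsCap E)
    {u v w : Fin 3 → ℤ} (duv : ∀ i, |u i - v i| < P) (duw : ∀ i, |u i - w i| < P)
    (dvw : ∀ i, |v i - w i| < P) (huv : u ≠ v) (huw : u ≠ w) (hvw : v ≠ w) :
    ((AffSet P).filter fun h => h.act (red P u) ∈ E ∧ h.act (red P v) ∈ E ∧
        h.act (red P w) ∈ E).card * P ^ 9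
      ≤ 8 * (AffSet P).card * E.card ^ 3 :=
  card_triple_le P hE (red_ne duv huv) (red_ne duw huw) (red_ne dvw hvw)

lemma red_cross (P : ℕ) (u v w : Fin 3 → ℤ) (h : crossProduct (v - u) (w - u) = 0) :
    crossProduct (red P v - red P u) (red P w - red P u) = 0 := by
  have h0 := congrFun h 0
  have h1 := congrFun h 1
  have h2 := congrFun h 2
  simp only [cross_apply, Matrix.cons_val_zero, Matrix.cons_val_one, Matrix.cons_val,
    Pi.zero_apply, Pi.sub_apply] at h0 h1 h2
  ext i
  fin_cases i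
  · simp only [cross_apply, Matrix.cons_val_zero, Fin.zero_eta, Pi.zero_apply, Pi.sub_apply, red]
    exact_mod_cast congrArg (Int.cast : ℤ → ZMod P) h0
  · simp only [cross_apply, Matrix.cons_val_one, Fin.mk_one, Pi.zero_apply, Pi.sub_apply, red]
    exact_mod_cast congrArg (Int.cast : ℤ → ZMod P) h1
  · simp only [cross_apply, Matrix.cons_val, Fin.reduceFinMk, Pi.zero_apply, Pi.sub_apply, red]
    exact_mod_cast congrArg (Int.cast : ℤ → ZMod P) h2

/-- affinely dependent integer triples of distinct points are never mapped into a cap -/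
theorem box_kills (P : ℕ) [Fact P.Prime] {E : Finset (Fin 3 → ZMod P)} (hE : IsCap E)
    {h : AffH P} (hh : h ∈ AffSet P)
    {u v w : Fin 3 → ℤ} (duv : ∀ i, |u i - v i| < P) (duw : ∀ i, |u i - w i| < P)
    (dvw : ∀ i, |v i - w i| < P) (huv : u ≠ v) (huw : u ≠ w) (hvw : v ≠ w)
    (hdep : crossProduct (v - u) (w - u) = 0) :
    ¬ (h.act (red P u) ∈ E ∧ h.act (red P v) ∈ E ∧ h.act (red P w) ∈ E) :=
  cap_kills P hE hh (red_ne duv huv) (red_ne duw huw) (red_ne dvw hvw) (red_cross P u v w hdep)

end Crest.Agent.R032
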