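import Mathlib

/-!
Row 32 (S0042), common definitions.
Integer points are `Fin 3 → ℤ`, triples are `Matrix (Fin 3) (Fin 3) ℤ` (rows = points).
-/

namespace Crest.Agent.R032

open Matrix

/-- integer points -/
abbrev Pt := Fin 3 → ℤ

/-- triples of integer points (rows) -/
abbrev Tr := Matrix (Fin 3) (Fin 3) ℤ

/-- The box `[0,W) × [0,W) × [W,2W)`. -/
noncomputable def Box (W : ℕ) : Finset (Fin 3 → ℤ) :=
  Fintype.piFinset fun i => if i = 2 then Finset.Ico (W : ℤ) (2 * W) else Finset.Ico 0 (W : ℤ)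

/-- Triples of points of the box. -/
noncomputable def Box3 (W : ℕ) : Finset (Matrix (Fin 3) (Fin 3) ℤ) :=
  Fintype.piFinset fun _ : Fin 3 => Box W

/-- affinely independent rows -/
def AffInd (U : Matrix (Fin 3) (Fin 3) ℤ) : Prop :=
  crossProduct (U 1 - U 0) (U 2 - U 0) ≠ 0

/-- primitive integer vector (Bezout form) -/
def Prim (μ : Fin 3 → ℤ) : Prop := ∃ a : Fin 3 → ℤ, ∑ i, a i * μ i = 1

/-- Set of triples counted in (A). -/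
def SA (W : ℕ) (d : ℤ) : Set (Matrix (Fin 3) (Fin 3) ℤ) := {U | U ∈ Box3 W ∧ U.det = d}

/-- Set of triples counted in (B). -/
def SB (W Q : ℕ) (lam : Fin 3 → ZMod Q) : Set (Matrix (Fin 3) (Fin 3) ℤ) :=
  {U | U ∈ Box3 W ∧ AffInd U ∧ U.det = 0 ∧
    ∃ μ : Fin 3 → ℤ, Prim μ ∧ μ ᵥ* U = 0 ∧ (∃ s : ZMod Q, ∀ i, ((μ i : ℤ) : ZMod Q) = s * lam i) ∧
      (Q : ℤ) ∣ ∑ i, μ i}

/-- Set of triples counted in (C). -/
def SC (W Q : ℕ) : Set (Matrix (Fin 3) (Fin 3) ℤ) :=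
  {U | U ∈ Box3 W ∧ AffInd U ∧ U.det = 0 ∧ ∀ i j, (Q : ℤ) ∣ U i j - U 0 j}

theorem mem_Box {W : ℕ} {u : Fin 3 → ℤ} :
    u ∈ Box W ↔ (0 ≤ u 0 ∧ u 0 < W) ∧ (0 ≤ u 1 ∧ u 1 < W) ∧ ((W : ℤ) ≤ u 2 ∧ u 2 < 2 * W) := by
  simp [Box, Fintype.mem_piFinset, Fin.forall_fin_succ]

theorem mem_Box3 {W : ℕ} {U : Matrix (Fin 3) (Fin 3) ℤ} :
    U ∈ Box3 W ↔ ∀ i, U i ∈ Box W := by
  unfold Box3
  exact Fintype.mem_piFinset

theorem SA_finite (W : ℕ) (d : ℤ) : (SA W d).Finite :=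
  (Box3 W).finite_toSet.subset fun _ h => h.1

theorem SB_finite (W Q : ℕ) (lam : Fin 3 → ZMod Q) : (SB W Q lam).Finite :=
  (Box3 W).finite_toSet.subset fun _ h => h.1

theorem SC_finite (W Q : ℕ) : (SC W Q).Finite :=
  (Box3 W).finite_toSet.subset fun _ h => h.1

end Crest.Agent.R032
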