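import Mathlib

/-!
Row 32 (Heilbronn), section 6a of blueprint 10070: averaging and deletion.
-/

set_option autoImplicit false

namespace Crest.Agent.R032

open Finset

/-- The ordered bad triples of distinct points of `S`. -/
noncomputable def badTriples {α : Type*} (S : Finset α) (Bad : α → α → α → Prop) :
    Finset (α × α × α) := by
  classical
  exact (S ×ˢ S ×ˢ S).filter
    (fun t => t.1 ≠ t.2.1 ∧ t.1 ≠ t.2.2 ∧ t.2.1 ≠ t.2.2 ∧ Bad t.1 t.2.1 t.2.2)

theorem mem_badTriples {α : Type*} {S : Finset α} {Bad : α → α → α → Prop} {t : α × α × α} :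
    t ∈ badTriples S Bad ↔ (t.1 ∈ S ∧ t.2.1 ∈ S ∧ t.2.2 ∈ S) ∧
      (t.1 ≠ t.2.1 ∧ t.1 ≠ t.2.2 ∧ t.2.1 ≠ t.2.2 ∧ Bad t.1 t.2.1 t.2.2) := by
  classical
  unfold badTriples
  rw [mem_filter, mem_product, mem_product]

/-- Deterministic deletion: remove the first point of each bad triple. -/
theorem exists_delete {α : Type*} (S : Finset α) (Bad : α → α → α → Prop) :
    ∃ T ⊆ S, S.card ≤ T.card + (badTriples S Bad).card ∧
      ∀ u ∈ T, ∀ v ∈ T, ∀ w ∈ T, u ≠ v → u ≠ w → v ≠ w → ¬ Bad u v w := by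
  classical
  refine ⟨S \ (badTriples S Bad).image Prod.fst, sdiff_subset, ?_, ?_⟩
  · have h1 : S.card ≤ (S \ (badTriples S Bad).image Prod.fst).card
        + ((badTriples S Bad).image Prod.fst).card := by
      exact Finset.card_le_card_sdiff_add_card
    exact h1.trans (Nat.add_le_add_left card_image_le _)
  · intro u hu v hv w hw huv huw hvw hbad
    rw [mem_sdiff] at hu hv hw
    apply hu.2
    rw [mem_image]
    exact ⟨(u, v, w), mem_badTriples.2 ⟨⟨hu.1, hv.1, hw.1⟩, huv, huw, hvw, hbad⟩, rfl⟩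

/-- Averaging plus deletion over a finite sample space. -/
theorem exists_delete_avg {Ω α : Type*} [Fintype Ω] [Nonempty Ω] (S : Ω → Finset α)
    (Bad : α → α → α → Prop) (X : ℝ)
    (h : X * (Fintype.card Ω : ℝ) ≤ (∑ ω, ((S ω).card : ℝ)) - ∑ ω, ((badTriples (S ω) Bad).card : ℝ)) :
    ∃ ω, ∃ T ⊆ S ω, X ≤ (T.card : ℝ) ∧
      ∀ u ∈ T, ∀ v ∈ T, ∀ w ∈ T, u ≠ v → u ≠ w → v ≠ w → ¬ Bad u v w := by
  classical
  have hex : ∃ ω, X ≤ ((S ω).card : ℝ) - ((badTriples (S ω) Bad).card : ℝ) := by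
    by_contra hcon
    push Not at hcon
    have hlt : ∑ ω, (((S ω).card : ℝ) - ((badTriples (S ω) Bad).card : ℝ))
        < ∑ _ω : Ω, X := by
      refine sum_lt_sum_of_nonempty univ_nonempty (fun ω _ => hcon ω)
    rw [sum_sub_distrib, sum_const, card_univ, nsmul_eq_mul, mul_comm] at hlt
    linarith
  obtain ⟨ω, hω⟩ := hex
  obtain ⟨T, hTS, hcard, hT⟩ := exists_delete (S ω) Bad
  refine ⟨ω, T, hTS, ?_, hT⟩
  have : ((S ω).card : ℝ) ≤ (T.card : ℝ) + ((badTriples (S ω) Bad).card : ℝ) := by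
    exact_mod_cast hcard
  linarith

/-- The form used in the row: the bad triples are at most half of the points on average. -/
theorem exists_delete_half {Ω α : Type*} [Fintype Ω] [Nonempty Ω] (S : Ω → Finset α)
    (Bad : α → α → α → Prop) (M : ℝ)
    (hS : M * (Fintype.card Ω : ℝ) ≤ ∑ ω, ((S ω).card : ℝ))
    (hB : ∑ ω, ((badTriples (S ω) Bad).card : ℝ) ≤ (M / 2) * (Fintype.card Ω : ℝ)) :
    ∃ ω, ∃ T ⊆ S ω, M / 2 ≤ (T.card : ℝ) ∧
      ∀ u ∈ T, ∀ v ∈ T, ∀ w ∈ T, u ≠ v → u ≠ w → v ≠ w → ¬ Bad u v w := by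
  apply exists_delete_avg S Bad (M / 2)
  have : M / 2 * (Fintype.card Ω : ℝ) = M * (Fintype.card Ω : ℝ) - (M / 2) * (Fintype.card Ω : ℝ) := by
    ring
  rw [this]
  linarith

/-! ### Two independent sources of randomness -/

section TwoFold

variable {G H α : Type*} [Fintype G] [Fintype H]

/-- The pool for the pair `(g,h)`: points `u` of the box `B` with `A g u` and `E h u`. -/
noncomputable def pool (B : Finset α) (A : G → α → Prop) (E : H → α → Prop) (gh : G × H) :
    Finset α := by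
  classical
  exact B.filter (fun u => A gh.1 u ∧ E gh.2 u)

omit [Fintype G] [Fintype H] in
theorem mem_pool {B : Finset α} {A : G → α → Prop} {E : H → α → Prop} {gh : G × H} {u : α} :
    u ∈ pool B A E gh ↔ u ∈ B ∧ A gh.1 u ∧ E gh.2 u := by
  classical
  unfold pool
  rw [mem_filter]

open Classical in
/-- Expectation of the size: if every point `u` of the box satisfies `E h u` for exactly `a`
elements `h`, then the total size is `a` times the total size for `g`. -/
theorem sum_card_pool (B : Finset α) (A : G → α → Prop) (E : H → α → Prop) (a : ℕ)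
    (ha : ∀ u ∈ B, (univ.filter (fun h : H => E h u)).card = a) :
    ∑ gh : G × H, (pool B A E gh).card
      = a * ∑ g : G, (B.filter (fun u => A g u)).card := by
  have h1 : ∀ gh : G × H, (pool B A E gh).card
      = ∑ u ∈ B, if A gh.1 u ∧ E gh.2 u then 1 else 0 := by
    intro gh
    rw [← card_filter]
    congr 1
  simp_rw [h1]
  rw [Fintype.sum_prod_type]
  rw [mul_sum]
  refine sum_congr rfl (fun g _ => ?_)
  simp only
  rw [sum_comm]
  have h2 : ∀ u ∈ B, (∑ h : H, if A g u ∧ E h u then 1 else 0)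
      = if A g u then a else 0 := by
    intro u hu
    by_cases hA : A g u
    · simp only [hA, true_and, if_true]
      rw [← card_filter]
      exact ha u hu
    · simp [hA]
  rw [sum_congr rfl h2, ← sum_filter, sum_const, smul_eq_mul, mul_comm]

open Classical in
/-- Expectation of the number of bad triples: if every distinct triple of the box which is
`Bad` satisfies `E h` simultaneously for at most `b` elements `h`, then the number of bad triples
is at most `b` times the number for `g`. Triples for which no `h` works can be discarded: `Rel`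
is any property which must hold as soon as some `h` works. -/
theorem sum_bad_pool (B : Finset α) (A : G → α → Prop) (E : H → α → Prop)
    (Bad Rel : α → α → α → Prop) (b : ℕ)
    (hRel : ∀ u ∈ B, ∀ v ∈ B, ∀ w ∈ B, u ≠ v → u ≠ w → v ≠ w →
      ∀ h : H, E h u → E h v → E h w → Rel u v w)
    (hb : ∀ u ∈ B, ∀ v ∈ B, ∀ w ∈ B, u ≠ v → u ≠ w → v ≠ w → Rel u v w →
      (univ.filter (fun h : H => E h u ∧ E h v ∧ E h w)).card ≤ b) :
    ∑ gh : G × H, (badTriples (pool B A E gh) Bad).card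
      ≤ b * ∑ g : G, (badTriples (B.filter (fun u => A g u))
          (fun u v w => Rel u v w ∧ Bad u v w)).card := by
  rw [Fintype.sum_prod_type, mul_sum]
  refine sum_le_sum (fun g _ => ?_)
  -- count pairs (h, t)
  set T := badTriples (B.filter (fun u => A g u)) (fun u v w => Rel u v w ∧ Bad u v w) with hT
  have h1 : ∀ h : H, (badTriples (pool B A E (g, h)) Bad).card
      ≤ ∑ t ∈ T, if E h t.1 ∧ E h t.2.1 ∧ E h t.2.2 then 1 else 0 := by
    intro h
    rw [← card_filter]
    refine card_le_card (fun t ht => ?_)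
    obtain ⟨⟨hm1, hm2, hm3⟩, hd1, hd2, hd3, hbad⟩ := mem_badTriples.1 ht
    rw [mem_pool] at hm1 hm2 hm3
    rw [mem_filter, hT, mem_badTriples]
    refine ⟨⟨⟨mem_filter.2 ⟨hm1.1, hm1.2.1⟩, mem_filter.2 ⟨hm2.1, hm2.2.1⟩,
      mem_filter.2 ⟨hm3.1, hm3.2.1⟩⟩, hd1, hd2, hd3, ?_, hbad⟩, hm1.2.2, hm2.2.2, hm3.2.2⟩
    exact hRel _ hm1.1 _ hm2.1 _ hm3.1 hd1 hd2 hd3 h hm1.2.2 hm2.2.2 hm3.2.2
  calc ∑ h : H, (badTriples (pool B A E (g, h)) Bad).card
      ≤ ∑ h : H, ∑ t ∈ T, (if E h t.1 ∧ E h t.2.1 ∧ E h t.2.2 then 1 else 0) :=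
        sum_le_sum (fun h _ => h1 h)
    _ = ∑ t ∈ T, ∑ h : H, (if E h t.1 ∧ E h t.2.1 ∧ E h t.2.2 then 1 else 0) := sum_comm
    _ ≤ ∑ _t ∈ T, b := by
        refine sum_le_sum (fun t ht => ?_)
        rw [← card_filter]
        obtain ⟨⟨hm1, hm2, hm3⟩, hd1, hd2, hd3, hrel, _⟩ := mem_badTriples.1 ht
        exact hb _ (mem_filter.1 hm1).1 _ (mem_filter.1 hm2).1 _ (mem_filter.1 hm3).1
          hd1 hd2 hd3 hrel
    _ = b * T.card := by rw [sum_const, smul_eq_mul, mul_comm]

/-- The complete probabilistic step: from the totals over `g` (bounds `SG` for the sizes, `BG`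
for the bad triples) and the constants `a`, `b` for `h`. -/
theorem exists_pool [Nonempty G] [Nonempty H] (B : Finset α) (A : G → α → Prop)
    (E : H → α → Prop) (Bad Rel : α → α → α → Prop) (a b : ℕ)
    (ha : ∀ u ∈ B, (by classical exact (univ.filter (fun h : H => E h u)).card) = a)
    (hRel : ∀ u ∈ B, ∀ v ∈ B, ∀ w ∈ B, u ≠ v → u ≠ w → v ≠ w →
      ∀ h : H, E h u → E h v → E h w → Rel u v w)
    (hb : ∀ u ∈ B, ∀ v ∈ B, ∀ w ∈ B, u ≠ v → u ≠ w → v ≠ w → Rel u v w →
      (by classical exact (univ.filter (fun h : H => E h u ∧ E h v ∧ E h w)).card) ≤ b)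
    (SG BG : ℝ)
    (hSG : SG * (Fintype.card G : ℝ)
      ≤ ∑ g : G, ((by classical exact (B.filter (fun u => A g u)).card : ℕ) : ℝ))
    (hBG : ∑ g : G, ((by classical exact (badTriples (B.filter (fun u => A g u))
          (fun u v w => Rel u v w ∧ Bad u v w)).card : ℕ) : ℝ) ≤ BG * (Fintype.card G : ℝ))
    (hmain : (b : ℝ) * BG ≤ (a : ℝ) * SG / 2) :
    ∃ g : G, ∃ h : H, ∃ T ⊆ B, (∀ u ∈ T, A g u ∧ E h u) ∧
      ((a : ℝ) / (Fintype.card H : ℝ)) * SG / 2 ≤ (T.card : ℝ) ∧
      ∀ u ∈ T, ∀ v ∈ T, ∀ w ∈ T, u ≠ v → u ≠ w → v ≠ w → ¬ Bad u v w := by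
  classical
  have hH : (0 : ℝ) < (Fintype.card H : ℝ) := by exact_mod_cast Fintype.card_pos
  have hG : (0 : ℝ) < (Fintype.card G : ℝ) := by exact_mod_cast Fintype.card_pos
  have e1 := sum_card_pool (G := G) (H := H) B A E a (by
    intro u hu; simpa using ha u hu)
  have e2 := sum_bad_pool (G := G) (H := H) B A E Bad Rel b hRel (by
    intro u hu v hv w hw h1 h2 h3 h4
    simpa using hb u hu v hv w hw h1 h2 h3 h4)
  have e1' : ∑ gh : G × H, ((pool B A E gh).card : ℝ)
      = (a : ℝ) * ∑ g : G, ((B.filter (fun u => A g u)).card : ℝ) := by exact_mod_cast e1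
  have e2' : ∑ gh : G × H, ((badTriples (pool B A E gh) Bad).card : ℝ)
      ≤ (b : ℝ) * ∑ g : G, ((badTriples (B.filter (fun u => A g u))
          (fun u v w => Rel u v w ∧ Bad u v w)).card : ℝ) := by exact_mod_cast e2
  have hcard : (Fintype.card (G × H) : ℝ) = (Fintype.card G : ℝ) * (Fintype.card H : ℝ) := by
    rw [Fintype.card_prod]; push_cast; ring
  have key := exists_delete_half (Ω := G × H) (fun gh => pool B A E gh) Bad
    (((a : ℝ) / (Fintype.card H : ℝ)) * SG) (by
      rw [hcard, e1']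
      have : (a : ℝ) / (Fintype.card H : ℝ) * SG * ((Fintype.card G : ℝ) * (Fintype.card H : ℝ))
          = (a : ℝ) * (SG * (Fintype.card G : ℝ)) := by
        field_simp
      rw [this]
      refine mul_le_mul_of_nonneg_left ?_ (Nat.cast_nonneg a)
      exact hSG) (by
      rw [hcard]
      refine e2'.trans ?_
      have h3 : (b : ℝ) * ∑ g : G, ((badTriples (B.filter (fun u => A g u))
          (fun u v w => Rel u v w ∧ Bad u v w)).card : ℝ)
          ≤ (b : ℝ) * (BG * (Fintype.card G : ℝ)) :=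
        mul_le_mul_of_nonneg_left hBG (Nat.cast_nonneg b)
      refine h3.trans ?_
      have h4 : (a : ℝ) / (Fintype.card H : ℝ) * SG / 2
          * ((Fintype.card G : ℝ) * (Fintype.card H : ℝ))
          = ((a : ℝ) * SG / 2) * (Fintype.card G : ℝ) := by
        field_simp
      rw [h4]
      have h5 : (b : ℝ) * (BG * (Fintype.card G : ℝ)) = ((b : ℝ) * BG) * (Fintype.card G : ℝ) := by
        ring
      rw [h5]
      exact mul_le_mul_of_nonneg_right hmain hG.le)
  obtain ⟨⟨g, h⟩, T, hTS, hcardT, hT⟩ := key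
  refine ⟨g, h, T, ?_, ?_, hcardT, hT⟩
  · intro u hu
    exact (mem_pool.1 (hTS hu)).1
  · intro u hu
    exact (mem_pool.1 (hTS hu)).2

end TwoFold

end Crest.Agent.R032
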