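import Mathlib
import Crest.Agent.R032.Defs
import Crest.Agent.R032.Deletion

/-!
Row 32 (Heilbronn), glue, part 1: choice of the density of the cap (helper441).
-/

set_option autoImplicit false

namespace Crest.Agent.R032

open Finset

open Classical in
/-- The `P`-side in the form needed for the pool. -/
def HSide (W P e : ℕ) : Prop :=
  ∃ (H : Type) (_ : Fintype H) (_ : Nonempty H) (E : H → (Fin 3 → ℤ) → Prop),
    (∀ u : Fin 3 → ℤ, P ^ 3 * (univ.filter (fun h : H => E h u)).card = e * Fintype.card H) ∧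
    (∀ u ∈ Box W, ∀ v ∈ Box W, ∀ w ∈ Box W, u ≠ v → u ≠ w → v ≠ w →
      ∀ h : H, E h u → E h v → E h w → crossProduct (v - u) (w - u) ≠ 0) ∧
    (∀ u ∈ Box W, ∀ v ∈ Box W, ∀ w ∈ Box W, u ≠ v → u ≠ w → v ≠ w →
      (univ.filter (fun h : H => E h u ∧ E h v ∧ E h w)).card * P ^ 9
        ≤ 8 * e ^ 3 * Fintype.card H)

/-- for all admissible parameters -/
def HSideStmt : Prop :=
  ∀ W P e : ℕ, P.Prime → 2 < P → 2 * W < P → e ≤ P ^ 2 → HSide W P e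

open Classical in
theorem core_step (hH : HSideStmt) {G : Type*} [Fintype G] [Nonempty G]
    (A : G → (Fin 3 → ℤ) → Prop) (W : ℕ) (hW : 0 < W)
    (Bad : (Fin 3 → ℤ) → (Fin 3 → ℤ) → (Fin 3 → ℤ) → Prop) (SG BG : ℝ)
    (hSG0 : 0 < SG) (hBG0 : 0 < BG)
    (hSG : SG * (Fintype.card G : ℝ)
      ≤ ∑ g : G, (((Box W).filter (fun u => A g u)).card : ℝ))
    (hBG : ∑ g : G, ((badTriples ((Box W).filter (fun u => A g u))
          (fun u v w => crossProduct (v - u) (w - u) ≠ 0 ∧ Bad u v w)).card : ℝ)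
        ≤ BG * (Fintype.card G : ℝ))
    (h1 : (W : ℝ) ^ 2 * SG ≤ BG) (h2 : BG ≤ 4 * (W : ℝ) ^ 6 * SG) :
    ∃ T ⊆ Box W, SG ^ 3 / (256 * BG) ≤ (T.card : ℝ) ^ 2 ∧
      ∀ u ∈ T, ∀ v ∈ T, ∀ w ∈ T, u ≠ v → u ≠ w → v ≠ w → ¬ Bad u v w := by
  obtain ⟨P, hP, hP1, hP2⟩ := Nat.exists_prime_lt_and_le_two_mul (2 * W) (by omega)
  have hP3 : 2 < P := by omega
  have hWR : (0 : ℝ) < (W : ℝ) := by exact_mod_cast hW
  have hPR : (0 : ℝ) < (P : ℝ) := by exact_mod_cast hP.pos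
  have hPlo : 2 * (W : ℝ) ≤ (P : ℝ) := by exact_mod_cast hP1.le
  have hPhi : (P : ℝ) ≤ 4 * (W : ℝ) := by
    have : P ≤ 4 * W := by omega
    exact_mod_cast this
  set x : ℝ := Real.sqrt ((P : ℝ) ^ 6 * SG / (16 * BG)) with hx
  have hx2 : x ^ 2 = (P : ℝ) ^ 6 * SG / (16 * BG) := by
    rw [hx, Real.sq_sqrt (by positivity)]
  have hx0 : 0 ≤ x := Real.sqrt_nonneg _
  have hx1 : 1 ≤ x := by
    rw [hx]
    apply Real.one_le_sqrt.2
    rw [le_div_iff₀ (by positivity), one_mul]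
    have h6 : (2 * (W : ℝ)) ^ 6 ≤ (P : ℝ) ^ 6 := by gcongr
    calc 16 * BG ≤ 16 * (4 * (W : ℝ) ^ 6 * SG) := by linarith
      _ = (2 * (W : ℝ)) ^ 6 * SG := by ring
      _ ≤ (P : ℝ) ^ 6 * SG := by gcongr
  have hxP : x ≤ (P : ℝ) ^ 2 := by
    have : x ^ 2 ≤ ((P : ℝ) ^ 2) ^ 2 := by
      rw [hx2, div_le_iff₀ (by positivity)]
      have h3 : (P : ℝ) ^ 2 ≤ (4 * (W : ℝ)) ^ 2 := by gcongr
      calc (P : ℝ) ^ 6 * SG = ((P : ℝ) ^ 2) ^ 2 * ((P : ℝ) ^ 2 * SG) := by ring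
        _ ≤ ((P : ℝ) ^ 2) ^ 2 * ((4 * (W : ℝ)) ^ 2 * SG) := by gcongr
        _ = ((P : ℝ) ^ 2) ^ 2 * (16 * ((W : ℝ) ^ 2 * SG)) := by ring
        _ ≤ ((P : ℝ) ^ 2) ^ 2 * (16 * BG) := by gcongr
    exact le_of_sq_le_sq this (by positivity)
  set e : ℕ := ⌊x⌋₊ with he
  have heP : e ≤ P ^ 2 := by
    have : (e : ℝ) ≤ (P : ℝ) ^ 2 := (Nat.floor_le hx0).trans hxP
    exact_mod_cast this
  have hex : (e : ℝ) ≤ x := Nat.floor_le hx0
  have hxe : x ≤ 2 * (e : ℝ) := by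
    have h3 : x < (e : ℝ) + 1 := Nat.lt_floor_add_one x
    have h4 : (1 : ℝ) ≤ (e : ℝ) := by
      have : 1 ≤ e := by
        rw [he]
        exact Nat.le_floor (by simpa using hx1)
      exact_mod_cast this
    linarith
  obtain ⟨H, hF, hN, E, hE1, hE2, hE3⟩ := hH W P e hP hP3 hP1 heP
  have hHpos : 0 < Fintype.card H := Fintype.card_pos
  have hHR : (0 : ℝ) < (Fintype.card H : ℝ) := by exact_mod_cast hHpos
  set a : ℕ := (univ.filter (fun h : H => E h 0)).card with ha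
  have haeq : ∀ u : Fin 3 → ℤ, (univ.filter (fun h : H => E h u)).card = a := by
    intro u
    have h3 := hE1 u
    have h4 := hE1 0
    have h5 : P ^ 3 * (univ.filter (fun h : H => E h u)).card = P ^ 3 * a := by
      rw [h3, ha, h4]
    exact Nat.eq_of_mul_eq_mul_left (pow_pos hP.pos 3) h5
  have haR : (P : ℝ) ^ 3 * (a : ℝ) = (e : ℝ) * (Fintype.card H : ℝ) := by
    have := hE1 0
    rw [← ha] at this
    exact_mod_cast this
  set b : ℕ := 8 * e ^ 3 * Fintype.card H / P ^ 9 with hb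
  have hbR : (b : ℝ) * (P : ℝ) ^ 9 ≤ 8 * (e : ℝ) ^ 3 * (Fintype.card H : ℝ) := by
    have : b * P ^ 9 ≤ 8 * e ^ 3 * Fintype.card H := Nat.div_mul_le_self _ _
    exact_mod_cast this
  have hmain : (b : ℝ) * BG ≤ (a : ℝ) * SG / 2 := by
    have hP9 : (0 : ℝ) < (P : ℝ) ^ 9 := by positivity
    rw [← mul_le_mul_iff_of_pos_right hP9]
    have h3 : (e : ℝ) ^ 2 ≤ (P : ℝ) ^ 6 * SG / (16 * BG) := by
      rw [← hx2]; gcongr
    have h4 : (e : ℝ) ^ 2 * (16 * BG) ≤ (P : ℝ) ^ 6 * SG := by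
      rwa [le_div_iff₀ (by positivity)] at h3
    calc (b : ℝ) * BG * (P : ℝ) ^ 9 = ((b : ℝ) * (P : ℝ) ^ 9) * BG := by ring
      _ ≤ (8 * (e : ℝ) ^ 3 * (Fintype.card H : ℝ)) * BG := by gcongr
      _ = ((e : ℝ) ^ 2 * (16 * BG)) * ((e : ℝ) * (Fintype.card H : ℝ)) / 2 := by ring
      _ ≤ ((P : ℝ) ^ 6 * SG) * ((e : ℝ) * (Fintype.card H : ℝ)) / 2 := by gcongr
      _ = ((P : ℝ) ^ 6 * SG) * ((P : ℝ) ^ 3 * (a : ℝ)) / 2 := by rw [haR]
      _ = (a : ℝ) * SG / 2 * (P : ℝ) ^ 9 := by ring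
  obtain ⟨g, h, T, hTB, hTA, hTcard, hT⟩ := exists_pool (G := G) (H := H) (Box W) A E Bad
    (fun u v w => crossProduct (v - u) (w - u) ≠ 0) a b
    (by
      intro u _
      have := haeq u
      convert this)
    (by
      intro u hu v hv w hw huv huw hvw h hu' hv' hw'
      exact hE2 u hu v hv w hw huv huw hvw h hu' hv' hw')
    (by
      intro u hu v hv w hw huv huw hvw _
      have h3 := hE3 u hu v hv w hw huv huw hvw
      have h4 : (univ.filter (fun h : H => E h u ∧ E h v ∧ E h w)).card ≤ b := by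
        rw [hb, Nat.le_div_iff_mul_le (pow_pos hP.pos 9)]
        exact h3
      convert h4)
    SG BG
    (by convert hSG)
    (by convert hBG)
    hmain
  refine ⟨T, hTB, ?_, hT⟩
  have hlow : (e : ℝ) / (P : ℝ) ^ 3 * SG / 2 ≤ (T.card : ℝ) := by
    have : (a : ℝ) / (Fintype.card H : ℝ) = (e : ℝ) / (P : ℝ) ^ 3 := by
      rw [div_eq_div_iff hHR.ne' (by positivity)]
      linarith
    rw [← this]
    exact hTcard
  have hlow2 : x / (2 * (P : ℝ) ^ 3) * SG / 2 ≤ (T.card : ℝ) := by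
    refine le_trans ?_ hlow
    have h5 : x / (2 * (P : ℝ) ^ 3) ≤ (e : ℝ) / (P : ℝ) ^ 3 := by
      rw [div_le_div_iff₀ (by positivity) (by positivity)]
      nlinarith [pow_pos hPR 3]
    gcongr
  have hnn : 0 ≤ x / (2 * (P : ℝ) ^ 3) * SG / 2 := by positivity
  calc SG ^ 3 / (256 * BG) = (x / (2 * (P : ℝ) ^ 3) * SG / 2) ^ 2 := by
        have : (x / (2 * (P : ℝ) ^ 3) * SG / 2) ^ 2 = x ^ 2 * SG ^ 2 / (16 * (P : ℝ) ^ 6) := by
          field_simp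
          ring
        rw [this, hx2]
        field_simp
        ring
    _ ≤ (T.card : ℝ) ^ 2 := by gcongr

end Crest.Agent.R032
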