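import Mathlib
import Crest.Agent.R032.Affine
import Crest.Agent.R032.CoreStep

/-!
Row 32 (Heilbronn), glue, part 2: the `P`-side from `Affine.lean` (helper441).
-/

set_option autoImplicit false

namespace Crest.Agent.R032

open Finset

theorem box_sub_lt {W : ℕ} {u v : Fin 3 → ℤ} (hu : u ∈ Box W) (hv : v ∈ Box W) (i : Fin 3) :
    |u i - v i| < (W : ℤ) := by
  obtain ⟨⟨a1, a2⟩, ⟨a3, a4⟩, a5, a6⟩ := mem_Box.1 hu
  obtain ⟨⟨b1, b2⟩, ⟨b3, b4⟩, b5, b6⟩ := mem_Box.1 hv
  fin_cases i <;> simp only [Fin.zero_eta, Fin.mk_one, Fin.reduceFinMk] <;> rw [abs_lt] <;>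
    constructor <;> linarith

open Classical in
theorem card_filter_sub {α : Type*} (S : Finset α) (p : α → Prop) :
    (univ.filter (fun h : {x // x ∈ S} => p h.1)).card = (S.filter p).card := by
  rw [← card_map (Function.Embedding.subtype _)]
  congr 1
  ext x
  simp only [mem_map, mem_filter, mem_univ, true_and, Function.Embedding.coe_subtype,
    Subtype.exists, exists_and_left, exists_prop, exists_eq_right_right]
  tauto

theorem hSide_holds : HSideStmt := by
  classical
  intro W P e hP hP2 hWP he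
  haveI : Fact P.Prime := ⟨hP⟩
  obtain ⟨E, hEc, hE⟩ := exists_cap P hP2 e he
  have hpos : 0 < (AffSet P).card := by
    have := card_affSet_ge P
    have h2 : 0 < P ^ 12 := pow_pos hP.pos 12
    omega
  obtain ⟨h0, hh0⟩ := card_pos.1 hpos
  have hcard : Fintype.card {h : AffH P // h ∈ AffSet P} = (AffSet P).card := by
    simp
  refine ⟨{h : AffH P // h ∈ AffSet P}, inferInstance, ⟨⟨h0, hh0⟩⟩,
    fun h u => h.1.act (red P u) ∈ E, ?_, ?_, ?_⟩
  · intro u
    rw [hcard]
    have h1 := card_act_mem P (red P u) E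
    rw [hEc, mul_comm (AffSet P).card] at h1
    have h2 := card_filter_sub (AffSet P) (fun h => h.act (red P u) ∈ E)
    rw [← h1]
    congr 1
    convert h2
  · intro u hu v hv w hw huv huw hvw h h1 h2 h3 hdep
    have d : ∀ {a b : Fin 3 → ℤ}, a ∈ Box W → b ∈ Box W → ∀ i, |a i - b i| < (P : ℤ) := by
      intro a b ha hb i
      have := box_sub_lt ha hb i
      have h4 : (W : ℤ) ≤ P := by exact_mod_cast (by omega : W ≤ P)
      linarith
    exact box_kills P hE h.2 (d hu hv) (d hu hw) (d hv hw) huv huw hvw hdep ⟨h1, h2, h3⟩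
  · intro u hu v hv w hw huv huw hvw
    rw [hcard]
    have d : ∀ {a b : Fin 3 → ℤ}, a ∈ Box W → b ∈ Box W → ∀ i, |a i - b i| < (P : ℤ) := by
      intro a b ha hb i
      have := box_sub_lt ha hb i
      have h4 : (W : ℤ) ≤ P := by exact_mod_cast (by omega : W ≤ P)
      linarith
    have h1 := box_card_triple P hE (d hu hv) (d hu hw) (d hv hw) huv huw hvw
    have h2 := card_filter_sub (AffSet P)
      (fun h => h.act (red P u) ∈ E ∧ h.act (red P v) ∈ E ∧ h.act (red P w) ∈ E)
    rw [hEc] at h1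
    calc _ = ((AffSet P).filter fun h => h.act (red P u) ∈ E ∧ h.act (red P v) ∈ E ∧
          h.act (red P w) ∈ E).card * P ^ 9 := by
          congr 1
          convert h2
      _ ≤ 8 * (AffSet P).card * e ^ 3 := h1
      _ = _ := by ring

end Crest.Agent.R032
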