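/-
Row 32 (S0042, Heilbronn), sections 1 + 2 of note 10070: interface (helper601).
-/
import Mathlib

set_option autoImplicit false

namespace Crest.Agent.R032

/-- determinant of the 3 x 3 matrix with columns `x, y, z` (row `i` = point number `i`) -/
def dt {R : Type*} [CommRing R] (x y z : Fin 3 → R) : R :=
  x 0 * (y 1 * z 2 - y 2 * z 1) - x 1 * (y 0 * z 2 - y 2 * z 0) + x 2 * (y 0 * z 1 - y 1 * z 0)

/-- SECTION 1 (GADGET, helper558) -/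
def GadgetStmt : Prop := ∃ K0 : ℕ, ∀ p : ℕ, p.Prime → 3 < p →
  ∃ a b c : Fin K0 → Fin (p ^ 3) → ℤ,
    (∀ k t, 0 ≤ a k t ∧ a k t < p) ∧ (∀ k t, 0 ≤ b k t ∧ b k t < p) ∧
    (∀ k t, 0 ≤ c k t ∧ c k t < p) ∧
    ∀ t : Fin 3 → Fin (p ^ 3), Function.Injective t →
      ¬ (p : ℤ) ∣ ∑ k, dt (fun i => a k (t i)) (fun i => b k (t i)) (fun i => c k (t i))

/-- SECTION 2 (REALISATION, helper601): the labelled set
`C = {(x t + e, y t, z t) : t a label, 0 ≤ e < N}` modulo `Q`. -/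
structure LabSet (p Q N : ℕ) (x y z : Fin (p ^ 3) → ℤ) : Prop where
  N_pos : 0 < N
  N_le : N ≤ Q
  le_N2 : Q ≤ N ^ 2
  /-- (i) -/
  sep : ∀ t : Fin 3 → Fin (p ^ 3), Function.Injective t → ∀ e : Fin 3 → ℤ,
    (∀ i, 0 ≤ e i ∧ e i < N) → ∀ j : ℤ,
    (Q : ℤ) < 2 * p * |dt (fun i => x (t i) + e i) (fun i => y (t i)) (fun i => z (t i)) - j * Q|
  /-- (ii) -/
  wedge : ∀ t s : Fin (p ^ 3), t ≠ s → ¬ (Q : ℤ) ∣ y t * z s - y s * z t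
  /-- (ii') -/
  nz : ∀ t : Fin (p ^ 3), ¬ ((Q : ℤ) ∣ y t ∧ (Q : ℤ) ∣ z t)

def RealStmt : Prop := ∃ A : ℕ, ∀ p : ℕ, p.Prime → 3 < p → ∀ Q : ℕ, p ^ A ≤ Q →
  ∃ (N : ℕ) (x y z : Fin (p ^ 3) → ℤ), LabSet p Q N x y z

end Crest.Agent.R032
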