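import Mathlib
import Crest.Agent.R032.RDefs
import Crest.Agent.R032.CoreStep
import Crest.Agent.R032.HSide
import Crest.Agent.R032.Params

/-!
Row 32 (Heilbronn), glue, part 3: `RealStmt → GSideStmt → Core` (helper441).
-/

set_option autoImplicit false

namespace Crest.Agent.R032

open Finset

/-- bad determinant -/
def BadDet (p Q : ℕ) (u v w : Fin 3 → ℤ) : Prop :=
  2 * (p : ℤ) * |Matrix.det (Matrix.of ![u, v, w])| ≤ Q

open Classical in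
/-- The `Q`-side: to be proved from FirstMom, SL3, CountA, CountB, CountC. -/
def GSideStmt : Prop :=
  ∃ C : ℝ, 0 < C ∧ ∀ (p Q N : ℕ) (x y z : Fin (p ^ 3) → ℤ), p.Prime → Q.Prime →
    LabSet p Q N x y z → ∀ W : ℕ, 0 < W → Q ∣ W →
      ∃ (G : Type) (_ : Fintype G) (_ : Nonempty G) (A : G → (Fin 3 → ℤ) → Prop),
        (∀ g, ((Box W).filter (fun u => A g u)).card = p ^ 3 * N * (W / Q) ^ 3) ∧
        (∑ g : G, ((badTriples ((Box W).filter (fun u => A g u))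
          (fun u v w => crossProduct (v - u) (w - u) ≠ 0 ∧ BadDet p Q u v w)).card : ℝ)) *
            (Q : ℝ) ^ 8
          ≤ C * (p : ℝ) ^ 6 * (N : ℝ) ^ 3 * (W : ℝ) ^ 6 * ((Nat.log 2 W : ℝ) + 1) *
            (Fintype.card G : ℝ)

theorem core_of (hR : RealStmt) (hG : GSideStmt) : Core := by
  classical
  obtain ⟨A₀, hA₀⟩ := hR
  obtain ⟨C₀, hC₀, hG⟩ := hG
  set C : ℝ := max C₀ 1 with hC
  have hC1 : 1 ≤ C := le_max_right _ _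
  have hCpos : 0 < C := by linarith
  refine ⟨A₀ + 3, 8, 1 / (256 * C), by positivity, max 4 ⌈C⌉₊, ?_⟩
  intro p Q W hp hQ hp₀ hpQ hQW hQ8 hW
  have hp4 : 4 ≤ p := le_trans (le_max_left _ _) hp₀
  have hpC : C ≤ (p : ℝ) := by
    have h1 : ⌈C⌉₊ ≤ p := le_trans (le_max_right _ _) hp₀
    exact (Nat.le_ceil C).trans (by exact_mod_cast h1)
  have hp1 : 1 ≤ p := by omega
  have hpA : p ^ A₀ ≤ Q := le_trans (Nat.pow_le_pow_right hp1 (by omega)) hpQ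
  have hp3 : p ^ 3 ≤ Q := le_trans (Nat.pow_le_pow_right hp1 (by omega)) hpQ
  obtain ⟨N, x, y, z, hL⟩ := hA₀ p hp (by omega) Q hpA
  obtain ⟨G, hF, hN, A, h1, h2⟩ := hG p Q N x y z hp hQ hL W hW hQW
  -- real numbers
  have hQpos : 0 < Q := hQ.pos
  have hNpos : 0 < N := hL.N_pos
  have hpR : (4 : ℝ) ≤ (p : ℝ) := by exact_mod_cast hp4
  have hpR0 : (0 : ℝ) < (p : ℝ) := by linarith
  have hQR : (0 : ℝ) < (Q : ℝ) := by exact_mod_cast hQpos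
  have hWR : (0 : ℝ) < (W : ℝ) := by exact_mod_cast hW
  have hNR : (0 : ℝ) < (N : ℝ) := by exact_mod_cast hNpos
  have hNQ : (N : ℝ) ≤ (Q : ℝ) := by exact_mod_cast hL.N_le
  have hp3Q : (p : ℝ) ^ 3 ≤ (Q : ℝ) := by exact_mod_cast hp3
  have hpQ' : (p : ℝ) ≤ (Q : ℝ) := by
    refine le_trans ?_ hp3Q
    nlinarith [sq_nonneg ((p : ℝ))]
  have hQ1 : (1 : ℝ) ≤ (Q : ℝ) := by exact_mod_cast hQpos
  have hN1 : (1 : ℝ) ≤ (N : ℝ) := by exact_mod_cast hNpos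
  have hQ8R : (Q : ℝ) ^ 8 ≤ (W : ℝ) := by exact_mod_cast hQ8
  set L : ℝ := (Nat.log 2 W : ℝ) + 1 with hLdef
  have hL1 : 1 ≤ L := by
    have : (0 : ℝ) ≤ (Nat.log 2 W : ℝ) := Nat.cast_nonneg _
    linarith
  have hLW : L ≤ (W : ℝ) := by
    have h3 : Nat.log 2 W < W := Nat.log_lt_of_lt_pow hW.ne' (Nat.lt_two_pow_self)
    have h4 : Nat.log 2 W + 1 ≤ W := h3
    rw [hLdef]
    exact_mod_cast h4
  have hLpos : 0 < L := by linarith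
  set SG : ℝ := (p : ℝ) ^ 3 * N * W ^ 3 / Q ^ 3 with hSGdef
  set BG : ℝ := C * (p : ℝ) ^ 6 * (N : ℝ) ^ 3 * (W : ℝ) ^ 6 * L / (Q : ℝ) ^ 8 with hBGdef
  have hSG0 : 0 < SG := by positivity
  have hBG0 : 0 < BG := by positivity
  have hGR : (0 : ℝ) < (Fintype.card G : ℝ) := by exact_mod_cast Fintype.card_pos
  have hSG : SG * (Fintype.card G : ℝ) ≤ ∑ g : G, (((Box W).filter (fun u => A g u)).card : ℝ) := by
    have h3 : ∀ g : G, (((Box W).filter (fun u => A g u)).card : ℝ) = SG := by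
      intro g
      rw [h1 g]
      obtain ⟨k, rfl⟩ := hQW
      rw [Nat.mul_div_cancel_left _ hQpos, hSGdef]
      push_cast
      field_simp
    rw [sum_congr rfl (fun g _ => h3 g), sum_const, card_univ, nsmul_eq_mul, mul_comm]
  have hBG : ∑ g : G, ((badTriples ((Box W).filter (fun u => A g u))
          (fun u v w => crossProduct (v - u) (w - u) ≠ 0 ∧ BadDet p Q u v w)).card : ℝ)
        ≤ BG * (Fintype.card G : ℝ) := by
    have h3 : BG * (Fintype.card G : ℝ) = (C * (p : ℝ) ^ 6 * (N : ℝ) ^ 3 * (W : ℝ) ^ 6 * L *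
        (Fintype.card G : ℝ)) / (Q : ℝ) ^ 8 := by
      rw [hBGdef]; ring
    rw [h3, le_div_iff₀ (by positivity)]
    refine h2.trans ?_
    have h4 : C₀ ≤ C := le_max_left _ _
    gcongr
  have hcond1 : (W : ℝ) ^ 2 * SG ≤ BG := by
    rw [hSGdef, hBGdef, le_div_iff₀ (by positivity)]
    have e1 : (W : ℝ) ^ 2 * ((p : ℝ) ^ 3 * N * W ^ 3 / Q ^ 3) * (Q : ℝ) ^ 8
        = ((p : ℝ) ^ 3 * N * W ^ 5) * (Q : ℝ) ^ 5 := by
      field_simp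
    rw [e1]
    have e2 : (Q : ℝ) ^ 5 ≤ (W : ℝ) := by
      refine le_trans ?_ hQ8R
      exact pow_le_pow_right₀ hQ1 (by norm_num)
    have e3 : (1 : ℝ) ≤ (p : ℝ) ^ 3 := one_le_pow₀ (by linarith)
    have e4 : (1 : ℝ) ≤ (N : ℝ) ^ 2 := one_le_pow₀ hN1
    calc ((p : ℝ) ^ 3 * N * W ^ 5) * (Q : ℝ) ^ 5 ≤ ((p : ℝ) ^ 3 * N * W ^ 5) * W := by gcongr
      _ = (1 * 1 * 1 * 1) * ((p : ℝ) ^ 3 * N * W ^ 6) := by ring
      _ ≤ (C * (p : ℝ) ^ 3 * (N : ℝ) ^ 2 * L) * ((p : ℝ) ^ 3 * N * W ^ 6) := by gcongr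
      _ = C * (p : ℝ) ^ 6 * (N : ℝ) ^ 3 * (W : ℝ) ^ 6 * L := by ring
  have hcond2 : BG ≤ 4 * (W : ℝ) ^ 6 * SG := by
    rw [hSGdef, hBGdef, div_le_iff₀ (by positivity)]
    have e1 : 4 * (W : ℝ) ^ 6 * ((p : ℝ) ^ 3 * N * W ^ 3 / Q ^ 3) * (Q : ℝ) ^ 8
        = (4 * Q ^ 5 * W ^ 3) * ((p : ℝ) ^ 3 * N * W ^ 6) := by
      field_simp
    rw [e1]
    have e2 : C * (p : ℝ) ^ 3 * (N : ℝ) ^ 2 * L ≤ 4 * (Q : ℝ) ^ 5 * (W : ℝ) ^ 3 := by
      have e3 : (1 : ℝ) ≤ (W : ℝ) := by exact_mod_cast hW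
      calc C * (p : ℝ) ^ 3 * (N : ℝ) ^ 2 * L ≤ Q * Q * (Q : ℝ) ^ 2 * W := by
            have : C ≤ (Q : ℝ) := hpC.trans hpQ'
            gcongr
        _ = 1 * ((Q : ℝ) ^ 4 * 1) * (W * 1) := by ring
        _ ≤ 4 * ((Q : ℝ) ^ 4 * Q) * (W * W ^ 2) := by
            have : (1 : ℝ) ≤ (W : ℝ) ^ 2 := one_le_pow₀ e3
            gcongr
            norm_num
        _ = 4 * (Q : ℝ) ^ 5 * (W : ℝ) ^ 3 := by ring
    calc C * (p : ℝ) ^ 6 * (N : ℝ) ^ 3 * (W : ℝ) ^ 6 * L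
        = (C * (p : ℝ) ^ 3 * (N : ℝ) ^ 2 * L) * ((p : ℝ) ^ 3 * N * W ^ 6) := by ring
      _ ≤ (4 * Q ^ 5 * W ^ 3) * ((p : ℝ) ^ 3 * N * W ^ 6) := by gcongr
  obtain ⟨T, hTB, hTc, hT⟩ := core_step hSide_holds A W hW (BadDet p Q) SG BG hSG0 hBG0
    hSG hBG hcond1 hcond2
  refine ⟨T, ?_, ?_, ?_⟩
  · intro u hu
    obtain ⟨⟨a1, a2⟩, ⟨a3, a4⟩, a5, a6⟩ := mem_Box.1 (hTB hu)
    exact ⟨a1, a2, a3, a4, a5, a6⟩
  · refine le_trans (le_of_eq ?_) hTc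
    rw [hSGdef, hBGdef]
    field_simp
  · intro u hu v hv w hw huv huw hvw
    have := hT u hu v hv w hw huv huw hvw
    unfold BadDet at this
    exact not_le.1 this

end Crest.Agent.R032
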