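import Crest.Agent.R032.LL

/-! Row 32 (Heilbronn), section 3, count (A): triples of the box with given nonzero determinant
(helper707). -/

set_option autoImplicit false

namespace Crest.Agent.R032

open Classical in
/-- the positive content and the primitive part of an integer vector -/
noncomputable def prPart (v : Fin 3 → ℤ) : ℤ × (Fin 3 → ℤ) :=
  if hv : v ≠ 0 then ((exists_prim v hv).choose, (exists_prim v hv).choose_spec.choose) else (1, 0)

theorem prPart_spec {v : Fin 3 → ℤ} (hv : v ≠ 0) :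
    0 < (prPart v).1 ∧ Finset.univ.gcd (prPart v).2 = 1 ∧ v = (prPart v).1 • (prPart v).2 := by
  unfold prPart
  rw [dif_pos hv]
  exact (exists_prim v hv).choose_spec.choose_spec

theorem ne_zero_of_gcd {ν : Fin 3 → ℤ} (h : Finset.univ.gcd ν = 1) : ν ≠ 0 := by
  rintro rfl
  obtain ⟨w, hw⟩ := bezout 0 h
  simp at hw

/-- the `j`-th coordinates of the three points -/
def col (j : Fin 3) (U : Fin 3 → Fin 3 → ℤ) : Fin 3 → ℤ := fun i => U i j

theorem det_eq_cols (U : Fin 3 → Fin 3 → ℤ) :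
    Matrix.det (Matrix.of U) = ∑ i, col 0 U i * crossProduct (col 1 U) (col 2 U) i := by
  rw [Matrix.det_fin_three, Fin.sum_univ_three, cross_apply]
  simp only [col, Matrix.of_apply, Matrix.cons_val_zero, Matrix.cons_val_one, Matrix.cons_val]
  ring

theorem dot_cross_left (y z : Fin 3 → ℤ) : ∑ i, crossProduct y z i * y i = 0 := by
  rw [Fin.sum_univ_three, cross_apply]
  simp only [Matrix.cons_val_zero, Matrix.cons_val_one, Matrix.cons_val]
  ring

theorem dot_cross_right (y z : Fin 3 → ℤ) : ∑ i, crossProduct y z i * z i = 0 := by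
  rw [Fin.sum_univ_three, cross_apply]
  simp only [Matrix.cons_val_zero, Matrix.cons_val_one, Matrix.cons_val]
  ring

theorem dot_of_smul {g : ℤ} (hg : 0 < g) {ν x : Fin 3 → ℤ} {d : ℤ}
    (h : ∑ i, (g • ν) i * x i = d) : g * ∑ i, ν i * x i = d := by
  rw [← h, Finset.mul_sum]
  refine Finset.sum_congr rfl fun i _ => ?_
  rw [Pi.smul_apply, smul_eq_mul]
  ring

theorem countA (B : ℕ) (hB : 1 ≤ B) (d : ℤ) (hd : d ≠ 0) (T : Finset (Fin 3 → Fin 3 → ℤ))
    (hbox : ∀ U ∈ T, ∀ i j, 0 ≤ U i j ∧ U i j < B)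
    (hdet : ∀ U ∈ T, Matrix.det (Matrix.of U) = d) :
    (T.card : ℝ) ≤ 64 * 6 ^ 6 * (B : ℝ) ^ 6 * ((Nat.log 2 (2 * B ^ 2) : ℝ) + 1) := by
  classical
  set cr : (Fin 3 → Fin 3 → ℤ) → (Fin 3 → ℤ) := fun U => crossProduct (col 1 U) (col 2 U) with hcr
  have hcr0 : ∀ U ∈ T, cr U ≠ 0 := by
    intro U hU h0
    have h1 := hdet U hU
    rw [det_eq_cols] at h1
    apply hd
    rw [← h1]
    refine Finset.sum_eq_zero fun i _ => ?_
    have : crossProduct (col 1 U) (col 2 U) i = 0 := congrFun h0 i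
    rw [this, mul_zero]
  have habs : ∀ U ∈ T, ∀ j i, |col j U i| ≤ (B : ℤ) := by
    intro U hU j i
    have h1 := hbox U hU i j
    rw [abs_le]
    have hB' : (0 : ℤ) ≤ B := Int.natCast_nonneg B
    exact ⟨by change -(B:ℤ) ≤ U i j; linarith [h1.1], h1.2.le⟩
  set pr : (Fin 3 → Fin 3 → ℤ) → (Fin 3 → ℤ) := fun U => (prPart (cr U)).2 with hpr
  set V := T.image pr with hV
  have hVspec : ∀ ν ∈ V, Finset.univ.gcd ν = 1 ∧ H ν ≤ 2 * B ^ 2 := by
    intro ν hν
    rw [hV, Finset.mem_image] at hν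
    obtain ⟨U, hU, rfl⟩ := hν
    obtain ⟨h1, h2, h3⟩ := prPart_spec (hcr0 U hU)
    refine ⟨h2, ?_⟩
    calc H (prPart (cr U)).2 ≤ H ((prPart (cr U)).1 • (prPart (cr U)).2) := H_le_of_smul h1 _
      _ = H (cr U) := by rw [← h3]
      _ ≤ 2 * B ^ 2 := H_cross_le _ _ B (habs U hU 1) (habs U hU 2)
  -- the fibres
  have hfib : ∀ ν ∈ V, (T.filter fun U => pr U = ν).card * H ν ^ 3 ≤ ((5 * B + 1) ^ 2) ^ 3 := by
    intro ν hν
    obtain ⟨hg, -⟩ := hVspec ν hν
    set F := T.filter fun U => pr U = ν with hF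
    obtain ⟨U₀, hU₀, hU₀ν⟩ := Finset.mem_image.1 hν
    have hFT : ∀ U ∈ F, U ∈ T ∧ pr U = ν := fun U hU => by
      rw [hF, Finset.mem_filter] at hU; exact hU
    have horth : ∀ U ∈ F, (∑ i, ν i * col 1 U i = 0) ∧ (∑ i, ν i * col 2 U i = 0) := by
      intro U hU
      obtain ⟨hUT, hUν⟩ := hFT U hU
      obtain ⟨h1, h2, h3⟩ := prPart_spec (hcr0 U hUT)
      have hUν' : (prPart (cr U)).2 = ν := hUν
      rw [hUν'] at h3
      constructor
      · have := dot_of_smul h1 (ν := ν) (x := col 1 U) (d := 0)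
          (by rw [← h3]; exact dot_cross_left _ _)
        exact (mul_eq_zero.1 this).resolve_left h1.ne'
      · have := dot_of_smul h1 (ν := ν) (x := col 2 U) (d := 0)
          (by rw [← h3]; exact dot_cross_right _ _)
        exact (mul_eq_zero.1 this).resolve_left h1.ne'
    have hU₀F : U₀ ∈ F := by rw [hF, Finset.mem_filter]; exact ⟨hU₀, hU₀ν⟩
    have hLL := fun (c : Fin 3 → ℤ) (d : ℤ) (s : Finset (Fin 3 → ℤ)) =>
      LL ν (col 1 U₀) (col 2 U₀) B hg (horth U₀ hU₀F).1 (horth U₀ hU₀F).2 (hcr0 U₀ hU₀)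
        (habs U₀ hU₀ 1) (habs U₀ hU₀ 2) c d s
    have hbox' : ∀ U ∈ F, ∀ j i, (0 : Fin 3 → ℤ) i ≤ col j U i ∧
        col j U i ≤ (0 : Fin 3 → ℤ) i + B := by
      intro U hU j i
      have := hbox U (hFT U hU).1 i j
      refine ⟨this.1, ?_⟩
      simp only [Pi.zero_apply, zero_add]
      exact this.2.le
    set P := F.image (col 1) ∪ F.image (col 2) with hP
    have hPcard : P.card * H ν ≤ (5 * B + 1) ^ 2 := by
      refine hLL 0 0 P ?_
      intro x hx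
      rw [hP, Finset.mem_union, Finset.mem_image, Finset.mem_image] at hx
      rcases hx with ⟨U, hU, rfl⟩ | ⟨U, hU, rfl⟩
      · exact ⟨hbox' U hU 1, (horth U hU).1⟩
      · exact ⟨hbox' U hU 2, (horth U hU).2⟩
    have hS : ∀ q ∈ P ×ˢ P, (F.filter fun U => (col 1 U, col 2 U) = q).card * H ν
        ≤ (5 * B + 1) ^ 2 := by
      rintro ⟨y, z⟩ _
      set G := F.filter fun U => (col 1 U, col 2 U) = (y, z) with hG
      rcases G.eq_empty_or_nonempty with h0 | ⟨U₁, hU₁⟩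
      · rw [h0]; simp
      have hGF : ∀ U ∈ G, U ∈ F ∧ col 1 U = y ∧ col 2 U = z := fun U hU => by
        rw [hG, Finset.mem_filter, Prod.mk.injEq] at hU; exact hU
      have hinj : Set.InjOn (col 0) (G : Set (Fin 3 → Fin 3 → ℤ)) := by
        intro U hU U' hU' h
        obtain ⟨-, e1, e2⟩ := hGF U hU
        obtain ⟨-, e1', e2'⟩ := hGF U' hU'
        funext i j
        fin_cases j
        · exact congrFun h i
        · exact congrFun (e1.trans e1'.symm) i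
        · exact congrFun (e2.trans e2'.symm) i
      rw [← Finset.card_image_of_injOn hinj]
      obtain ⟨h1, h2, h3⟩ := prPart_spec (hcr0 U₁ (hFT U₁ (hGF U₁ hU₁).1).1)
      refine hLL 0 (∑ i, ν i * col 0 U₁ i) _ ?_
      intro x hx
      rw [Finset.mem_image] at hx
      obtain ⟨U, hU, rfl⟩ := hx
      obtain ⟨hUF, e1, e2⟩ := hGF U hU
      obtain ⟨hU₁F, e1', e2'⟩ := hGF U₁ hU₁
      refine ⟨hbox' U hUF 0, ?_⟩
      have hcrU : cr U = cr U₁ := by simp only [hcr, e1, e2, e1', e2']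
      have hν1 : (prPart (cr U₁)).2 = ν := (hFT U₁ hU₁F).2
      have d1 := hdet U (hFT U hUF).1
      have d2 := hdet U₁ (hFT U₁ hU₁F).1
      rw [det_eq_cols] at d1 d2
      have f1 : ∑ i, cr U₁ i * col 0 U i = d := by
        rw [← d1, ← hcrU]
        exact Finset.sum_congr rfl fun i _ => mul_comm _ _
      have f2 : ∑ i, cr U₁ i * col 0 U₁ i = d := by
        rw [← d2]
        exact Finset.sum_congr rfl fun i _ => mul_comm _ _
      rw [h3, hν1] at f1 f2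
      have g1 := dot_of_smul h1 f1
      have g2 := dot_of_smul h1 f2
      exact mul_left_cancel₀ h1.ne' (g1.trans g2.symm)
    have hFcard : F.card * H ν ≤ P.card ^ 2 * (5 * B + 1) ^ 2 := by
      have hmaps : ∀ U ∈ F, (col 1 U, col 2 U) ∈ P ×ˢ P := by
        intro U hU
        rw [Finset.mem_product, hP]
        exact ⟨Finset.mem_union_left _ (Finset.mem_image_of_mem _ hU),
          Finset.mem_union_right _ (Finset.mem_image_of_mem _ hU)⟩
      rw [Finset.card_eq_sum_card_fiberwise hmaps, Finset.sum_mul]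
      calc ∑ q ∈ P ×ˢ P, (F.filter fun U => (col 1 U, col 2 U) = q).card * H ν
          ≤ ∑ _q ∈ P ×ˢ P, (5 * B + 1) ^ 2 := Finset.sum_le_sum hS
        _ = P.card ^ 2 * (5 * B + 1) ^ 2 := by
            rw [Finset.sum_const, Finset.card_product, smul_eq_mul]; ring
    calc F.card * H ν ^ 3 = (F.card * H ν) * H ν ^ 2 := by ring
      _ ≤ (P.card ^ 2 * (5 * B + 1) ^ 2) * H ν ^ 2 := Nat.mul_le_mul_right _ hFcard
      _ = (P.card * H ν) ^ 2 * (5 * B + 1) ^ 2 := by ring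
      _ ≤ ((5 * B + 1) ^ 2) ^ 2 * (5 * B + 1) ^ 2 := by gcongr
      _ = ((5 * B + 1) ^ 2) ^ 3 := by ring
  have hfib' : ∀ ν ∈ V, ((T.filter fun U => pr U = ν).card : ℝ) ≤
      6 ^ 6 * (B : ℝ) ^ 6 * (1 / (H ν : ℝ) ^ 3) := by
    intro ν hν
    have hpos : 0 < H ν := H_pos (ne_zero_of_gcd (hVspec ν hν).1)
    have h1 : ((T.filter fun U => pr U = ν).card : ℝ) * (H ν : ℝ) ^ 3
        ≤ (((5 * (B:ℝ) + 1) ^ 2) ^ 3) := by exact_mod_cast hfib ν hν
    have h2 : ((5 * (B:ℝ) + 1) ^ 2) ^ 3 ≤ 6 ^ 6 * (B : ℝ) ^ 6 := by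
      have hB' : (1:ℝ) ≤ B := by exact_mod_cast hB
      have : 5 * (B:ℝ) + 1 ≤ 6 * B := by linarith
      calc ((5 * (B:ℝ) + 1) ^ 2) ^ 3 = (5 * (B:ℝ) + 1) ^ 6 := by ring
        _ ≤ (6 * (B:ℝ)) ^ 6 := by gcongr
        _ = 6 ^ 6 * (B : ℝ) ^ 6 := by ring
    have hposR : (0:ℝ) < (H ν : ℝ) ^ 3 := by positivity
    rw [mul_one_div, le_div_iff₀ hposR]
    exact h1.trans h2
  have hsum := S1 (2 * B ^ 2) V fun ν hν => ⟨ne_zero_of_gcd (hVspec ν hν).1, (hVspec ν hν).2⟩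
  have hT : (T.card : ℝ) = ∑ ν ∈ V, ((T.filter fun U => pr U = ν).card : ℝ) := by
    rw [hV, Finset.card_eq_sum_card_image pr T]
    push_cast
    rfl
  rw [hT]
  calc ∑ ν ∈ V, ((T.filter fun U => pr U = ν).card : ℝ)
      ≤ ∑ ν ∈ V, 6 ^ 6 * (B : ℝ) ^ 6 * (1 / (H ν : ℝ) ^ 3) := Finset.sum_le_sum hfib'
    _ = 6 ^ 6 * (B : ℝ) ^ 6 * ∑ ν ∈ V, 1 / (H ν : ℝ) ^ 3 := by rw [Finset.mul_sum]
    _ ≤ 6 ^ 6 * (B : ℝ) ^ 6 * (64 * ((Nat.log 2 (2 * B ^ 2) : ℝ) + 1)) := by gcongr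
    _ = _ := by ring

end Crest.Agent.R032
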