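import Crest.Agent.R032.Sums

/-! Row 32 (Heilbronn), section 3: the lattice lemma (helper707). -/

set_option autoImplicit false

namespace Crest.Agent.R032

theorem exists_H (ν : Fin 3 → ℤ) : ∃ i, H ν = (ν i).natAbs := by
  obtain ⟨i, -, hi⟩ := Finset.exists_mem_eq_sup Finset.univ Finset.univ_nonempty
    (fun i => (ν i).natAbs)
  exact ⟨i, hi⟩

theorem H_le_iff' (ν : Fin 3 → ℤ) (n : ℕ) : H ν ≤ n ↔ ∀ i, |ν i| ≤ n := by
  rw [H_le_iff]
  refine forall_congr' fun i => ?_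
  rw [Int.abs_eq_natAbs]
  exact Nat.cast_le.symm

theorem H_eq_zero {ν : Fin 3 → ℤ} : H ν = 0 ↔ ν = 0 := by
  constructor
  · intro h
    funext i
    have h1 := natAbs_le_H ν i
    rw [h] at h1
    simpa using h1
  · rintro rfl
    exact Nat.le_zero.1 (H_le_iff.2 (by simp))

/-- core of the lattice lemma, for one coordinate `j` -/
theorem LL_core (ν a b w : Fin 3 → ℤ) (i k j : Fin 3)
    (hdot : ∀ x y : Fin 3 → ℤ, ∑ t, x t * y t = x i * y i + x k * y k + x j * y j)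
    (hext : ∀ x y : Fin 3 → ℤ, x i = y i → x k = y k → x j = y j → x = y)
    (B : ℕ) (hw : ∑ t, ν t * w t = 1) (ha : ∑ t, ν t * a t = 0) (hb : ∑ t, ν t * b t = 0)
    (hab : a i * b k - a k * b i ≠ 0) (hj : ν j ≠ 0)
    (haB : ∀ i, |a i| ≤ B) (hbB : ∀ i, |b i| ≤ B) (c : Fin 3 → ℤ) (d : ℤ)
    (s : Finset (Fin 3 → ℤ))
    (hs : ∀ x ∈ s, (∀ i, c i ≤ x i ∧ x i ≤ c i + B) ∧ ∑ i, ν i * x i = d) :
    s.card * (ν j).natAbs ≤ (5 * B + 1) ^ 2 := by
  rw [hdot] at hw ha hb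
  have red : ∀ ρ : ℤ, ∃ r : ℤ × ℤ, |r.1| ≤ 2 * B ∧ |r.2| ≤ 2 * B ∧
      ν j ∣ (ν i * r.1 + ν k * r.2 - ρ) := by
    intro ρ
    set D := a i * b k - a k * b i with hD
    set x := ρ * w i with hx
    set y := ρ * w k with hy
    set N1 := x * b k - y * b i with hN1
    set N2 := a i * y - a k * x with hN2
    have e1 : D * (N1 / D) + N1 % D = N1 := Int.mul_ediv_add_emod N1 D
    have e2 : D * (N2 / D) + N2 % D = N2 := Int.mul_ediv_add_emod N2 D
    have p1 : 0 ≤ N1 % D := Int.emod_nonneg _ hab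
    have p2 : 0 ≤ N2 % D := Int.emod_nonneg _ hab
    have q1 : N1 % D < |D| := Int.emod_lt_abs _ hab
    have q2 : N2 % D < |D| := Int.emod_lt_abs _ hab
    have key : ∀ (u v z : ℤ), |u| ≤ B → |v| ≤ B → D * z = N1 % D * u + N2 % D * v →
        |z| ≤ 2 * B := by
      intro u v z hu hv h
      have hDpos : 0 < |D| := abs_pos.2 hab
      have h1 : |D| * |z| ≤ |D| * (2 * B) := by
        rw [← abs_mul, h]
        calc |N1 % D * u + N2 % D * v| ≤ |N1 % D * u| + |N2 % D * v| := abs_add_le _ _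
          _ = N1 % D * |u| + N2 % D * |v| := by
              rw [abs_mul, abs_mul, abs_of_nonneg p1, abs_of_nonneg p2]
          _ ≤ |D| * B + |D| * B := by
              have hB : (0:ℤ) ≤ B := Int.natCast_nonneg B
              gcongr
          _ = |D| * (2 * B) := by ring
      exact le_of_mul_le_mul_left h1 hDpos
    refine ⟨(x - N1 / D * a i - N2 / D * b i, y - N1 / D * a k - N2 / D * b k), ?_, ?_, ?_⟩
    · refine key (a i) (b i) _ (haB i) (hbB i) ?_
      simp only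
      have : D * (x - N1 / D * a i - N2 / D * b i)
          = D * x - (D * (N1 / D)) * a i - (D * (N2 / D)) * b i := by ring
      rw [this, show D * (N1 / D) = N1 - N1 % D by linarith,
        show D * (N2 / D) = N2 - N2 % D by linarith, hN1, hN2, hD]
      ring
    · refine key (a k) (b k) _ (haB k) (hbB k) ?_
      simp only
      have : D * (y - N1 / D * a k - N2 / D * b k)
          = D * y - (D * (N1 / D)) * a k - (D * (N2 / D)) * b k := by ring
      rw [this, show D * (N1 / D) = N1 - N1 % D by linarith,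
        show D * (N2 / D) = N2 - N2 % D by linarith, hN1, hN2, hD]
      ring
    · refine ⟨-(ρ * w j) + N1 / D * a j + N2 / D * b j, ?_⟩
      simp only
      rw [hx, hy]
      linear_combination ρ * hw - N1 / D * ha - N2 / D * hb
  choose r hr1 hr2 hr3 using red
  set n := (ν j).natAbs with hn
  have hnpos : 0 < n := Int.natAbs_pos.2 hj
  have hcard : (Finset.Icc (c i - 2 * B) (c i + 3 * B) ×ˢ
      Finset.Icc (c k - 2 * B) (c k + 3 * B)).card = (5 * B + 1) ^ 2 := by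
    rw [Finset.card_product, Int.card_Icc, Int.card_Icc]
    have h1 : (c i + 3 * (B:ℤ) + 1 - (c i - 2 * B)).toNat = 5 * B + 1 := by
      have : c i + 3 * (B:ℤ) + 1 - (c i - 2 * B) = ((5 * B + 1 : ℕ) : ℤ) := by push_cast; ring
      rw [this, Int.toNat_natCast]
    have h2 : (c k + 3 * (B:ℤ) + 1 - (c k - 2 * B)).toNat = 5 * B + 1 := by
      have : c k + 3 * (B:ℤ) + 1 - (c k - 2 * B) = ((5 * B + 1 : ℕ) : ℤ) := by push_cast; ring
      rw [this, Int.toNat_natCast]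
    rw [h1, h2]; ring
  rw [← hcard, ← Finset.card_range n, ← Finset.card_product]
  refine Finset.card_le_card_of_injOn
    (fun q : (Fin 3 → ℤ) × ℕ => (q.1 i + (r (q.2 : ℤ)).1, q.1 k + (r (q.2 : ℤ)).2)) ?_ ?_
  · rintro ⟨x, ρ⟩ hq
    rw [Finset.mem_coe, Finset.mem_product] at hq
    obtain ⟨hx, hρ⟩ := hq
    have h1 := (hs x hx).1
    have h2 := abs_le.1 (hr1 (ρ : ℤ))
    have h3 := abs_le.1 (hr2 (ρ : ℤ))
    have h4 := h1 i
    have h5 := h1 k
    rw [Finset.mem_coe, Finset.mem_product, Finset.mem_Icc, Finset.mem_Icc]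
    simp only
    refine ⟨⟨?_, ?_⟩, ⟨?_, ?_⟩⟩ <;> linarith [h4.1, h4.2, h5.1, h5.2, h2.1, h2.2, h3.1, h3.2]
  · rintro ⟨x, ρ⟩ hq ⟨x', ρ'⟩ hq' hqq
    rw [Finset.mem_coe, Finset.mem_product] at hq hq'
    obtain ⟨hx, hρ⟩ := hq
    obtain ⟨hx', hρ'⟩ := hq'
    simp only [Prod.mk.injEq] at hqq
    simp only [Finset.mem_range] at hρ hρ'
    obtain ⟨g1, g2⟩ := hqq
    have hd1 := (hs x hx).2
    have hd2 := (hs x' hx').2
    rw [hdot] at hd1 hd2
    have hdvd : ν j ∣ ((ρ : ℤ) - ρ') := by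
      have e1 := hr3 (ρ : ℤ)
      have e2 := hr3 (ρ' : ℤ)
      have e3 : (ρ : ℤ) - ρ' = (ν i * (r (ρ' : ℤ)).1 + ν k * (r (ρ' : ℤ)).2 - ρ')
          - (ν i * (r (ρ : ℤ)).1 + ν k * (r (ρ : ℤ)).2 - ρ) + ν j * (x j - x' j) := by
        linear_combination (ν i) * g1 + (ν k) * g2 - hd1 + hd2
      rw [e3]
      exact dvd_add (dvd_sub e2 e1) (Dvd.intro _ rfl)
    have hρρ : ρ = ρ' := by
      have h1 : (n : ℤ) ∣ ((ρ : ℤ) - ρ') := by rw [hn]; exact Int.natAbs_dvd.2 hdvd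
      have h2 : |(ρ : ℤ) - ρ'| < n := by
        rw [abs_lt]
        constructor
        · have : (ρ' : ℤ) < n := by exact_mod_cast hρ'
          have : (0 : ℤ) ≤ ρ := Int.natCast_nonneg _
          linarith
        · have : (ρ : ℤ) < n := by exact_mod_cast hρ
          have : (0 : ℤ) ≤ ρ' := Int.natCast_nonneg _
          linarith
      have h3 := Int.eq_zero_of_abs_lt_dvd h1 h2
      have : (ρ : ℤ) = ρ' := by linarith
      exact_mod_cast this
    subst hρρ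
    have gi : x i = x' i := by linarith
    have gk : x k = x' k := by linarith
    have gj : x j = x' j := by
      have : ν j * x j = ν j * x' j := by
        rw [gi, gk] at hd1
        linarith
      exact mul_left_cancel₀ hj this
    rw [hext x x' gi gk gj]

theorem bezout (ν : Fin 3 → ℤ) (hprim : Finset.univ.gcd ν = 1) :
    ∃ w : Fin 3 → ℤ, ∑ i, ν i * w i = 1 := by
  have h1 := Int.gcd_eq_gcd_ab (ν 0) (ν 1)
  set g : ℤ := (Int.gcd (ν 0) (ν 1) : ℤ) with hg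
  have h2 := Int.gcd_eq_gcd_ab g (ν 2)
  have h3 : ((Int.gcd g (ν 2) : ℕ) : ℤ) ∣ Finset.univ.gcd ν := by
    refine Finset.dvd_gcd fun i _ => ?_
    have a1 : ((Int.gcd g (ν 2) : ℕ) : ℤ) ∣ g := Int.gcd_dvd_left _ _
    have a2 : ((Int.gcd g (ν 2) : ℕ) : ℤ) ∣ ν 2 := Int.gcd_dvd_right _ _
    have a3 : g ∣ ν 0 := Int.gcd_dvd_left _ _
    have a4 : g ∣ ν 1 := Int.gcd_dvd_right _ _
    fin_cases i
    · exact a1.trans a3
    · exact a1.trans a4
    · exact a2
  rw [hprim] at h3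
  have h4 : ((Int.gcd g (ν 2) : ℕ) : ℤ) = 1 := by
    have := Int.eq_one_of_dvd_one (Int.natCast_nonneg _) h3
    exact this
  rw [h4] at h2
  refine ⟨![Int.gcdA (ν 0) (ν 1) * Int.gcdA g (ν 2), Int.gcdB (ν 0) (ν 1) * Int.gcdA g (ν 2),
    Int.gcdB g (ν 2)], ?_⟩
  rw [Fin.sum_univ_three]
  simp only [Matrix.cons_val_zero, Matrix.cons_val_one, Matrix.cons_val_two, Matrix.head_cons,
    Matrix.tail_cons]
  rw [h2, h1]
  ring

theorem prim_of_bezout (ν w : Fin 3 → ℤ) (h : ∑ i, ν i * w i = 1) : Finset.univ.gcd ν = 1 := by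
  have h1 : Finset.univ.gcd ν ∣ 1 := by
    rw [← h]
    exact Finset.dvd_sum fun i hi => (Finset.gcd_dvd hi).mul_right _
  have h2 : Finset.univ.gcd ν = normalize (Finset.univ.gcd ν) := Finset.normalize_gcd.symm
  have h3 : 0 ≤ Finset.univ.gcd ν := by
    rw [h2, ← Int.abs_eq_normalize]
    exact abs_nonneg _
  exact Int.eq_one_of_dvd_one h3 h1

/-- **Lattice lemma**: a plane `ν · x = d` with two independent short vectors in `ν^⊥` contains few
integer points of a box. -/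
theorem LL (ν a b : Fin 3 → ℤ) (B : ℕ) (hprim : Finset.univ.gcd ν = 1)
    (ha : ∑ i, ν i * a i = 0) (hb : ∑ i, ν i * b i = 0) (hab : crossProduct a b ≠ 0)
    (haB : ∀ i, |a i| ≤ B) (hbB : ∀ i, |b i| ≤ B) (c : Fin 3 → ℤ) (d : ℤ)
    (s : Finset (Fin 3 → ℤ))
    (hs : ∀ x ∈ s, (∀ i, c i ≤ x i ∧ x i ≤ c i + B) ∧ ∑ i, ν i * x i = d) :
    s.card * H ν ≤ (5 * B + 1) ^ 2 := by
  obtain ⟨w, hw⟩ := bezout ν hprim
  obtain ⟨j, hj⟩ := exists_H ν
  rw [hj]
  by_cases h0 : ν j = 0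
  · simp [h0]
  have ha' := ha
  have hb' := hb
  rw [Fin.sum_univ_three] at ha' hb'
  have hcr : ∀ m0 m1 m2 : ℤ, a 1 * b 2 - a 2 * b 1 = m0 → a 2 * b 0 - a 0 * b 2 = m1 →
      a 0 * b 1 - a 1 * b 0 = m2 → ¬ (m0 = 0 ∧ m1 = 0 ∧ m2 = 0) := by
    rintro m0 m1 m2 rfl rfl rfl ⟨e0, e1, e2⟩
    apply hab
    rw [cross_apply, e0, e1, e2]
    ext i; fin_cases i <;> rfl
  have hne := hcr _ _ _ rfl rfl rfl
  fin_cases j
  · refine LL_core ν a b w 1 2 0 (fun x y => by rw [Fin.sum_univ_three]; ring)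
      (fun x y h1 h2 h3 => by ext t; fin_cases t <;> assumption) B hw ha hb ?_ h0 haB hbB c d s hs
    intro hz
    apply hne
    have f0 : ν 0 ≠ 0 := h0
    refine ⟨hz, ?_, ?_⟩
    · apply (mul_eq_zero.1 (?_ : ν 0 * (a 2 * b 0 - a 0 * b 2) = 0)).resolve_left f0
      linear_combination a 2 * hb' - b 2 * ha' + ν 1 * hz
    · apply (mul_eq_zero.1 (?_ : ν 0 * (a 0 * b 1 - a 1 * b 0) = 0)).resolve_left f0
      linear_combination b 1 * ha' - a 1 * hb' + ν 2 * hz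
  · refine LL_core ν a b w 2 0 1 (fun x y => by rw [Fin.sum_univ_three]; ring)
      (fun x y h1 h2 h3 => by ext t; fin_cases t <;> assumption) B hw ha hb ?_ h0 haB hbB c d s hs
    intro hz
    apply hne
    have f0 : ν 1 ≠ 0 := h0
    refine ⟨?_, hz, ?_⟩
    · apply (mul_eq_zero.1 (?_ : ν 1 * (a 1 * b 2 - a 2 * b 1) = 0)).resolve_left f0
      linear_combination b 2 * ha' - a 2 * hb' + ν 0 * hz
    · apply (mul_eq_zero.1 (?_ : ν 1 * (a 0 * b 1 - a 1 * b 0) = 0)).resolve_left f0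
      linear_combination a 0 * hb' - b 0 * ha' + ν 2 * hz
  · refine LL_core ν a b w 0 1 2 (fun x y => by rw [Fin.sum_univ_three])
      (fun x y h1 h2 h3 => by ext t; fin_cases t <;> assumption) B hw ha hb ?_ h0 haB hbB c d s hs
    intro hz
    apply hne
    have f0 : ν 2 ≠ 0 := h0
    refine ⟨?_, ?_, hz⟩
    · apply (mul_eq_zero.1 (?_ : ν 2 * (a 1 * b 2 - a 2 * b 1) = 0)).resolve_left f0
      linear_combination a 1 * hb' - b 1 * ha' + ν 0 * hz
    · apply (mul_eq_zero.1 (?_ : ν 2 * (a 2 * b 0 - a 0 * b 2) = 0)).resolve_left f0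
      linear_combination b 0 * ha' - a 0 * hb' + ν 1 * hz

/-- primitive vectors -/
theorem exists_prim (v : Fin 3 → ℤ) (hv : v ≠ 0) :
    ∃ (g : ℤ) (ν : Fin 3 → ℤ), 0 < g ∧ Finset.univ.gcd ν = 1 ∧ v = g • ν := by
  obtain ⟨ν, h1, h2⟩ := Finset.extract_gcd v Finset.univ_nonempty
  have hg0 : 0 ≤ Finset.univ.gcd v := by
    have : Finset.univ.gcd v = normalize (Finset.univ.gcd v) := Finset.normalize_gcd.symm
    rw [this, ← Int.abs_eq_normalize]
    exact abs_nonneg _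
  have hgne : Finset.univ.gcd v ≠ 0 := by
    intro h
    apply hv
    rw [Finset.gcd_eq_zero_iff] at h
    funext i
    exact h i (Finset.mem_univ i)
  refine ⟨Finset.univ.gcd v, ν, lt_of_le_of_ne hg0 (Ne.symm hgne), h2, ?_⟩
  funext i
  rw [Pi.smul_apply, smul_eq_mul]
  exact h1 i (Finset.mem_univ i)

theorem H_le_of_smul {g : ℤ} (hg : 0 < g) (ν : Fin 3 → ℤ) : H ν ≤ H (g • ν) := by
  rw [H_le_iff]
  intro i
  have h1 := natAbs_le_H (g • ν) i
  rw [Pi.smul_apply, smul_eq_mul, Int.natAbs_mul] at h1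
  have h2 : 1 ≤ g.natAbs := Int.natAbs_pos.2 hg.ne'
  nlinarith

theorem H_cross_le (a b : Fin 3 → ℤ) (B : ℕ) (haB : ∀ i, |a i| ≤ B) (hbB : ∀ i, |b i| ≤ B) :
    H (crossProduct a b) ≤ 2 * B ^ 2 := by
  rw [H_le_iff']
  have key : ∀ i j k l : Fin 3, |a i * b j - a k * b l| ≤ ((2 * B ^ 2 : ℕ) : ℤ) := by
    intro i j k l
    have hB : (0:ℤ) ≤ B := Int.natCast_nonneg B
    calc |a i * b j - a k * b l| ≤ |a i * b j| + |a k * b l| := abs_sub _ _
      _ = |a i| * |b j| + |a k| * |b l| := by rw [abs_mul, abs_mul]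
      _ ≤ B * B + B * B := by
          gcongr
          · exact haB i
          · exact hbB j
          · exact haB k
          · exact hbB l
      _ = ((2 * B ^ 2 : ℕ) : ℤ) := by push_cast; ring
  intro i
  rw [cross_apply]
  fin_cases i
  · exact key 1 2 2 1
  · exact key 2 0 0 2
  · exact key 0 1 1 0

end Crest.Agent.R032
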