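import Mathlib

/-!
Row 32 (S0042), section 3 of note 10070: dyadic sums `∑ 1 / H(ν)^3` over integer vectors.
-/

set_option autoImplicit false

namespace Crest.Agent.R032

/-- The height of an integer vector. -/
def H (ν : Fin 3 → ℤ) : ℕ := Finset.univ.sup fun i => (ν i).natAbs

theorem natAbs_le_H (ν : Fin 3 → ℤ) (i : Fin 3) : (ν i).natAbs ≤ H ν :=
  Finset.le_sup (f := fun i => (ν i).natAbs) (Finset.mem_univ i)

theorem abs_le_H (ν : Fin 3 → ℤ) (i : Fin 3) : |ν i| ≤ (H ν : ℤ) := by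
  have := natAbs_le_H ν i
  rw [Int.abs_eq_natAbs]
  exact_mod_cast this

theorem H_le_iff {ν : Fin 3 → ℤ} {n : ℕ} : H ν ≤ n ↔ ∀ i, (ν i).natAbs ≤ n := by
  unfold H
  simp [Finset.sup_le_iff]

theorem H_lt_iff {ν : Fin 3 → ℤ} {n : ℕ} (hn : 0 < n) : H ν < n ↔ ∀ i, (ν i).natAbs < n := by
  unfold H
  rw [Finset.sup_lt_iff (by simpa using hn)]
  simp

theorem H_pos {ν : Fin 3 → ℤ} (h : ν ≠ 0) : 0 < H ν := by
  rcases Nat.eq_zero_or_pos (H ν) with h0 | h0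
  · exfalso
    apply h
    funext i
    have := natAbs_le_H ν i
    rw [h0] at this
    simpa using this
  · exact h0

/-- Dyadic summation. -/
theorem dyadic {ι : Type*} (s : Finset ι) (h : ι → ℕ) (T : ℕ) (A : ℝ)
    (hpos : ∀ x ∈ s, 0 < h x) (hT : ∀ x ∈ s, h x ≤ T)
    (hA : ∀ k : ℕ, ((s.filter fun x => 2 ^ k ≤ h x ∧ h x < 2 ^ (k + 1)).card : ℝ) ≤ A * 8 ^ k) :
    ∑ x ∈ s, (1 : ℝ) / (h x : ℝ) ^ 3 ≤ A * ((Nat.log 2 T : ℝ) + 1) := by
  classical
  have hmaps : ∀ x ∈ s, Nat.log 2 (h x) ∈ Finset.range (Nat.log 2 T + 1) := by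
    intro x hx
    rw [Finset.mem_range]
    have := Nat.log_mono_right (b := 2) (hT x hx)
    omega
  rw [← Finset.sum_fiberwise_of_maps_to hmaps]
  have hle : ∀ k ∈ Finset.range (Nat.log 2 T + 1),
      ∑ x ∈ s with Nat.log 2 (h x) = k, (1 : ℝ) / (h x : ℝ) ^ 3 ≤ A := by
    intro k _
    have h1 : ∀ x ∈ s.filter (fun x => Nat.log 2 (h x) = k),
        (1 : ℝ) / (h x : ℝ) ^ 3 ≤ 1 / 8 ^ k := by
      intro x hx
      rw [Finset.mem_filter] at hx
      have hx0 := hpos x hx.1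
      have hpow : 2 ^ k ≤ h x := by
        rw [← hx.2]
        exact Nat.pow_log_le_self 2 (by omega)
      have hpow' : (2 : ℝ) ^ k ≤ (h x : ℝ) := by exact_mod_cast hpow
      have h8 : (8 : ℝ) ^ k ≤ (h x : ℝ) ^ 3 := by
        calc (8 : ℝ) ^ k = ((2 : ℝ) ^ k) ^ 3 := by
              rw [← pow_mul, mul_comm, pow_mul]; norm_num
          _ ≤ _ := by gcongr
      exact one_div_le_one_div_of_le (by positivity) h8
    calc ∑ x ∈ s with Nat.log 2 (h x) = k, (1 : ℝ) / (h x : ℝ) ^ 3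
        ≤ ∑ x ∈ s with Nat.log 2 (h x) = k, (1 : ℝ) / 8 ^ k := Finset.sum_le_sum h1
      _ = ((s.filter fun x => Nat.log 2 (h x) = k).card : ℝ) * (1 / 8 ^ k) := by
          rw [Finset.sum_const, nsmul_eq_mul]
      _ ≤ (A * 8 ^ k) * (1 / 8 ^ k) := by
          gcongr
          refine le_trans ?_ (hA k)
          have : s.filter (fun x => Nat.log 2 (h x) = k) ⊆
              s.filter (fun x => 2 ^ k ≤ h x ∧ h x < 2 ^ (k + 1)) := by
            intro x hx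
            rw [Finset.mem_filter] at hx ⊢
            refine ⟨hx.1, ?_⟩
            have hx0 := hpos x hx.1
            exact (Nat.log_eq_iff (Or.inr ⟨by norm_num, by omega⟩)).1 hx.2
          exact_mod_cast Finset.card_le_card this
      _ = A := by field_simp
  calc ∑ k ∈ Finset.range (Nat.log 2 T + 1),
        ∑ x ∈ s with Nat.log 2 (h x) = k, (1 : ℝ) / (h x : ℝ) ^ 3
      ≤ ∑ k ∈ Finset.range (Nat.log 2 T + 1), A := Finset.sum_le_sum hle
    _ = A * ((Nat.log 2 T : ℝ) + 1) := by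
        rw [Finset.sum_const, Finset.card_range, nsmul_eq_mul]
        push_cast
        ring

/-- The box of integer vectors of height `< n`. -/
theorem card_box_le (n : ℕ) (hn : 0 < n) (s : Finset (Fin 3 → ℤ)) (hs : ∀ ν ∈ s, H ν < n) :
    s.card ≤ (2 * n - 1) ^ 3 := by
  classical
  have hsub : s ⊆ Fintype.piFinset (fun _ : Fin 3 => Finset.Ioo (-(n : ℤ)) n) := by
    intro ν hν
    rw [Fintype.mem_piFinset]
    intro i
    have := (H_lt_iff hn).1 (hs ν hν) i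
    rw [Finset.mem_Ioo]
    omega
  refine (Finset.card_le_card hsub).trans ?_
  rw [Fintype.card_piFinset]
  simp only [Int.card_Ioo, Finset.prod_const, Finset.card_univ, Fintype.card_fin]
  apply Nat.pow_le_pow_left
  omega

theorem S1 (T : ℕ) (s : Finset (Fin 3 → ℤ)) (hs : ∀ ν ∈ s, ν ≠ 0 ∧ H ν ≤ T) :
    ∑ ν ∈ s, (1 : ℝ) / (H ν : ℝ) ^ 3 ≤ 64 * ((Nat.log 2 T : ℝ) + 1) := by
  refine dyadic s H T 64 (fun ν hν => H_pos (hs ν hν).1) (fun ν hν => (hs ν hν).2) ?_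
  intro k
  have h1 := card_box_le (2 ^ (k + 1)) (by positivity)
    (s.filter fun x => 2 ^ k ≤ H x ∧ H x < 2 ^ (k + 1))
    (fun ν hν => (Finset.mem_filter.1 hν).2.2)
  have h2 : (2 * 2 ^ (k + 1) - 1) ^ 3 ≤ (4 * 2 ^ k) ^ 3 := by
    apply Nat.pow_le_pow_left
    rw [pow_succ]
    omega
  have h3 : (4 * 2 ^ k) ^ 3 = 64 * 8 ^ k := by
    rw [mul_pow, ← pow_mul, mul_comm k 3, pow_mul]; norm_num
  have h4 := h1.trans (h2.trans_eq h3)
  exact_mod_cast h4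

/-- Integers in `(-n, n)` in a fixed residue class mod `Q`. -/
theorem card_residue_le (Q n : ℕ) (hQ : 0 < Q) (r : ZMod Q) :
    (((Finset.Ioo (-(n : ℤ)) n).filter fun x : ℤ => (x : ZMod Q) = r).card : ℝ)
      ≤ 2 * n / Q + 1 := by
  have : NeZero Q := ⟨hQ.ne'⟩
  have hr : ((r.val : ℤ) : ZMod Q) = r := by simp
  have heq : ((Finset.Ioo (-(n : ℤ)) n).filter fun x : ℤ => (x : ZMod Q) = r) ⊆
      ((Finset.Ico (-(n : ℤ)) n).filter fun x : ℤ => x ≡ (r.val : ℤ) [ZMOD (Q : ℤ)]) := by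
    intro x hx
    rw [Finset.mem_filter, Finset.mem_Ioo] at hx
    rw [Finset.mem_filter, Finset.mem_Ico]
    refine ⟨⟨hx.1.1.le, hx.1.2⟩, ?_⟩
    rw [← ZMod.intCast_eq_intCast_iff, hr]
    exact hx.2
  have h1 : ((((Finset.Ico (-(n : ℤ)) n).filter fun x : ℤ => x ≡ (r.val : ℤ) [ZMOD (Q : ℤ)]).card : ℤ) : ℝ)
      ≤ 2 * n / Q + 1 := by
    rw [Int.Ico_filter_modEq_card _ _ (by exact_mod_cast hQ)]
    have hQ' : (0 : ℝ) < Q := by exact_mod_cast hQ
    rw [Int.cast_max]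
    apply max_le
    · push_cast
      have e1 : (⌈((n : ℤ) - (r.val : ℤ) : ℚ) / ((Q : ℤ) : ℚ)⌉ : ℝ) < ((n : ℝ) - r.val) / Q + 1 := by
        have := Int.ceil_lt_add_one (((n : ℤ) - (r.val : ℤ) : ℚ) / ((Q : ℤ) : ℚ))
        have h' : ((⌈((n : ℤ) - (r.val : ℤ) : ℚ) / ((Q : ℤ) : ℚ)⌉ : ℚ) : ℝ) < ((((n : ℤ) - (r.val : ℤ) : ℚ) / ((Q : ℤ) : ℚ) + 1 : ℚ) : ℝ) := by
          exact_mod_cast this
        push_cast at h'
        simpa using h'
      have e2 : ((-(n : ℝ)) - r.val) / Q ≤ (⌈((-(n : ℤ) : ℤ) - (r.val : ℤ) : ℚ) / ((Q : ℤ) : ℚ)⌉ : ℝ) := by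
        have := Int.le_ceil ((((-(n : ℤ) : ℤ) : ℚ) - (r.val : ℤ) : ℚ) / ((Q : ℤ) : ℚ))
        have h' : ((((((-(n : ℤ) : ℤ) : ℚ) - (r.val : ℤ) : ℚ) / ((Q : ℤ) : ℚ)) : ℚ) : ℝ) ≤ ((⌈(((-(n : ℤ) : ℤ) : ℚ) - (r.val : ℤ) : ℚ) / ((Q : ℤ) : ℚ)⌉ : ℚ) : ℝ) := by
          exact_mod_cast this
        push_cast at h'
        simpa using h'
      have e3 : ((n : ℝ) - r.val) / Q + 1 - ((-(n : ℝ)) - r.val) / Q = 2 * n / Q + 1 := by
        field_simp
        ring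
      push_cast at e1 e2
      linarith
    · push_cast
      positivity
  refine le_trans ?_ h1
  have := Finset.card_le_card heq
  push_cast
  exact_mod_cast this

theorem S2 (Q : ℕ) (hQ : 0 < Q) (lam : Fin 3 → ZMod Q) (T : ℕ) (s : Finset (Fin 3 → ℤ))
    (hs : ∀ ν ∈ s, Q ≤ 3 * H ν ∧ H ν ≤ T ∧ ∃ c : ZMod Q, ∀ i, (ν i : ZMod Q) = c * lam i) :
    ∑ ν ∈ s, (1 : ℝ) / (H ν : ℝ) ^ 3 ≤ 1000 / (Q : ℝ) ^ 2 * ((Nat.log 2 T : ℝ) + 1) := by
  classical
  have : NeZero Q := ⟨hQ.ne'⟩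
  have hQ' : (0 : ℝ) < Q := by exact_mod_cast hQ
  refine dyadic s H T (1000 / (Q : ℝ) ^ 2) (fun ν hν => ?_) (fun ν hν => (hs ν hν).2.1) ?_
  · have := (hs ν hν).1
    omega
  intro k
  set n : ℕ := 2 ^ (k + 1) with hn
  by_cases hsmall : 3 * n ≤ Q
  · have : s.filter (fun x => 2 ^ k ≤ H x ∧ H x < 2 ^ (k + 1)) = ∅ := by
      rw [Finset.filter_eq_empty_iff]
      intro ν hν h
      have := (hs ν hν).1
      omega
    rw [this]
    simp only [Finset.card_empty, Nat.cast_zero]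
    positivity
  push Not at hsmall
  -- the union over the residue multipliers
  let box : ZMod Q → Finset (Fin 3 → ℤ) := fun c =>
    Fintype.piFinset (fun i : Fin 3 => (Finset.Ioo (-(n : ℤ)) n).filter
      fun x : ℤ => (x : ZMod Q) = c * lam i)
  have hsub : s.filter (fun x => 2 ^ k ≤ H x ∧ H x < 2 ^ (k + 1)) ⊆
      (Finset.univ : Finset (ZMod Q)).biUnion box := by
    intro ν hν
    rw [Finset.mem_filter] at hν
    obtain ⟨-, -, c, hc⟩ := hs ν hν.1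
    rw [Finset.mem_biUnion]
    refine ⟨c, Finset.mem_univ _, ?_⟩
    rw [Fintype.mem_piFinset]
    intro i
    have h1 := (H_lt_iff (by positivity)).1 hν.2.2 i
    rw [Finset.mem_filter, Finset.mem_Ioo]
    refine ⟨?_, hc i⟩
    omega
  have hbox : ∀ c, ((box c).card : ℝ) ≤ (5 * n / Q) ^ 3 := by
    intro c
    rw [Fintype.card_piFinset]
    push_cast
    have hone : ∀ i : Fin 3, (((Finset.Ioo (-(n : ℤ)) n).filter
        fun x : ℤ => (x : ZMod Q) = c * lam i).card : ℝ) ≤ 5 * n / Q := by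
      intro i
      refine (card_residue_le Q n hQ (c * lam i)).trans ?_
      have h3 : (Q : ℝ) ≤ 3 * n := by exact_mod_cast hsmall.le
      rw [div_add_one hQ'.ne']
      gcongr
      linarith
    calc ∏ i : Fin 3, (((Finset.Ioo (-(n : ℤ)) n).filter
        fun x : ℤ => (x : ZMod Q) = c * lam i).card : ℝ)
        ≤ ∏ i : Fin 3, (5 * n / Q : ℝ) :=
          Finset.prod_le_prod (fun i _ => Nat.cast_nonneg _) (fun i _ => hone i)
      _ = _ := by rw [Finset.prod_const, Finset.card_univ, Fintype.card_fin]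
  have hcard : ((s.filter fun x => 2 ^ k ≤ H x ∧ H x < 2 ^ (k + 1)).card : ℝ)
      ≤ ∑ c : ZMod Q, ((box c).card : ℝ) := by
    have h1 := (Finset.card_le_card hsub).trans Finset.card_biUnion_le
    exact_mod_cast h1
  have h8 : (n : ℝ) ^ 3 = 8 * 8 ^ k := by
    rw [hn]
    push_cast
    rw [← pow_mul, mul_comm (k + 1) 3, pow_mul, pow_succ]
    norm_num
    ring
  calc ((s.filter fun x => 2 ^ k ≤ H x ∧ H x < 2 ^ (k + 1)).card : ℝ)
      ≤ ∑ c : ZMod Q, ((box c).card : ℝ) := hcard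
    _ ≤ ∑ c : ZMod Q, (5 * n / Q : ℝ) ^ 3 := Finset.sum_le_sum (fun c _ => hbox c)
    _ = Q * (5 * n / Q : ℝ) ^ 3 := by
        rw [Finset.sum_const, Finset.card_univ, ZMod.card, nsmul_eq_mul]
    _ = 1000 / (Q : ℝ) ^ 2 * 8 ^ k := by
        rw [div_pow, mul_pow, h8]
        field_simp
        ring

end Crest.Agent.R032
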