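import Mathlib
import Crest.Agent.R032.Sums
import Crest.Agent.R032.LL

/-!
Row 32 (S0042), section 3(B) of note 10070: triples of rank two with a prescribed relation line
modulo `Q`.
-/

set_option autoImplicit false

namespace Crest.Agent.R032

open Matrix

/-- A singular integer matrix has a primitive relation between its rows. -/
theorem exists_prim_relation (U : Fin 3 → Fin 3 → ℤ) (hdet : Matrix.det (Matrix.of U) = 0) :
    ∃ μ : Fin 3 → ℤ, Finset.univ.gcd μ = 1 ∧ ∀ j, ∑ i, μ i * U i j = 0 := by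
  obtain ⟨v, hv, hvM⟩ := Matrix.exists_vecMul_eq_zero_iff.mpr hdet
  obtain ⟨g, ν, hg, hprim, hgv⟩ := exists_prim v hv
  refine ⟨ν, hprim, fun j => ?_⟩
  have h1 : ∑ i, v i * U i j = 0 := by
    have := congrFun hvM j
    simpa [Matrix.vecMul, dotProduct] using this
  rw [hgv] at h1
  simp only [Pi.smul_apply, smul_eq_mul, mul_assoc] at h1
  rw [← Finset.mul_sum] at h1
  exact (mul_eq_zero.1 h1).resolve_left hg.ne'

/-- The cross product of two vectors orthogonal to a primitive vector is a multiple of it. -/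
theorem cross_eq_smul_prim (ν a b : Fin 3 → ℤ) (hprim : Finset.univ.gcd ν = 1)
    (ha : ∑ i, ν i * a i = 0) (hb : ∑ i, ν i * b i = 0) :
    ∃ c : ℤ, crossProduct a b = c • ν := by
  obtain ⟨w, hw⟩ := bezout ν hprim
  refine ⟨∑ i, w i * crossProduct a b i, ?_⟩
  rw [Fin.sum_univ_three] at ha hb hw
  rw [Fin.sum_univ_three]
  funext k
  rw [Pi.smul_apply, smul_eq_mul]
  fin_cases k
  · simp [crossProduct]
    linear_combination (-(a 1 * b 2 - a 2 * b 1)) * hw - w 1 * (a 2 * hb - b 2 * ha)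
      + w 2 * (a 1 * hb - b 1 * ha)
  · simp [crossProduct]
    linear_combination (-(a 2 * b 0 - a 0 * b 2)) * hw - w 2 * (a 0 * hb - b 0 * ha)
      + w 0 * (a 2 * hb - b 2 * ha)
  · simp [crossProduct]
    linear_combination (-(a 0 * b 1 - a 1 * b 0)) * hw - w 0 * (a 1 * hb - b 1 * ha)
      + w 1 * (a 0 * hb - b 0 * ha)

/-- Height bound for a primitive normal. -/
theorem H_prim_le (ν a b : Fin 3 → ℤ) (B : ℕ) (hprim : Finset.univ.gcd ν = 1)
    (ha : ∑ i, ν i * a i = 0) (hb : ∑ i, ν i * b i = 0) (hab : crossProduct a b ≠ 0)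
    (haB : ∀ i, |a i| ≤ B) (hbB : ∀ i, |b i| ≤ B) : H ν ≤ 2 * B ^ 2 := by
  obtain ⟨c, hc⟩ := cross_eq_smul_prim ν a b hprim ha hb
  have hc0 : c ≠ 0 := by
    rintro rfl
    exact hab (by simpa using hc)
  refine le_trans ?_ (H_cross_le a b B haB hbB)
  rw [H_le_iff]
  intro i
  refine le_trans ?_ (natAbs_le_H (crossProduct a b) i)
  rw [hc, Pi.smul_apply, smul_eq_mul, Int.natAbs_mul]
  exact Nat.le_mul_of_pos_left _ (Int.natAbs_pos.2 hc0)

/-- Bridge between the two forms of affine independence. -/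
theorem aff_iff (U : Fin 3 → Fin 3 → ℤ) :
    (∀ c : Fin 3 → ℤ, ∑ i, c i = 0 → (∀ j, ∑ i, c i * U i j = 0) → c = 0) ↔
      crossProduct (U 1 - U 0) (U 2 - U 0) ≠ 0 := by
  constructor
  · intro h hcross
    have hc0 := congrFun hcross 0
    have hc1 := congrFun hcross 1
    have hc2 := congrFun hcross 2
    simp [crossProduct] at hc0 hc1 hc2
    by_cases hx : ∀ k, U 1 k - U 0 k = 0
    · have h1 := h ![-1, 1, 0] (by simp [Fin.sum_univ_three]) (fun j => by
        have := hx j
        simp [Fin.sum_univ_three]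
        linarith)
      have := congrFun h1 1
      simp at this
    · push Not at hx
      obtain ⟨k, hk⟩ := hx
      have h1 := h ![-((U 2 k - U 0 k) - (U 1 k - U 0 k)), U 2 k - U 0 k, -(U 1 k - U 0 k)]
        (by simp [Fin.sum_univ_three]) (fun j => by
          simp only [Fin.sum_univ_three, Matrix.cons_val_zero, Matrix.cons_val_one,
            Matrix.cons_val]
          fin_cases k <;> fin_cases j <;> simp <;> linarith)
      have h2 := congrFun h1 2
      simp only [Matrix.cons_val, Pi.zero_apply] at h2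
      exact hk (by linarith)
  · intro h c hsum hrel
    rw [Fin.sum_univ_three] at hsum
    have e : ∀ j, c 1 * (U 1 j - U 0 j) + c 2 * (U 2 j - U 0 j) = 0 := by
      intro j
      have := hrel j
      rw [Fin.sum_univ_three] at this
      linear_combination this - U 0 j * hsum
    have h1 : c 1 = 0 := by
      by_contra hc
      apply h
      funext k
      have : c 1 * crossProduct (U 1 - U 0) (U 2 - U 0) k = 0 := by
        fin_cases k <;> simp [crossProduct, -mul_eq_zero]
        · linear_combination (U 2 2 - U 0 2) * e 1 - (U 2 1 - U 0 1) * e 2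
        · linear_combination (U 2 0 - U 0 0) * e 2 - (U 2 2 - U 0 2) * e 0
        · linear_combination (U 2 1 - U 0 1) * e 0 - (U 2 0 - U 0 0) * e 1
      exact (mul_eq_zero.1 this).resolve_left hc
    have h2 : c 2 = 0 := by
      by_contra hc
      apply h
      funext k
      have : c 2 * crossProduct (U 1 - U 0) (U 2 - U 0) k = 0 := by
        fin_cases k <;> simp [crossProduct, -mul_eq_zero]
        · linear_combination (U 1 1 - U 0 1) * e 2 - (U 1 2 - U 0 2) * e 1
        · linear_combination (U 1 2 - U 0 2) * e 0 - (U 1 0 - U 0 0) * e 2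
        · linear_combination (U 1 0 - U 0 0) * e 1 - (U 1 1 - U 0 1) * e 0
      exact (mul_eq_zero.1 this).resolve_left hc
    have h0 : c 0 = 0 := by
      rw [h1, h2] at hsum
      linarith
    funext i
    fin_cases i
    · exact h0
    · exact h1
    · exact h2

/-- Affinely independent rows give two independent columns. -/
theorem exists_cols (U : Fin 3 → Fin 3 → ℤ)
    (h : crossProduct (U 1 - U 0) (U 2 - U 0) ≠ 0) :
    ∃ j k : Fin 3, crossProduct (fun i => U i j) (fun i => U i k) ≠ 0 := by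
  by_contra hcon
  push Not at hcon
  apply h
  have key : ∀ j k : Fin 3, (U 1 j - U 0 j) * (U 2 k - U 0 k) - (U 1 k - U 0 k) * (U 2 j - U 0 j)
      = 0 := by
    intro j k
    have h0 := congrFun (hcon j k) 0
    have h1 := congrFun (hcon j k) 1
    have h2 := congrFun (hcon j k) 2
    simp [crossProduct] at h0 h1 h2
    linear_combination h0 + h1 + h2
  funext k
  fin_cases k <;> simp [crossProduct]
  · linear_combination key 1 2
  · linear_combination key 2 0
  · linear_combination key 0 1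

theorem countB (Q B : ℕ) (hQ : 1 < Q) (hB : 1 ≤ B) (lam : Fin 3 → ZMod Q)
    (hlam : ∑ i, lam i = 0) (T : Finset (Fin 3 → Fin 3 → ℤ))
    (hbox : ∀ U ∈ T, ∀ i j, 0 ≤ U i j ∧ U i j < B)
    (hdet : ∀ U ∈ T, Matrix.det (Matrix.of U) = 0)
    (haff : ∀ U ∈ T, ∀ c : Fin 3 → ℤ, ∑ i, c i = 0 → (∀ j, ∑ i, c i * U i j = 0) → c = 0)
    (hker : ∀ U ∈ T, ∀ l : Fin 3 → ZMod Q, (∀ j, ∑ i, l i * (U i j : ZMod Q) = 0) →
      ∃ c, ∀ i, l i = c * lam i) :
    (T.card : ℝ) * (Q : ℝ) ^ 2 ≤
      (1000 * 6 ^ 6) * (B : ℝ) ^ 6 * ((Nat.log 2 (2 * B ^ 2) : ℝ) + 1) := by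
  classical
  -- the primitive relation
  have hex : ∀ U : Fin 3 → Fin 3 → ℤ, ∃ μ : Fin 3 → ℤ, U ∈ T →
      (Finset.univ.gcd μ = 1 ∧ ∀ j, ∑ i, μ i * U i j = 0) := by
    intro U
    by_cases hU : U ∈ T
    · obtain ⟨μ, h1, h2⟩ := exists_prim_relation U (hdet U hU)
      exact ⟨μ, fun _ => ⟨h1, h2⟩⟩
    · exact ⟨0, fun h => absurd h hU⟩
  choose rel hrel using hex
  set M : Finset (Fin 3 → ℤ) := T.image rel with hM
  -- the rows orthogonal to μ
  let R : (Fin 3 → ℤ) → Finset (Fin 3 → ℤ) := fun μ =>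
    (Fintype.piFinset fun _ : Fin 3 => Finset.Ico (0 : ℤ) B).filter
      fun x => ∑ i, μ i * x i = 0
  have hM_prop : ∀ μ ∈ M, (Q ≤ 3 * H μ ∧ H μ ≤ 2 * B ^ 2 ∧
      ∃ c : ZMod Q, ∀ i, (μ i : ZMod Q) = c * lam i) ∧ (R μ).card * H μ ≤ (5 * B + 1) ^ 2 := by
    intro μ hμ
    rw [hM, Finset.mem_image] at hμ
    obtain ⟨U, hU, rfl⟩ := hμ
    obtain ⟨hprim, hr⟩ := hrel U hU
    obtain ⟨j, k, hjk⟩ := exists_cols U ((aff_iff U).1 (haff U hU))
    have hjB : ∀ j i, |U i j| ≤ (B : ℤ) := by
      intro j i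
      have := hbox U hU i j
      rw [abs_of_nonneg this.1]
      exact this.2.le
    have hclass : ∃ c : ZMod Q, ∀ i, ((rel U) i : ZMod Q) = c * lam i := by
      apply hker U hU
      intro j
      have := congrArg (Int.cast : ℤ → ZMod Q) (hr j)
      push_cast at this
      exact this
    refine ⟨⟨?_, ?_, hclass⟩, ?_⟩
    · obtain ⟨c, hc⟩ := hclass
      have hsum0 : (((∑ i, rel U i : ℤ)) : ZMod Q) = 0 := by
        push_cast
        rw [Finset.sum_congr rfl (fun i _ => hc i), ← Finset.mul_sum, hlam, mul_zero]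
      rw [ZMod.intCast_zmod_eq_zero_iff_dvd] at hsum0
      have hne : ∑ i, rel U i ≠ 0 := by
        intro h0
        have h1 := haff U hU (rel U) h0 hr
        rw [h1] at hprim
        revert hprim
        decide
      have hle : (Q : ℤ) ≤ |∑ i, rel U i| := by
        have := Int.le_of_dvd (abs_pos.2 hne) ((dvd_abs _ _).2 hsum0)
        exact this
      have h3 : |∑ i, rel U i| ≤ 3 * (H (rel U) : ℤ) := by
        calc |∑ i, rel U i| ≤ ∑ i, |rel U i| := Finset.abs_sum_le_sum_abs _ _
          _ ≤ ∑ i : Fin 3, (H (rel U) : ℤ) := Finset.sum_le_sum (fun i _ => abs_le_H _ i)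
          _ = _ := by simp
      have := hle.trans h3
      exact_mod_cast this
    · exact H_prim_le (rel U) (fun i => U i j) (fun i => U i k) B hprim (hr j) (hr k) hjk
        (hjB j) (hjB k)
    · refine LL (rel U) (fun i => U i j) (fun i => U i k) B hprim (hr j) (hr k) hjk
        (hjB j) (hjB k) 0 0 (R (rel U)) ?_
      intro x hx
      rw [Finset.mem_filter, Fintype.mem_piFinset] at hx
      refine ⟨fun i => ?_, hx.2⟩
      have := hx.1 i
      rw [Finset.mem_Ico] at this
      simp only [Pi.zero_apply, zero_add]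
      exact ⟨this.1, this.2.le⟩
  have hfib : ∀ μ ∈ M, ((T.filter fun U => rel U = μ).card : ℝ) ≤
      (5 * B + 1 : ℝ) ^ 6 * (1 / (H μ : ℝ) ^ 3) := by
    intro μ hμ
    obtain ⟨⟨hQH, -, -⟩, hR⟩ := hM_prop μ hμ
    have hHpos : (0 : ℝ) < H μ := by
      have : 0 < H μ := by omega
      exact_mod_cast this
    have h1 : (T.filter fun U => rel U = μ).card ≤ (R μ).card ^ 3 := by
      have h2 : (Fintype.piFinset fun _ : Fin 3 => R μ).card = (R μ).card ^ 3 := by
        rw [Fintype.card_piFinset]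
        simp
      rw [← h2]
      apply Finset.card_le_card_of_injOn (fun U => fun j => fun i => U i j)
      · intro U hU
        rw [Finset.mem_coe, Finset.mem_filter] at hU
        rw [Finset.mem_coe, Fintype.mem_piFinset]
        intro j
        rw [Finset.mem_filter, Fintype.mem_piFinset]
        refine ⟨fun i => ?_, ?_⟩
        · rw [Finset.mem_Ico]
          exact hbox U hU.1 i j
        · rw [← hU.2]
          exact (hrel U hU.1).2 j
      · intro U _ V _ h
        funext i j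
        exact congrFun (congrFun h j) i
    have h3 : ((R μ).card : ℝ) ≤ (5 * B + 1) ^ 2 / H μ := by
      rw [le_div_iff₀ hHpos]
      exact_mod_cast hR
    calc ((T.filter fun U => rel U = μ).card : ℝ) ≤ ((R μ).card : ℝ) ^ 3 := by exact_mod_cast h1
      _ ≤ ((5 * B + 1 : ℝ) ^ 2 / H μ) ^ 3 := by gcongr
      _ = _ := by
          rw [div_pow, ← pow_mul]
          ring
  have hcard : (T.card : ℝ) ≤ (5 * B + 1 : ℝ) ^ 6 * ∑ μ ∈ M, (1 : ℝ) / (H μ : ℝ) ^ 3 := by
    have h1 : T.card = ∑ μ ∈ M, (T.filter fun U => rel U = μ).card :=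
      Finset.card_eq_sum_card_fiberwise (fun U hU => by
        rw [hM]
        exact Finset.mem_coe.2 (Finset.mem_image_of_mem _ hU))
    rw [h1]
    push_cast
    rw [Finset.mul_sum]
    exact Finset.sum_le_sum hfib
  have hS2 := S2 Q (by omega) lam (2 * B ^ 2) M (fun μ hμ => (hM_prop μ hμ).1)
  have hQ' : (0 : ℝ) < Q := by
    have : 0 < Q := by omega
    exact_mod_cast this
  have hB' : (1 : ℝ) ≤ B := by exact_mod_cast hB
  calc (T.card : ℝ) * (Q : ℝ) ^ 2
      ≤ ((5 * B + 1 : ℝ) ^ 6 * ∑ μ ∈ M, (1 : ℝ) / (H μ : ℝ) ^ 3) * (Q : ℝ) ^ 2 := by gcongr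
    _ ≤ ((6 * B : ℝ) ^ 6 * (1000 / (Q : ℝ) ^ 2 * ((Nat.log 2 (2 * B ^ 2) : ℝ) + 1)))
        * (Q : ℝ) ^ 2 := by
        gcongr
        linarith
    _ = _ := by
        field_simp

end Crest.Agent.R032
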