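import Crest.Agent.R032.LL
import Crest.Agent.R032.Sums

/-! # Count (C): affinely independent triples of a box, congruent mod Q, with determinant 0
(Row 32, section 3 of note 10070.) -/

set_option autoImplicit false

namespace Crest.Agent.R032

open Finset Matrix

namespace CountC

lemma natAbs_le_H (ν : Fin 3 → ℤ) (i : Fin 3) : (ν i).natAbs ≤ H ν :=
  Finset.le_sup (f := fun i => (ν i).natAbs) (Finset.mem_univ i)

lemma H_le (ν : Fin 3 → ℤ) (T : ℕ) (h : ∀ i, |ν i| ≤ T) : H ν ≤ T := by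
  apply Finset.sup_le
  intro i _
  have := h i
  zify
  exact this

lemma one_le_H (ν : Fin 3 → ℤ) (h : ν ≠ 0) : 1 ≤ H ν := by
  by_contra hc
  have h0 : H ν = 0 := by omega
  apply h
  funext i
  have := natAbs_le_H ν i
  rw [h0] at this
  simpa using this

lemma prim_ne_zero (ν : Fin 3 → ℤ) (h : Finset.univ.gcd ν = 1) : ν ≠ 0 := by
  rintro rfl
  have : Finset.univ.gcd (0 : Fin 3 → ℤ) = 0 := by
    rw [Finset.gcd_eq_zero_iff]; intro x _; rfl
  rw [this] at h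
  exact absurd h (by norm_num)

/-- small symmetric box -/
noncomputable def sbox (B : ℕ) : Finset (Fin 3 → ℤ) :=
  Fintype.piFinset fun _ => Finset.Ico (-(B:ℤ)) (-(B:ℤ) + ((2*B : ℕ) : ℤ))

lemma mem_sbox (B : ℕ) (u : Fin 3 → ℤ) : u ∈ sbox B ↔ ∀ i, -(B:ℤ) ≤ u i ∧ u i < B := by
  unfold sbox
  rw [Fintype.mem_piFinset]
  refine forall_congr' fun i => ?_
  rw [Finset.mem_Ico]
  push_cast
  constructor <;> rintro ⟨h1, h2⟩ <;> constructor <;> linarith

open Classical in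
/-- the covering of the set of triples -/
noncomputable def NN (B : ℕ) : Finset (Fin 3 → ℤ) :=
  (Fintype.piFinset fun _ : Fin 3 => Finset.Icc (-((2*B^2:ℕ):ℤ)) ((2*B^2:ℕ):ℤ)).filter
    (fun ν => Finset.univ.gcd ν = 1 ∧ ∃ a ∈ sbox B, ∃ b ∈ sbox B, ν ⬝ᵥ a = 0 ∧ ν ⬝ᵥ b = 0 ∧ crossProduct a b ≠ 0)

theorem countC (Q W : ℕ) (hQ : 0 < Q) (hW : 0 < W) (hQW : Q ∣ W) (c : Fin 3 → ℤ)
    (s : Finset (Fin 3 → Fin 3 → ℤ))
    (hbox : ∀ U ∈ s, ∀ i j, c j ≤ U i j ∧ U i j < c j + W)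
    (hdvd : ∀ U ∈ s, ∀ i j, (Q:ℤ) ∣ U i j - U 0 j)
    (haff : ∀ U ∈ s, crossProduct (U 1 - U 0) (U 2 - U 0) ≠ 0)
    (hdet : ∀ U ∈ s, Matrix.det (Matrix.of U) = 0) :
    (s.card : ℝ) * (Q:ℝ)^4 ≤ (64 * 36 * 11^4) * (W:ℝ)^6 * ((Nat.log 2 (2 * W^2) : ℝ) + 1) := by
  classical
  obtain ⟨B, hB⟩ := hQW
  have hB0 : 0 < B := by
    rcases Nat.eq_zero_or_pos B with h | h
    · subst h; simp at hB; omega
    · exact h
  set X : (Fin 3 → ℤ) → Finset (Fin 3 → ℤ) := fun ν =>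
    (Fintype.piFinset fun i => Finset.Ico (c i) (c i + W)).filter (fun x => ν ⬝ᵥ x = 0) with hX
  set Y : (Fin 3 → ℤ) → Finset (Fin 3 → ℤ) := fun ν => (sbox B).filter (fun x => ν ⬝ᵥ x = 0) with hY
  set F : (Fin 3 → ℤ) × (Fin 3 → ℤ) × (Fin 3 → ℤ) → (Fin 3 → Fin 3 → ℤ) :=
    fun t => ![t.1, t.1 + (Q:ℤ) • t.2.1, t.1 + (Q:ℤ) • t.2.2] with hF
  have hsub : s ⊆ (NN B).biUnion (fun ν => ((X ν) ×ˢ ((Y ν) ×ˢ (Y ν))).image F) := by
    intro U hU
    replace hbox := hbox U hU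
    replace hdvd := hdvd U hU
    have hcr := haff U hU
    replace hdet := hdet U hU
    choose q hq using hdvd
    have hQ0 : (Q:ℤ) ≠ 0 := by exact_mod_cast hQ.ne'
    have hQpos : (0:ℤ) < Q := by exact_mod_cast hQ
    have ha : U 1 - U 0 = (Q:ℤ) • (q 1) := by funext j; simpa using hq 1 j
    have hb : U 2 - U 0 = (Q:ℤ) • (q 2) := by funext j; simpa using hq 2 j
    have hW' : (W:ℤ) = Q * B := by exact_mod_cast hB
    have hsm : ∀ i, q i ∈ sbox B := by
      intro i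
      rw [mem_sbox]
      intro j
      have h1 := hbox i j
      have h2 := hbox 0 j
      have h3 := hq i j
      have h4 : -(W:ℤ) < U i j - U 0 j ∧ U i j - U 0 j < W := by
        constructor <;> omega
      rw [h3, hW'] at h4
      constructor
      · have := h4.1
        have h5 : (Q:ℤ) * (-(B:ℤ)) < Q * q i j := by linarith
        exact (lt_of_mul_lt_mul_left h5 hQpos.le).le
      · exact lt_of_mul_lt_mul_left h4.2 hQpos.le
    rw [ha, hb] at hcr
    have hcr' : crossProduct (q 1) (q 2) ≠ 0 := by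
      intro h
      apply hcr
      rw [map_smul, map_smul, LinearMap.smul_apply, h, smul_zero, smul_zero]
    obtain ⟨g, ν, hg, hν1, hν⟩ := exists_prim _ hcr'
    have hc : g ≠ 0 := hg.ne'
    have hn1 : ν ⬝ᵥ q 1 = 0 := by
      have : (crossProduct (q 1) (q 2)) ⬝ᵥ q 1 = 0 := by
        rw [dotProduct_comm]; exact dot_self_cross _ _
      rw [hν, smul_dotProduct] at this
      simpa [hc] using this
    have hn2 : ν ⬝ᵥ q 2 = 0 := by
      have : (crossProduct (q 1) (q 2)) ⬝ᵥ q 2 = 0 := by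
        rw [dotProduct_comm]; exact dot_cross_self _ _
      rw [hν, smul_dotProduct] at this
      simpa [hc] using this
    have hn0 : ν ⬝ᵥ U 0 = 0 := by
      have h1 : U 1 = U 0 + (Q:ℤ) • q 1 := by rw [← ha]; abel
      have h2 : U 2 = U 0 + (Q:ℤ) • q 2 := by rw [← hb]; abel
      have h3 : Matrix.det (Matrix.of U) = (Q:ℤ)^2 * ((crossProduct (q 1) (q 2)) ⬝ᵥ U 0) := by
        rw [Matrix.det_fin_three]
        simp only [Matrix.of_apply]
        rw [h1, h2]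
        simp [crossProduct, dotProduct, Fin.sum_univ_three]
        ring
      rw [hdet, hν, smul_dotProduct] at h3
      have h4 := h3.symm
      simpa [hc, hQ0, hQ.ne'] using h4
    rw [Finset.mem_biUnion]
    refine ⟨ν, ?_, ?_⟩
    · unfold NN
      rw [Finset.mem_filter]
      refine ⟨?_, hν1, q 1, hsm 1, q 2, hsm 2, hn1, hn2, hcr'⟩
      rw [Fintype.mem_piFinset]
      intro i
      rw [Finset.mem_Icc, ← abs_le]
      have h1 : |ν i| ≤ |crossProduct (q 1) (q 2) i| := by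
        rw [hν]
        simp only [Pi.smul_apply, smul_eq_mul, abs_mul]
        have : 1 ≤ |g| := Int.one_le_abs hc
        nlinarith [abs_nonneg (ν i)]
      refine h1.trans ?_
      have hq1 : ∀ j, |q 1 j| ≤ B := fun j => abs_le.2 ⟨((mem_sbox B _).1 (hsm 1) j).1, ((mem_sbox B _).1 (hsm 1) j).2.le⟩
      have hq2 : ∀ j, |q 2 j| ≤ B := fun j => abs_le.2 ⟨((mem_sbox B _).1 (hsm 2) j).1, ((mem_sbox B _).1 (hsm 2) j).2.le⟩
      have key : ∀ j k j' k' , |q 1 j * q 2 k - q 1 j' * q 2 k'| ≤ ((2*B^2:ℕ):ℤ) := by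
        intro j k j' k'
        calc |q 1 j * q 2 k - q 1 j' * q 2 k'| ≤ |q 1 j * q 2 k| + |q 1 j' * q 2 k'| := abs_sub _ _
          _ = |q 1 j| * |q 2 k| + |q 1 j'| * |q 2 k'| := by rw [abs_mul, abs_mul]
          _ ≤ B * B + B * B := by
              gcongr
              · exact hq1 j
              · exact hq2 k
              · exact hq1 j'
              · exact hq2 k'
          _ = ((2*B^2:ℕ):ℤ) := by push_cast; ring
      rw [cross_apply]
      fin_cases i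
      · exact key _ _ _ _
      · exact key _ _ _ _
      · exact key _ _ _ _
    · rw [Finset.mem_image]
      refine ⟨(U 0, q 1, q 2), ?_, ?_⟩
      · simp only [Finset.mem_product, hX, hY, Finset.mem_filter]
        refine ⟨⟨?_, hn0⟩, ⟨hsm 1, hn1⟩, hsm 2, hn2⟩
        rw [Fintype.mem_piFinset]
        exact fun i => Finset.mem_Ico.2 (hbox 0 i)
      · funext i
        fin_cases i
        · simp [hF]
        · simp only [hF]; simp [← ha]
        · simp only [hF]; simp [← hb]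
  have hcard : (s.card : ℝ) ≤ ∑ ν ∈ NN B, ((X ν).card : ℝ) * ((Y ν).card : ℝ)^2 := by
    have h1 : s.card ≤ ∑ ν ∈ NN B, (X ν).card * (Y ν).card^2 := by
      refine (Finset.card_le_card hsub).trans (Finset.card_biUnion_le.trans ?_)
      refine Finset.sum_le_sum fun ν _ => ?_
      refine Finset.card_image_le.trans ?_
      rw [Finset.card_product, Finset.card_product, sq]
    exact_mod_cast h1
  have hBW : B ≤ W := by rw [hB]; exact Nat.le_mul_of_pos_left B hQ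
  have hterm : ∀ ν ∈ NN B, ((X ν).card : ℝ) * ((Y ν).card : ℝ)^2 ≤
      (36 * (W:ℝ)^2 * (11 * B)^4) * (1 / (H ν : ℝ)^3) := by
    intro ν hν
    unfold NN at hν
    rw [Finset.mem_filter] at hν
    obtain ⟨_, hν1, a, ha, b, hb, hna, hnb, hab⟩ := hν
    have hHpos : (0:ℝ) < H ν := by
      have := one_le_H ν (prim_ne_zero ν hν1)
      exact_mod_cast this
    have haB : ∀ i, |a i| ≤ B := fun j => abs_le.2 ⟨((mem_sbox B _).1 ha j).1, ((mem_sbox B _).1 ha j).2.le⟩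
    have hbB : ∀ i, |b i| ≤ B := fun j => abs_le.2 ⟨((mem_sbox B _).1 hb j).1, ((mem_sbox B _).1 hb j).2.le⟩
    have e1 : (X ν).card * H ν ≤ (5*W+1)^2 := by
      refine LL ν a b W hν1 hna hnb hab (fun i => (haB i).trans (by exact_mod_cast hBW))
        (fun i => (hbB i).trans (by exact_mod_cast hBW)) c 0 _ ?_
      intro x hx
      simp only [hX, Finset.mem_filter, Fintype.mem_piFinset, Finset.mem_Ico] at hx
      exact ⟨fun i => ⟨(hx.1 i).1, (hx.1 i).2.le⟩, hx.2⟩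
    have e2 : (Y ν).card * H ν ≤ (5*(2*B)+1)^2 := by
      refine LL ν a b (2*B) hν1 hna hnb hab
        (fun i => (haB i).trans (by push_cast; linarith [show (0:ℤ) ≤ B by positivity]))
        (fun i => (hbB i).trans (by push_cast; linarith [show (0:ℤ) ≤ B by positivity]))
        (fun _ => -(B:ℤ)) 0 _ ?_
      intro x hx
      simp only [hY, Finset.mem_filter, mem_sbox] at hx
      refine ⟨fun i => ⟨(hx.1 i).1, ?_⟩, hx.2⟩
      have := (hx.1 i).2
      push_cast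
      linarith
    have hW1 : (1:ℝ) ≤ W := by exact_mod_cast hW
    have hB1 : (1:ℝ) ≤ B := by exact_mod_cast hB0
    have e1' : ((X ν).card : ℝ) * H ν ≤ 36 * (W:ℝ)^2 := by
      have h1 : ((X ν).card : ℝ) * H ν ≤ (5*W+1)^2 := by exact_mod_cast e1
      nlinarith
    have e2' : ((Y ν).card : ℝ) * H ν ≤ (11 * (B:ℝ))^2 := by
      have h1 : ((Y ν).card : ℝ) * H ν ≤ (5*(2*B)+1)^2 := by exact_mod_cast e2
      nlinarith
    have e3 : (((Y ν).card : ℝ) * H ν)^2 ≤ ((11 * (B:ℝ))^2)^2 := by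
      gcongr
    rw [mul_one_div, le_div_iff₀ (by positivity)]
    calc ((X ν).card : ℝ) * ((Y ν).card : ℝ)^2 * (H ν : ℝ)^3
        = (((X ν).card : ℝ) * H ν) * (((Y ν).card : ℝ) * H ν)^2 := by ring
      _ ≤ (36 * (W:ℝ)^2) * ((11 * (B:ℝ))^2)^2 := by gcongr
      _ = 36 * (W:ℝ)^2 * (11 * B)^4 := by ring
  have hsum : ∑ ν ∈ NN B, (1:ℝ) / (H ν : ℝ)^3 ≤ 64 * ((Nat.log 2 (2 * B^2) : ℝ) + 1) := by
    refine S1 (2*B^2) _ ?_
    intro ν hν
    unfold NN at hν
    rw [Finset.mem_filter, Fintype.mem_piFinset] at hν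
    refine ⟨prim_ne_zero ν hν.2.1, H_le _ _ fun i => ?_⟩
    exact abs_le.2 (Finset.mem_Icc.1 (hν.1 i))
  have hlog : ((Nat.log 2 (2 * B^2) : ℝ) + 1) ≤ ((Nat.log 2 (2 * W^2) : ℝ) + 1) := by
    have : Nat.log 2 (2 * B^2) ≤ Nat.log 2 (2 * W^2) := Nat.log_mono_right (by gcongr)
    have : (Nat.log 2 (2 * B^2) : ℝ) ≤ (Nat.log 2 (2 * W^2) : ℝ) := by exact_mod_cast this
    linarith
  calc (s.card : ℝ) * (Q:ℝ)^4 ≤ (∑ ν ∈ NN B, ((X ν).card : ℝ) * ((Y ν).card : ℝ)^2) * (Q:ℝ)^4 := by gcongr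
    _ ≤ (∑ ν ∈ NN B, (36 * (W:ℝ)^2 * (11 * B)^4) * (1 / (H ν : ℝ)^3)) * (Q:ℝ)^4 :=
        mul_le_mul_of_nonneg_right (Finset.sum_le_sum hterm) (by positivity)
    _ = ((36 * (W:ℝ)^2 * (11 * B)^4) * ∑ ν ∈ NN B, (1 / (H ν : ℝ)^3)) * (Q:ℝ)^4 := by
        rw [← Finset.mul_sum]
    _ ≤ ((36 * (W:ℝ)^2 * (11 * B)^4) * (64 * ((Nat.log 2 (2 * W^2) : ℝ) + 1))) * (Q:ℝ)^4 := by
        gcongr
        exact hsum.trans (by gcongr)
    _ = (64 * 36 * 11^4) * ((W:ℝ)^2 * ((Q:ℝ) * B)^4) * ((Nat.log 2 (2 * W^2) : ℝ) + 1) := by ring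
    _ = (64 * 36 * 11^4) * (W:ℝ)^6 * ((Nat.log 2 (2 * W^2) : ℝ) + 1) := by
        have : (W:ℝ) = Q * B := by exact_mod_cast hB
        rw [← this]; ring

end CountC

end Crest.Agent.R032
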