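import Mathlib

/-!
Row 32 (Heilbronn): averaging and deletion in the abstract form asked for by the captain
(index sets are finsets `Gs`, `Hs`), and the double counting identities for the pool and for the
bad triples.
-/

set_option autoImplicit false

namespace Crest.Agent.R032

open Finset

/-- Averaging over `Gs × Hs`, then delete one point of each bad triple. -/
theorem delete_two {G H α : Type*} (Gs : Finset G) (Hs : Finset H) (hG : Gs.Nonempty)
    (hH : Hs.Nonempty) (S : G → H → Finset α) (bad : G → H → Finset (α × α × α))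
    (hle : 2 * ∑ g ∈ Gs, ∑ h ∈ Hs, (bad g h).card ≤ ∑ g ∈ Gs, ∑ h ∈ Hs, (S g h).card) :
    ∃ g ∈ Gs, ∃ h ∈ Hs, ∃ T ⊆ S g h,
      (∀ t ∈ bad g h, ¬ (t.1 ∈ T ∧ t.2.1 ∈ T ∧ t.2.2 ∈ T)) ∧
      ∑ g ∈ Gs, ∑ h ∈ Hs, (S g h).card ≤ 2 * T.card * Gs.card * Hs.card := by
  classical
  set M := ∑ g ∈ Gs, ∑ h ∈ Hs, (S g h).card with hM
  -- choose a good pair
  have hex : ∃ g ∈ Gs, ∃ h ∈ Hs,
      M + 2 * (Gs.card * Hs.card * (bad g h).card) ≤ 2 * (Gs.card * Hs.card * (S g h).card) := by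
    by_contra hcon
    push Not at hcon
    have h1 : ∑ g ∈ Gs, ∑ h ∈ Hs, 2 * (Gs.card * Hs.card * (S g h).card)
        < ∑ g ∈ Gs, ∑ h ∈ Hs, (M + 2 * (Gs.card * Hs.card * (bad g h).card)) := by
      refine sum_lt_sum_of_nonempty hG (fun g hg => ?_)
      exact sum_lt_sum_of_nonempty hH (fun h hh => hcon g hg h hh)
    have h2 : ∑ g ∈ Gs, ∑ h ∈ Hs, 2 * (Gs.card * Hs.card * (S g h).card)
        = 2 * (Gs.card * Hs.card * M) := by
      simp_rw [← mul_sum]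
      rw [hM]
    have h3 : ∑ g ∈ Gs, ∑ h ∈ Hs, (M + 2 * (Gs.card * Hs.card * (bad g h).card))
        = Gs.card * Hs.card * M
          + 2 * (Gs.card * Hs.card * ∑ g ∈ Gs, ∑ h ∈ Hs, (bad g h).card) := by
      simp_rw [sum_add_distrib, sum_const, smul_eq_mul, ← mul_sum]
      ring
    rw [h2, h3] at h1
    have h4 : Gs.card * Hs.card * (2 * ∑ g ∈ Gs, ∑ h ∈ Hs, (bad g h).card)
        ≤ Gs.card * Hs.card * M := Nat.mul_le_mul_left _ hle
    nlinarith [h1, h4]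
  obtain ⟨g, hg, h, hh, hgh⟩ := hex
  refine ⟨g, hg, h, hh, S g h \ (bad g h).image Prod.fst, sdiff_subset, ?_, ?_⟩
  · intro t ht hmem
    exact (mem_sdiff.1 hmem.1).2 (mem_image_of_mem _ ht)
  · have h1 : (S g h).card ≤ (S g h \ (bad g h).image Prod.fst).card + (bad g h).card :=
      Finset.card_le_card_sdiff_add_card.trans (Nat.add_le_add_left card_image_le _)
    have h2 : Gs.card * Hs.card * (S g h).card
        ≤ Gs.card * Hs.card * ((S g h \ (bad g h).image Prod.fst).card + (bad g h).card) :=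
      Nat.mul_le_mul_left _ h1
    nlinarith [h2, hgh]

open Classical in
/-- Double counting: the total number of elements `U` of `T` with `A g U` and `E h U`. -/
theorem sum_sum_card_filter {G H τ : Type*} (Gs : Finset G) (Hs : Finset H) (T : Finset τ)
    (A : G → τ → Prop) (E : H → τ → Prop) :
    ∑ g ∈ Gs, ∑ h ∈ Hs, (T.filter (fun U => A g U ∧ E h U)).card
      = ∑ U ∈ T, (Gs.filter (fun g => A g U)).card * (Hs.filter (fun h => E h U)).card := by
  have h1 : ∀ g h, (T.filter (fun U => A g U ∧ E h U)).card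
      = ∑ U ∈ T, (if A g U then 1 else 0) * (if E h U then 1 else 0) := by
    intro g h
    rw [card_filter]
    refine sum_congr rfl (fun U _ => ?_)
    by_cases ha : A g U <;> by_cases he : E h U <;> simp [ha, he]
  simp_rw [h1]
  calc ∑ g ∈ Gs, ∑ h ∈ Hs, ∑ U ∈ T, (if A g U then 1 else 0) * (if E h U then 1 else 0)
      = ∑ g ∈ Gs, ∑ U ∈ T, ∑ h ∈ Hs, (if A g U then 1 else 0) * (if E h U then 1 else 0) := by
        refine sum_congr rfl (fun g _ => sum_comm)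
    _ = ∑ U ∈ T, ∑ g ∈ Gs, ∑ h ∈ Hs, (if A g U then 1 else 0) * (if E h U then 1 else 0) :=
        sum_comm
    _ = ∑ U ∈ T, (Gs.filter (fun g => A g U)).card * (Hs.filter (fun h => E h U)).card := by
        refine sum_congr rfl (fun U _ => ?_)
        rw [card_filter, card_filter, sum_mul_sum]

open Classical in
/-- If `E h U` holds for exactly `a` of the `h ∈ Hs` for every `U ∈ T`. -/
theorem sum_sum_card_filter_eq {G H τ : Type*} (Gs : Finset G) (Hs : Finset H) (T : Finset τ)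
    (A : G → τ → Prop) (E : H → τ → Prop) (a : ℕ)
    (ha : ∀ U ∈ T, (Hs.filter (fun h => E h U)).card = a) :
    ∑ g ∈ Gs, ∑ h ∈ Hs, (T.filter (fun U => A g U ∧ E h U)).card
      = a * ∑ g ∈ Gs, (T.filter (fun U => A g U)).card := by
  rw [sum_sum_card_filter]
  have h1 : ∑ g ∈ Gs, (T.filter (fun U => A g U)).card
      = ∑ U ∈ T, (Gs.filter (fun g => A g U)).card := by
    simp_rw [card_filter]
    exact sum_comm
  rw [h1, mul_sum]
  refine sum_congr rfl (fun U hU => ?_)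
  rw [ha U hU, mul_comm]

open Classical in
/-- If `E h U` holds for at most `b` of the `h ∈ Hs` for every `U ∈ T`. -/
theorem sum_sum_card_filter_le {G H τ : Type*} (Gs : Finset G) (Hs : Finset H) (T : Finset τ)
    (A : G → τ → Prop) (E : H → τ → Prop) (b : ℕ)
    (hb : ∀ U ∈ T, (Hs.filter (fun h => E h U)).card ≤ b) :
    ∑ g ∈ Gs, ∑ h ∈ Hs, (T.filter (fun U => A g U ∧ E h U)).card
      ≤ b * ∑ g ∈ Gs, (T.filter (fun U => A g U)).card := by
  rw [sum_sum_card_filter]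
  have h1 : ∑ g ∈ Gs, (T.filter (fun U => A g U)).card
      = ∑ U ∈ T, (Gs.filter (fun g => A g U)).card := by
    simp_rw [card_filter]
    exact sum_comm
  rw [h1, mul_sum]
  refine sum_le_sum (fun U hU => ?_)
  rw [mul_comm]
  exact Nat.mul_le_mul_right _ (hb U hU)

/-- Real version of `delete_two`. -/
theorem delete_two_real {G H α : Type*} (Gs : Finset G) (Hs : Finset H) (hG : Gs.Nonempty)
    (hH : Hs.Nonempty) (S : G → H → Finset α) (bad : G → H → Finset (α × α × α)) (X Y : ℝ)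
    (hS : X * ((Gs.card : ℝ) * (Hs.card : ℝ)) ≤ ∑ g ∈ Gs, ∑ h ∈ Hs, ((S g h).card : ℝ))
    (hB : ∑ g ∈ Gs, ∑ h ∈ Hs, ((bad g h).card : ℝ) ≤ Y * ((Gs.card : ℝ) * (Hs.card : ℝ)))
    (hXY : 2 * Y ≤ X) :
    ∃ g ∈ Gs, ∃ h ∈ Hs, ∃ T ⊆ S g h,
      (∀ t ∈ bad g h, ¬ (t.1 ∈ T ∧ t.2.1 ∈ T ∧ t.2.2 ∈ T)) ∧ X / 2 ≤ (T.card : ℝ) := by
  have hGc : (0 : ℝ) < (Gs.card : ℝ) := by exact_mod_cast hG.card_pos
  have hHc : (0 : ℝ) < (Hs.card : ℝ) := by exact_mod_cast hH.card_pos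
  have hle : 2 * ∑ g ∈ Gs, ∑ h ∈ Hs, (bad g h).card ≤ ∑ g ∈ Gs, ∑ h ∈ Hs, (S g h).card := by
    have : (2 : ℝ) * ∑ g ∈ Gs, ∑ h ∈ Hs, ((bad g h).card : ℝ)
        ≤ ∑ g ∈ Gs, ∑ h ∈ Hs, ((S g h).card : ℝ) := by
      have h0 : 0 < (Gs.card : ℝ) * (Hs.card : ℝ) := mul_pos hGc hHc
      have h1 : 2 * Y * ((Gs.card : ℝ) * (Hs.card : ℝ)) ≤ X * ((Gs.card : ℝ) * (Hs.card : ℝ)) :=
        mul_le_mul_of_nonneg_right hXY h0.le
      nlinarith
    exact_mod_cast this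
  obtain ⟨g, hg, h, hh, T, hT, hbad, hcard⟩ := delete_two Gs Hs hG hH S bad hle
  refine ⟨g, hg, h, hh, T, hT, hbad, ?_⟩
  have hcard' : ∑ g ∈ Gs, ∑ h ∈ Hs, ((S g h).card : ℝ)
      ≤ 2 * (T.card : ℝ) * (Gs.card : ℝ) * (Hs.card : ℝ) := by exact_mod_cast hcard
  have h0 : 0 < (Gs.card : ℝ) * (Hs.card : ℝ) := mul_pos hGc hHc
  have h1 : X * ((Gs.card : ℝ) * (Hs.card : ℝ))
      ≤ (2 * (T.card : ℝ)) * ((Gs.card : ℝ) * (Hs.card : ℝ)) := by
    calc _ ≤ _ := hS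
      _ ≤ _ := hcard'
      _ = _ := by ring
  have h2 := le_of_mul_le_mul_right h1 h0
  linarith

end Crest.Agent.R032
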