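import Mathlib
import Crest.Agent.R032.CoreGlue
import Crest.Agent.R032.FirstMom
import Crest.Agent.R032.CountA
import Crest.Agent.R032.CountB
import Crest.Agent.R032.CountC

/-!
Row 32 (Heilbronn), glue, part 4: the `Q`-side (helper441).
-/

set_option autoImplicit false
set_option maxHeartbeats 400000

namespace Crest.Agent.R032

open Finset

open Classical in
/-- the labelled set mod `Q` in the form needed by the first moment bound -/
def LabCStmt : Prop :=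
  ∀ (p Q N : ℕ) (x y z : Fin (p ^ 3) → ℤ), p.Prime → Q.Prime → LabSet p Q N x y z →
    ∃ (C : Finset (Fin 3 → ZMod Q)) (ι : Type) (lab : (Fin 3 → ZMod Q) → ι),
      C.card = p ^ 3 * N ∧ (∀ t, (C.filter fun c => lab c = t).card ≤ N) ∧
      (∀ K : ℤ, 2 * p * K ≤ Q → ∀ c : Fin 3 → Fin 3 → ZMod Q, (∀ i, c i ∈ C) →
        Function.Injective (fun i => lab (c i)) →
        ∀ d : ℤ, |d| ≤ K → Matrix.det (Matrix.of c) ≠ (d : ZMod Q)) ∧
      (∀ c : Fin 3 → Fin 3 → ZMod Q, (∀ i, c i ∈ C) →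
        ¬ Function.Injective (fun i => lab (c i)) →
        ∀ l : Fin 3 → ZMod Q, (∑ i, l i • c i = 0) → ∑ i, l i = 0)

/-- the constant of the three counts -/
noncomputable def MC : ℝ := 64 * 1000 * 6 ^ 6 * 6

theorem MC_pos : 0 < MC := by unfold MC; norm_num

theorem log_bound (W : ℕ) (hW : 0 < W) (B : ℕ) (hB : B ≤ 2 * W) :
    (Nat.log 2 (2 * B ^ 2) : ℝ) + 1 ≤ 6 * ((Nat.log 2 W : ℝ) + 1) := by
  have h1 : W < 2 ^ (Nat.log 2 W + 1) := Nat.lt_pow_succ_log_self (by norm_num) W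
  have h2 : 2 * B ^ 2 < 2 ^ (2 * Nat.log 2 W + 5) := by
    calc 2 * B ^ 2 ≤ 2 * (2 * W) ^ 2 := by gcongr
      _ < 2 * (2 * 2 ^ (Nat.log 2 W + 1)) ^ 2 := by gcongr
      _ = 2 ^ (2 * Nat.log 2 W + 5) := by ring
  have h3 : Nat.log 2 (2 * B ^ 2) < 2 * Nat.log 2 W + 5 := by
    rcases Nat.eq_zero_or_pos B with h0 | h0
    · subst h0; simp
    · exact Nat.log_lt_of_lt_pow (by positivity) h2
  have h4 : Nat.log 2 (2 * B ^ 2) + 1 ≤ 6 * (Nat.log 2 W + 1) := by omega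
  exact_mod_cast h4

open Classical in
/-- the set of bad integer triples -/
noncomputable def TT (p Q W : ℕ) : Finset (Fin 3 → Fin 3 → ℤ) :=
  (Fintype.piFinset fun _ : Fin 3 => Box W).filter
    (fun U => crossProduct (U 1 - U 0) (U 2 - U 0) ≠ 0 ∧
      2 * (p : ℤ) * |Matrix.det (Matrix.of U)| ≤ Q)

theorem mem_TT {p Q W : ℕ} {U : Fin 3 → Fin 3 → ℤ} : U ∈ TT p Q W ↔
    (∀ i, U i ∈ Box W) ∧ crossProduct (U 1 - U 0) (U 2 - U 0) ≠ 0 ∧
      2 * (p : ℤ) * |Matrix.det (Matrix.of U)| ≤ Q := by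
  unfold TT
  rw [mem_filter, Fintype.mem_piFinset]

theorem TT_box {p Q W : ℕ} (hW : 0 < W) {U : Fin 3 → Fin 3 → ℤ} (hU : U ∈ TT p Q W) (i j : Fin 3) :
    0 ≤ U i j ∧ U i j < ((2 * W : ℕ) : ℤ) := by
  obtain ⟨⟨a1, a2⟩, ⟨a3, a4⟩, a5, a6⟩ := mem_Box.1 ((mem_TT.1 hU).1 i)
  have hW0 : (0 : ℤ) < W := by exact_mod_cast hW
  push_cast
  fin_cases j <;> simp only [Fin.zero_eta, Fin.mk_one, Fin.reduceFinMk] <;> constructor <;>
    linarith

open Classical in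
theorem badTriples_card_le (p Q W : ℕ) (A : (Fin 3 → ℤ) → Prop) :
    (badTriples ((Box W).filter (fun u => A u))
      (fun u v w => crossProduct (v - u) (w - u) ≠ 0 ∧ BadDet p Q u v w)).card
      ≤ ((TT p Q W).filter fun U => ∀ i, A (U i)).card := by
  refine card_le_card_of_injOn (fun t => ![t.1, t.2.1, t.2.2]) ?_ ?_
  · intro t ht
    obtain ⟨⟨b1, b2, b3⟩, _, _, _, hcr, hbad⟩ := mem_badTriples.1 (mem_coe.1 ht)
    rw [mem_filter] at b1 b2 b3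
    rw [mem_coe, mem_filter, mem_TT]
    refine ⟨⟨?_, ?_, ?_⟩, ?_⟩
    · intro i
      fin_cases i
      · exact b1.1
      · exact b2.1
      · exact b3.1
    · exact hcr
    · exact hbad
    · intro i
      fin_cases i
      · exact b1.2
      · exact b2.2
      · exact b3.2
  · intro t _ s _ hts
    have e0 := congrFun hts 0
    have e1 := congrFun hts 1
    have e2 := congrFun hts 2
    simp only [Matrix.cons_val_zero, Matrix.cons_val_one, Matrix.cons_val] at e0 e1 e2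
    exact Prod.ext e0 (Prod.ext e1 e2)

open Classical in
theorem TT_countA (p Q W : ℕ) (hW : 0 < W) (d : ℤ) (hd : d ≠ 0) :
    (((TT p Q W).filter fun U => Matrix.det (Matrix.of U) = d).card : ℝ)
      ≤ MC * (W : ℝ) ^ 6 * ((Nat.log 2 W : ℝ) + 1) := by
  have hlog1 := log_bound W hW (2 * W) le_rfl
  set L : ℝ := (Nat.log 2 W : ℝ) + 1 with hLdef
  have hL0 : 0 ≤ L := by positivity
  refine (countA (2 * W) (by omega) d hd _ (fun U hU => TT_box hW (mem_filter.1 hU).1)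
    (fun U hU => (mem_filter.1 hU).2)).trans ?_
  have e : (((2 * W : ℕ) : ℝ)) = 2 * (W : ℝ) := by push_cast; ring
  rw [e]
  calc 64 * 6 ^ 6 * (2 * (W : ℝ)) ^ 6 * ((Nat.log 2 (2 * (2 * W) ^ 2) : ℝ) + 1)
      ≤ 64 * 6 ^ 6 * (2 * (W : ℝ)) ^ 6 * (6 * L) := by gcongr
    _ = (64 * 6 ^ 6 * 64 * 6) * (W : ℝ) ^ 6 * L := by ring
    _ ≤ MC * (W : ℝ) ^ 6 * L := by
        have : (64 * 6 ^ 6 * 64 * 6 : ℝ) ≤ MC := by unfold MC; norm_num
        gcongr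

open Classical in
theorem TT_countB (p Q W : ℕ) (hQ : 1 < Q) (hW : 0 < W) (l : Fin 3 → ZMod Q)
    (hl : ∑ i, l i = 0) :
    (((TT p Q W).filter fun U => FM.RelB Q l U).card : ℝ) * (Q : ℝ) ^ 2
      ≤ MC * (W : ℝ) ^ 6 * ((Nat.log 2 W : ℝ) + 1) := by
  have hlog1 := log_bound W hW (2 * W) le_rfl
  set L : ℝ := (Nat.log 2 W : ℝ) + 1 with hLdef
  have hL0 : 0 ≤ L := by positivity
  refine (countB Q (2 * W) hQ (by omega) l hl _
    (fun U hU => TT_box hW (mem_filter.1 hU).1)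
    (fun U hU => (mem_filter.1 hU).2.1)
    (fun U hU => FM.aff_of_cross (mem_TT.1 (mem_filter.1 hU).1).2.1)
    (fun U hU => (mem_filter.1 hU).2.2)).trans ?_
  have e : (((2 * W : ℕ) : ℝ)) = 2 * (W : ℝ) := by push_cast; ring
  rw [e]
  calc (1000 * 6 ^ 6) * (2 * (W : ℝ)) ^ 6 * ((Nat.log 2 (2 * (2 * W) ^ 2) : ℝ) + 1)
      ≤ (1000 * 6 ^ 6) * (2 * (W : ℝ)) ^ 6 * (6 * L) := by gcongr
    _ = (1000 * 6 ^ 6 * 64 * 6) * (W : ℝ) ^ 6 * L := by ring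
    _ ≤ MC * (W : ℝ) ^ 6 * L := by
        have : (1000 * 6 ^ 6 * 64 * 6 : ℝ) ≤ MC := by unfold MC; norm_num
        gcongr

open Classical in
theorem TT_countC (p Q W : ℕ) (hQ : 0 < Q) (hW : 0 < W) (hQW : Q ∣ W) :
    (((TT p Q W).filter fun U => FM.RelC Q U).card : ℝ) * (Q : ℝ) ^ 4
      ≤ MC * (W : ℝ) ^ 6 * ((Nat.log 2 W : ℝ) + 1) := by
  have hlog2 := log_bound W hW W (by omega)
  set L : ℝ := (Nat.log 2 W : ℝ) + 1 with hLdef
  have hL0 : 0 ≤ L := by positivity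
  refine (CountC.countC Q W hQ hW hQW ![0, 0, W] _
    (fun U hU i j => ?_)
    (fun U hU i j => (mem_filter.1 hU).2.dvd i j)
    (fun U hU => (mem_TT.1 (mem_filter.1 hU).1).2.1)
    (fun U hU => (mem_filter.1 hU).2.1)).trans ?_
  · obtain ⟨⟨a1, a2⟩, ⟨a3, a4⟩, a5, a6⟩ := mem_Box.1 ((mem_TT.1 (mem_filter.1 hU).1).1 i)
    fin_cases j
    · simpa using ⟨a1, a2⟩
    · simpa using ⟨a3, a4⟩
    · constructor
      · simpa using a5
      · have : U i 2 < (W : ℤ) + W := by linarith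
        simpa using this
  · calc (64 * 36 * 11 ^ 4) * (W : ℝ) ^ 6 * ((Nat.log 2 (2 * W ^ 2) : ℝ) + 1)
        ≤ (64 * 36 * 11 ^ 4) * (W : ℝ) ^ 6 * (6 * L) := by gcongr
      _ = (64 * 36 * 11 ^ 4 * 6) * (W : ℝ) ^ 6 * L := by ring
      _ ≤ MC * (W : ℝ) ^ 6 * L := by
          have : (64 * 36 * 11 ^ 4 * 6 : ℝ) ≤ MC := by unfold MC; norm_num
          gcongr

/-- pure arithmetic at the end -/
theorem gside_arith (p Q N G M S rep Cc : ℝ) (hp : 1 ≤ p) (hQ : 0 ≤ Q) (hN : 1 ≤ N)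
    (hM : 0 ≤ M) (hG : Q ^ 8 ≤ 8 * G) (hS0 : 0 ≤ S)
    (hS : S ≤ rep * M + Cc * (Q * M)) (hrep : rep ≤ 3 * p ^ 6 * N ^ 3)
    (hCc : Cc = p ^ 3 * N) (hQN : Q ≤ N ^ 2) :
    S * Q ^ 8 ≤ 32 * p ^ 6 * N ^ 3 * M * G := by
  have h3 : (1 : ℝ) ≤ p ^ 3 := one_le_pow₀ hp
  have hCQ : Cc * (Q * M) ≤ p ^ 6 * N ^ 3 * M := by
    rw [hCc]
    calc p ^ 3 * N * (Q * M) = 1 * (p ^ 3 * N * Q * M) := by ring
      _ ≤ p ^ 3 * (p ^ 3 * N * N ^ 2 * M) := by gcongr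
      _ = p ^ 6 * N ^ 3 * M := by ring
  have htot : S ≤ 4 * p ^ 6 * N ^ 3 * M := by
    refine hS.trans ?_
    calc rep * M + Cc * (Q * M) ≤ 3 * p ^ 6 * N ^ 3 * M + p ^ 6 * N ^ 3 * M := by gcongr
      _ = 4 * p ^ 6 * N ^ 3 * M := by ring
  calc S * Q ^ 8 ≤ (4 * p ^ 6 * N ^ 3 * M) * (8 * G) := by gcongr
    _ = 32 * p ^ 6 * N ^ 3 * M * G := by ring

end Crest.Agent.R032
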