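import Crest.Agent.R032.FirstMom
import Crest.Agent.R032.RDefs

/-!
Row 32 (Heilbronn): from `LabSet` to the labelled finite set `C ⊂ F_Q^3` (helper973).
-/

set_option autoImplicit false

namespace Crest.Agent.R032.FM

open Finset

variable {p Q N : ℕ} [Fact Q.Prime] {x y z : Fin (p ^ 3) → ℤ}

/-- the point with label `t` and offset `e` -/
def lpt (Q : ℕ) {p : ℕ} (x y z : Fin (p ^ 3) → ℤ) (t : Fin (p ^ 3)) (e : ℕ) : Fin 3 → ZMod Q :=
  ![((x t + e : ℤ) : ZMod Q), ((y t : ℤ) : ZMod Q), ((z t : ℤ) : ZMod Q)]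

theorem lpt_lab (h : LabSet p Q N x y z) {t s : Fin (p ^ 3)} {e f : ℕ}
    (heq : lpt Q x y z t e = lpt Q x y z s f) : t = s := by
  by_contra hne
  apply h.wedge t s hne
  have h1 := congrFun heq 1
  have h2 := congrFun heq 2
  simp only [lpt, Matrix.cons_val_one, Matrix.cons_val_zero, Matrix.cons_val] at h1 h2
  rw [← ZMod.intCast_zmod_eq_zero_iff_dvd]
  push_cast
  rw [h1, h2]
  ring

theorem lpt_off (h : LabSet p Q N x y z) {t : Fin (p ^ 3)} {e f : ℕ} (he : e < N) (hf : f < N)
    (heq : lpt Q x y z t e = lpt Q x y z t f) : e = f := by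
  have h0 := congrFun heq 0
  simp only [lpt, Matrix.cons_val_zero] at h0
  push_cast at h0
  have h1 : (e : ZMod Q) = (f : ZMod Q) := add_left_cancel h0
  rw [ZMod.natCast_eq_natCast_iff'] at h1
  have hN := h.N_le
  rw [Nat.mod_eq_of_lt (by omega), Nat.mod_eq_of_lt (by omega)] at h1
  exact h1

open Classical in
/-- the labelled set -/
noncomputable def labC (Q N : ℕ) {p : ℕ} (x y z : Fin (p ^ 3) → ℤ) : Finset (Fin 3 → ZMod Q) :=
  ((Finset.univ : Finset (Fin (p ^ 3))) ×ˢ Finset.range N).image fun a => lpt Q x y z a.1 a.2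

open Classical in
/-- the label function -/
noncomputable def labF (Q : ℕ) {p : ℕ} (x y z : Fin (p ^ 3) → ℤ) (c : Fin 3 → ZMod Q) :
    Option (Fin (p ^ 3)) :=
  if h : ∃ (t : Fin (p ^ 3)) (e : ℕ), lpt Q x y z t e = c then some h.choose else none

theorem mem_labC {c : Fin 3 → ZMod Q} :
    c ∈ labC Q N x y z ↔ ∃ (t : Fin (p ^ 3)) (e : ℕ), e < N ∧ lpt Q x y z t e = c := by
  simp only [labC, Finset.mem_image, Finset.mem_product, Finset.mem_univ, true_and,
    Finset.mem_range, Prod.exists]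

theorem labF_lpt (h : LabSet p Q N x y z) (t : Fin (p ^ 3)) (e : ℕ) :
    labF Q x y z (lpt Q x y z t e) = some t := by
  have hex : ∃ (t' : Fin (p ^ 3)) (e' : ℕ), lpt Q x y z t' e' = lpt Q x y z t e := ⟨t, e, rfl⟩
  unfold labF
  rw [dif_pos hex]
  obtain ⟨e', he'⟩ := hex.choose_spec
  rw [lpt_lab h he']

theorem card_labC (h : LabSet p Q N x y z) : (labC Q N x y z).card = p ^ 3 * N := by
  unfold labC
  rw [Finset.card_image_of_injOn, Finset.card_product, Finset.card_univ, Fintype.card_fin,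
    Finset.card_range]
  rintro ⟨t, e⟩ ha ⟨s, f⟩ hb hab
  simp only [Finset.coe_product, Finset.coe_range, Set.mem_prod, Set.mem_Iio] at ha hb
  simp only at hab
  have hts := lpt_lab h hab
  subst hts
  rw [lpt_off h ha.2 hb.2 hab]

open Classical in
theorem card_labC_fibre (h : LabSet p Q N x y z) (l : Option (Fin (p ^ 3))) :
    ((labC Q N x y z).filter fun c => labF Q x y z c = l).card ≤ N := by
  cases l with
  | none =>
    have : ((labC Q N x y z).filter fun c => labF Q x y z c = none) = ∅ := by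
      rw [Finset.filter_eq_empty_iff]
      intro c hc hcon
      obtain ⟨t, e, _, rfl⟩ := mem_labC.1 hc
      rw [labF_lpt h] at hcon
      exact Option.some_ne_none _ hcon
    rw [this]
    simp
  | some t =>
    calc ((labC Q N x y z).filter fun c => labF Q x y z c = some t).card
        ≤ ((Finset.range N).image fun e => lpt Q x y z t e).card := by
          apply Finset.card_le_card
          intro c hc
          rw [Finset.mem_filter] at hc
          obtain ⟨s, e, he, rfl⟩ := mem_labC.1 hc.1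
          rw [labF_lpt h] at hc
          have : s = t := Option.some.inj hc.2
          subst this
          exact Finset.mem_image.2 ⟨e, Finset.mem_range.2 he, rfl⟩
      _ ≤ N := by
          refine le_trans Finset.card_image_le ?_
          rw [Finset.card_range]

/-- (i) -/
theorem labC_sep (h : LabSet p Q N x y z) (K : ℤ) (hK : 2 * p * K ≤ Q)
    (c : Fin 3 → Fin 3 → ZMod Q) (hc : ∀ i, c i ∈ labC Q N x y z)
    (hinj : Function.Injective (fun i => labF Q x y z (c i))) (d : ℤ) (hd : |d| ≤ K) :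
    Matrix.det (Matrix.of c) ≠ (d : ZMod Q) := by
  intro hdet
  choose t e he hte using fun i => mem_labC.1 (hc i)
  have htinj : Function.Injective t := by
    intro i j hij
    apply hinj
    simp only
    rw [← hte i, ← hte j, labF_lpt h, labF_lpt h, hij]
  have hs := h.sep t htinj (fun i => (e i : ℤ)) (fun i => ⟨Int.natCast_nonneg _, by
    exact_mod_cast he i⟩)
  set D : ℤ := dt (fun i => x (t i) + (e i : ℤ)) (fun i => y (t i)) (fun i => z (t i)) with hD
  have hcast : Matrix.det (Matrix.of c) = (D : ZMod Q) := by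
    rw [Matrix.det_fin_three]
    simp only [Matrix.of_apply]
    rw [← hte 0, ← hte 1, ← hte 2, hD]
    simp only [lpt, dt, Matrix.cons_val_zero, Matrix.cons_val_one, Matrix.cons_val]
    push_cast
    ring
  rw [hcast] at hdet
  have h1 : ((D - d : ℤ) : ZMod Q) = 0 := by
    rw [Int.cast_sub, hdet, sub_self]
  rw [ZMod.intCast_zmod_eq_zero_iff_dvd] at h1
  obtain ⟨j, hj⟩ := h1
  have h2 := hs j
  have h3 : D - j * Q = d := by linarith
  rw [h3] at h2
  have hp0 : (0 : ℤ) ≤ 2 * p := by positivity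
  have h4 : 2 * (p : ℤ) * |d| ≤ 2 * p * K := mul_le_mul_of_nonneg_left hd hp0
  linarith

/-- (ii) -/
theorem labC_rel (h : LabSet p Q N x y z)
    (c : Fin 3 → Fin 3 → ZMod Q) (hc : ∀ i, c i ∈ labC Q N x y z)
    (hrep : ¬ Function.Injective (fun i => labF Q x y z (c i))) (l : Fin 3 → ZMod Q)
    (hl : ∑ i, l i • c i = 0) : ∑ i, l i = 0 := by
  choose t e he hte using fun i => mem_labC.1 (hc i)
  have hlab : ∀ i, labF Q x y z (c i) = some (t i) := fun i => by rw [← hte i, labF_lpt h]
  obtain ⟨i, j, hij, hne⟩ : ∃ i j, t i = t j ∧ i ≠ j := by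
    by_contra hcon
    push Not at hcon
    apply hrep
    intro i j hij
    simp only [hlab] at hij
    exact hcon i j (Option.some.inj hij)
  obtain ⟨k, hki, hkj, hk⟩ : ∃ k : Fin 3, k ≠ i ∧ k ≠ j ∧ ∀ a : Fin 3, a = i ∨ a = j ∨ a = k := by
    have h3 : ∀ i j : Fin 3, i ≠ j →
        ∃ k : Fin 3, k ≠ i ∧ k ≠ j ∧ ∀ a : Fin 3, a = i ∨ a = j ∨ a = k := by decide
    exact h3 i j hne
  have hsum : ∀ f : Fin 3 → ZMod Q, ∑ a, f a = f i + f j + f k := by
    intro f
    rw [← Finset.sum_subset (Finset.subset_univ ({i, j, k} : Finset (Fin 3)))]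
    · rw [Finset.sum_insert (by simp [hne, hki.symm]), Finset.sum_insert (by simp [hkj.symm]),
        Finset.sum_singleton, add_assoc]
    · intro a _ ha
      exfalso
      apply ha
      rcases hk a with h | h | h <;> simp [h]
  have hy : l i * (y (t i) : ZMod Q) + l j * (y (t j) : ZMod Q) + l k * (y (t k) : ZMod Q)
      = 0 := by
    have h1 := congrFun hl 1
    rw [Finset.sum_apply] at h1
    simp only [Pi.smul_apply, smul_eq_mul, Pi.zero_apply] at h1
    rw [hsum (fun a => l a * c a 1), ← hte i, ← hte j, ← hte k] at h1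
    simpa [lpt] using h1
  have hz : l i * (z (t i) : ZMod Q) + l j * (z (t j) : ZMod Q) + l k * (z (t k) : ZMod Q)
      = 0 := by
    have h1 := congrFun hl 2
    rw [Finset.sum_apply] at h1
    simp only [Pi.smul_apply, smul_eq_mul, Pi.zero_apply] at h1
    rw [hsum (fun a => l a * c a 2), ← hte i, ← hte j, ← hte k] at h1
    simpa [lpt] using h1
  rw [hsum]
  rw [← hij] at hy hz
  by_cases hks : t k = t i
  · rw [hks] at hy hz
    have hy' : (l i + l j + l k) * (y (t i) : ZMod Q) = 0 := by linear_combination hy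
    have hz' : (l i + l j + l k) * (z (t i) : ZMod Q) = 0 := by linear_combination hz
    by_contra hcon
    apply h.nz (t i)
    rw [← ZMod.intCast_zmod_eq_zero_iff_dvd, ← ZMod.intCast_zmod_eq_zero_iff_dvd]
    exact ⟨(mul_eq_zero.1 hy').resolve_left hcon, (mul_eq_zero.1 hz').resolve_left hcon⟩
  · have hw := h.wedge (t i) (t k) (Ne.symm hks)
    rw [← ZMod.intCast_zmod_eq_zero_iff_dvd] at hw
    push_cast at hw
    have h1 : (l i + l j) * ((y (t i) : ZMod Q) * (z (t k) : ZMod Q)
        - (y (t k) : ZMod Q) * (z (t i) : ZMod Q)) = 0 := by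
      linear_combination (z (t k) : ZMod Q) * hy - (y (t k) : ZMod Q) * hz
    have h2 : l k * ((y (t i) : ZMod Q) * (z (t k) : ZMod Q)
        - (y (t k) : ZMod Q) * (z (t i) : ZMod Q)) = 0 := by
      linear_combination (y (t i) : ZMod Q) * hz - (z (t i) : ZMod Q) * hy
    have h3 := (mul_eq_zero.1 h1).resolve_right hw
    have h4 := (mul_eq_zero.1 h2).resolve_right hw
    rw [h3, h4, add_zero]

open Classical in
/-- packaged form -/
theorem exists_labC (h : LabSet p Q N x y z) (K : ℤ) (hK : 2 * p * K ≤ Q) :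
    ∃ (C : Finset (Fin 3 → ZMod Q)) (lab : (Fin 3 → ZMod Q) → Option (Fin (p ^ 3))),
      C.card = p ^ 3 * N ∧
      (∀ l, (C.filter fun c => lab c = l).card ≤ N) ∧
      (∀ c : Fin 3 → Fin 3 → ZMod Q, (∀ i, c i ∈ C) →
        Function.Injective (fun i => lab (c i)) →
        ∀ d : ℤ, |d| ≤ K → Matrix.det (Matrix.of c) ≠ (d : ZMod Q)) ∧
      (∀ c : Fin 3 → Fin 3 → ZMod Q, (∀ i, c i ∈ C) →
        ¬ Function.Injective (fun i => lab (c i)) →
        ∀ l : Fin 3 → ZMod Q, (∑ i, l i • c i = 0) → ∑ i, l i = 0) :=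
  ⟨labC Q N x y z, labF Q x y z, card_labC h, card_labC_fibre h,
    fun c hc hinj d hd => labC_sep h K hK c hc hinj d hd,
    fun c hc hrep l hl => labC_rel h c hc hrep l hl⟩

end Crest.Agent.R032.FM
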