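import Mathlib
import Crest.Agent.R032.GSide
import Crest.Agent.R032.LabC

/-!
Row 32 (Heilbronn), glue, part 5: the `Q`-side, assembly (helper441).
-/

set_option autoImplicit false
set_option maxHeartbeats 400000

namespace Crest.Agent.R032

open Finset

theorem sum_sub_le {α : Type*} (S : Finset α) (F : Fintype {x // x ∈ S}) (f : {x // x ∈ S} → ℝ)
    (g : α → ℝ) (h : ∀ x, f x ≤ g x.1) :
    (∑ x : {x // x ∈ S}, f x) ≤ ∑ x ∈ S, g x := by
  rw [← Finset.sum_coe_sort S g]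
  have hF : F = Finset.fintypeCoeSort S := Subsingleton.elim _ _
  subst hF
  exact sum_le_sum (fun x _ => h x)

theorem card_cast_irrel {α : Type*} (S : Finset α) (P : α → Prop) (i1 i2 : DecidablePred P) :
    (@Finset.filter α P i1 S).card = (@Finset.filter α P i2 S).card := by
  have : i1 = i2 := Subsingleton.elim _ _
  rw [this]

theorem badTriples_card_le' (p Q W : ℕ) (A : (Fin 3 → ℤ) → Prop) (i1 : DecidablePred A)
    (i2 : DecidablePred fun U : Fin 3 → Fin 3 → ℤ => ∀ i, A (U i)) :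
    ((badTriples (@Finset.filter _ (fun u => A u) i1 (Box W))
      (fun u v w => crossProduct (v - u) (w - u) ≠ 0 ∧ BadDet p Q u v w)).card : ℝ)
      ≤ ((@Finset.filter _ (fun U => ∀ i, A (U i)) i2 (TT p Q W)).card : ℝ) := by
  have h := badTriples_card_le p Q W A
  rw [Nat.cast_le]
  convert h

open Classical in
theorem gSide_sum (p Q N : ℕ) [Fact Q.Prime] (x y z : Fin (p ^ 3) → ℤ) (hp : p.Prime)
    (hL : LabSet p Q N x y z) (W : ℕ) (hW : 0 < W) (hQW : Q ∣ W) (K : ℤ)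
    (hK1 : 2 * (p : ℤ) * K ≤ Q) (hK2 : ∀ d : ℤ, 2 * (p : ℤ) * |d| ≤ Q → |d| ≤ K)
    (hKQ : 2 * K < Q) :
    ∃ C : Finset (Fin 3 → ZMod Q), C.card = p ^ 3 * N ∧
      (∑ g ∈ SLset Q, (((TT p Q W).filter fun U => ∀ i, g.mulVec (FM.castv Q (U i)) ∈ C).card : ℝ))
        * (Q : ℝ) ^ 8
        ≤ 32 * (p : ℝ) ^ 6 * (N : ℝ) ^ 3 * (MC * (W : ℝ) ^ 6 * ((Nat.log 2 W : ℝ) + 1)) *
          ((SLset Q).card : ℝ) := by
  obtain ⟨C, lab, hCcard, hfib, hi, hii⟩ := FM.exists_labC hL K hK1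
  have hQ : Q.Prime := Fact.out
  refine ⟨C, hCcard, ?_⟩
  have hTK : ∀ U ∈ TT p Q W, |Matrix.det (Matrix.of U)| ≤ K := fun U hU => hK2 _ (mem_TT.1 hU).2.2
  have hM0 : 0 ≤ MC * (W : ℝ) ^ 6 * ((Nat.log 2 W : ℝ) + 1) := by
    have := MC_pos
    positivity
  have hA := TT_countA p Q W hW
  have hB := fun l hl => TT_countB p Q W hQ.one_lt hW l hl
  have hC := TT_countC p Q W hQ.pos hW hQW
  have hfm := FM.firstMoment K hKQ C lab (TT p Q W) hTK hi hii _ hM0
    (fun d hd => by convert hA d hd)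
    (fun l hl => by convert hB l hl)
    (by convert hC)
  have hrep := FM.card_rep_le C lab N (fun t => by convert hfib t)
  refine gside_arith (p : ℝ) Q N ((SLset Q).card : ℝ) _ _ _ _ ?_ (by positivity) ?_ hM0 ?_
    (by positivity) hfm ?_ ?_ ?_
  · exact_mod_cast hp.one_le
  · exact_mod_cast hL.N_pos
  · exact_mod_cast card_SLset_ge Q
  · have h2 : 3 * (C.card ^ 2 * N) = 3 * p ^ 6 * N ^ 3 := by
      rw [hCcard]; ring
    rw [h2] at hrep
    have h3 := (Nat.cast_le (α := ℝ)).2 hrep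
    rw [card_cast_irrel _ _ _ (fun a => Classical.propDecidable _)] at h3
    rw [card_cast_irrel _ _ _ (fun a => Classical.propDecidable _)]
    refine h3.trans (le_of_eq ?_)
    push_cast
    ring
  · rw [hCcard]; push_cast; ring
  · exact_mod_cast hL.le_N2

theorem gSide : GSideStmt := by
  classical
  refine ⟨32 * MC, by have := MC_pos; positivity, ?_⟩
  intro p Q N x y z hp hQ hL W hW hQW
  haveI : Fact Q.Prime := ⟨hQ⟩
  have hQpos : 0 < Q := hQ.pos
  have hSLpos : 0 < (SLset Q).card := by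
    have h1 := card_SLset_ge Q
    have h2 : 0 < Q ^ 8 := pow_pos hQpos 8
    omega
  obtain ⟨g0, hg0⟩ := card_pos.1 hSLpos
  have hp0 : (0 : ℤ) < 2 * p := by
    have := hp.pos
    positivity
  set K : ℤ := (Q : ℤ) / (2 * p) with hKdef
  have hK1 : 2 * (p : ℤ) * K ≤ Q := by
    rw [hKdef]
    exact Int.mul_ediv_self_le hp0.ne'
  have hK2 : ∀ d : ℤ, 2 * (p : ℤ) * |d| ≤ Q → |d| ≤ K := by
    intro d hd
    rw [hKdef, Int.le_ediv_iff_mul_le hp0]
    linarith
  have hKQ : 2 * K < Q := by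
    have hp2 : (2 : ℤ) ≤ p := by exact_mod_cast hp.two_le
    have hK0 : 0 ≤ K := Int.ediv_nonneg (by positivity) hp0.le
    have hQ0 : (0 : ℤ) < Q := by exact_mod_cast hQpos
    nlinarith
  obtain ⟨C, hCcard, hsum⟩ := gSide_sum p Q N x y z hp hL W hW hQW K hK1 hK2 hKQ
  refine ⟨{g // g ∈ SLset Q}, inferInstance, ⟨⟨g0, hg0⟩⟩,
    fun g u => g.1.mulVec (FM.castv Q u) ∈ C, ?_, ?_⟩
  · intro g
    have h1 := count_box Q W hQW C g.1 g.2
    rw [hCcard] at h1
    rw [card_cast_irrel _ _ _ (fun a => Classical.propDecidable _)] at h1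
    rw [card_cast_irrel _ _ _ (fun a => Classical.propDecidable _)]
    exact h1
  · have hcardG : (Fintype.card {g // g ∈ SLset Q} : ℝ) = ((SLset Q).card : ℝ) := by simp
    rw [hcardG]
    have hstep := sum_sub_le (SLset Q) inferInstance
      (fun g => ((badTriples (@Finset.filter _ (fun u => g.1.mulVec (FM.castv Q u) ∈ C)
          (fun _ => Classical.propDecidable _) (Box W))
          (fun u v w => crossProduct (v - u) (w - u) ≠ 0 ∧ BadDet p Q u v w)).card : ℝ))
      (fun g => (((TT p Q W).filter fun U => ∀ i, g.mulVec (FM.castv Q (U i)) ∈ C).card : ℝ))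
      (by
        intro g
        exact badTriples_card_le' p Q W (fun u => g.1.mulVec (FM.castv Q u) ∈ C) _ _)
    have hQ0 : (0 : ℝ) ≤ (Q : ℝ) ^ 8 := by positivity
    have hfin := (mul_le_mul_of_nonneg_right hstep hQ0).trans hsum
    refine hfin.trans (le_of_eq ?_)
    ring

end Crest.Agent.R032
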