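/-
Row 32 (S0042, Heilbronn), section 1 of note 10070 (helper441): the gadget.
The norm form of `F_{p^3}` gives an alternating function of three labels, nonzero on distinct
labels, of tensor rank bounded independently of `p`.  (helper929)
-/
import Mathlib
import Crest.Agent.R032.RDefs

set_option autoImplicit false

namespace Crest.Agent.R032

open Finset

namespace Gadget

/-- index set of the expansion of the determinant of a difference of two `3 × 3` matrices -/
abbrev Ix : Type := Equiv.Perm (Fin 3) × Finset (Fin 3)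

/-- left factor -/
def uL {F : Type*} [CommRing F] (A : Matrix (Fin 3) (Fin 3) F) (q : Ix) : F :=
  (Equiv.Perm.sign q.1 : ℤ) * ∏ i ∈ q.2, A (q.1 i) i

/-- right factor -/
def wR {F : Type*} [CommRing F] (B : Matrix (Fin 3) (Fin 3) F) (q : Ix) : F :=
  ∏ i ∈ q.2ᶜ, (-B (q.1 i) i)

lemma det_sub_eq {F : Type*} [CommRing F] (A B : Matrix (Fin 3) (Fin 3) F) :
    (A - B).det = ∑ q : Ix, uL A q * wR B q := by
  rw [Matrix.det_apply', Fintype.sum_prod_type]
  refine Finset.sum_congr rfl fun σ _ => ?_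
  have h : ∏ i, (A - B) (σ i) i = ∑ S : Finset (Fin 3), (∏ i ∈ S, A (σ i) i) * ∏ i ∈ Sᶜ, (-B (σ i) i) := by
    rw [← Fintype.prod_add]
    refine Finset.prod_congr rfl fun i _ => ?_
    rw [Matrix.sub_apply, sub_eq_add_neg]
  rw [h, Finset.mul_sum]
  refine Finset.sum_congr rfl fun S _ => ?_
  simp only [uL, wR]
  ring

/-- the alternating form `det (M_{t₁} - M_{t₀}) * det (M_{t₂} - M_{t₀}) * det (M_{t₂} - M_{t₁})` -/
def Fo {F : Type*} [CommRing F] (A B C : Matrix (Fin 3) (Fin 3) F) : F :=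
  (B - A).det * (C - A).det * (C - B).det

lemma det_swap {F : Type*} [CommRing F] (A B : Matrix (Fin 3) (Fin 3) F) :
    (A - B).det = - (B - A).det := by
  have : A - B = -(B - A) := by abel
  rw [this, Matrix.det_neg, Fintype.card_fin]
  ring

lemma sum_triple {α F : Type*} [Fintype α] [CommRing F] (u1 u2 u3 w1 w2 w3 : α → F) :
    (∑ q, u1 q * w1 q) * (∑ q, u2 q * w2 q) * (∑ q, u3 q * w3 q) =
      ∑ q : α × α × α, (w1 q.1 * w2 q.2.1) * (u1 q.1 * w3 q.2.2) * (u2 q.2.1 * u3 q.2.2) := by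
  rw [Fintype.sum_mul_sum, Finset.sum_mul, Fintype.sum_prod_type]
  refine Finset.sum_congr rfl fun q1 _ => ?_
  rw [Finset.sum_mul_sum, Fintype.sum_prod_type]
  refine Finset.sum_congr rfl fun q2 _ => ?_
  refine Finset.sum_congr rfl fun q3 _ => ?_
  simp only
  ring

lemma Fo_eq_sum {F : Type*} [CommRing F] (A B C : Matrix (Fin 3) (Fin 3) F) :
    Fo A B C = ∑ q : Ix × Ix × Ix, (wR A q.1 * wR A q.2.1) * (uL B q.1 * wR B q.2.2) *
      (uL C q.2.1 * uL C q.2.2) := by
  rw [Fo, det_sub_eq, det_sub_eq, det_sub_eq, sum_triple]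

/-- the antisymmetrisation: the sum of the determinants is `6 * Fo` -/
lemma sum_dt_eq {F : Type*} [CommRing F] (A : Fin 3 → Matrix (Fin 3) (Fin 3) F) :
    ∑ q : Ix × Ix × Ix, dt (fun i => wR (A i) q.1 * wR (A i) q.2.1)
      (fun i => uL (A i) q.1 * wR (A i) q.2.2) (fun i => uL (A i) q.2.1 * uL (A i) q.2.2)
      = 6 * Fo (A 0) (A 1) (A 2) := by
  have h1 : ∀ q : Ix × Ix × Ix, dt (fun i => wR (A i) q.1 * wR (A i) q.2.1)
      (fun i => uL (A i) q.1 * wR (A i) q.2.2) (fun i => uL (A i) q.2.1 * uL (A i) q.2.2)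
      = (wR (A 0) q.1 * wR (A 0) q.2.1) * (uL (A 1) q.1 * wR (A 1) q.2.2) * (uL (A 2) q.2.1 * uL (A 2) q.2.2)
      - (wR (A 0) q.1 * wR (A 0) q.2.1) * (uL (A 2) q.1 * wR (A 2) q.2.2) * (uL (A 1) q.2.1 * uL (A 1) q.2.2)
      - (wR (A 1) q.1 * wR (A 1) q.2.1) * (uL (A 0) q.1 * wR (A 0) q.2.2) * (uL (A 2) q.2.1 * uL (A 2) q.2.2)
      + (wR (A 1) q.1 * wR (A 1) q.2.1) * (uL (A 2) q.1 * wR (A 2) q.2.2) * (uL (A 0) q.2.1 * uL (A 0) q.2.2)
      + (wR (A 2) q.1 * wR (A 2) q.2.1) * (uL (A 0) q.1 * wR (A 0) q.2.2) * (uL (A 1) q.2.1 * uL (A 1) q.2.2)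
      - (wR (A 2) q.1 * wR (A 2) q.2.1) * (uL (A 1) q.1 * wR (A 1) q.2.2) * (uL (A 0) q.2.1 * uL (A 0) q.2.2) := by
    intro q
    simp only [dt]
    ring
  rw [Finset.sum_congr rfl fun q _ => h1 q]
  simp only [Finset.sum_sub_distrib, Finset.sum_add_distrib]
  rw [← Fo_eq_sum, ← Fo_eq_sum, ← Fo_eq_sum, ← Fo_eq_sum, ← Fo_eq_sum, ← Fo_eq_sum]
  simp only [Fo]
  rw [det_swap (A 0) (A 1), det_swap (A 0) (A 2), det_swap (A 1) (A 2)]
  ring

end Gadget

open Gadget in
/-- SECTION 1 -/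
theorem gadget : GadgetStmt := by
  classical
  refine ⟨Fintype.card (Ix × Ix × Ix), ?_⟩
  intro p hp hp3
  have : Fact p.Prime := ⟨hp⟩
  -- the field and its regular representation
  let L := GaloisField p 3
  have hfr : Module.finrank (ZMod p) L = 3 := GaloisField.finrank p (by norm_num)
  let bs : Module.Basis (Fin 3) (ZMod p) L := Module.finBasisOfFinrankEq (ZMod p) L hfr
  let M : L → Matrix (Fin 3) (Fin 3) (ZMod p) := fun x => Algebra.leftMulMatrix bs x
  have hcard : Nat.card L = p ^ 3 := GaloisField.card p 3 (by norm_num)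
  let e : L ≃ Fin (p ^ 3) := Finite.equivFinOfCardEq hcard
  have hdet : ∀ x y : L, x ≠ y → (M x - M y).det ≠ 0 := by
    intro x y hxy h0
    have hne : x - y ≠ 0 := sub_ne_zero.mpr hxy
    have h1 : M x - M y = Algebra.leftMulMatrix bs (x - y) := by
      simp only [M, map_sub]
    have h2 : Algebra.leftMulMatrix bs (x - y) * Algebra.leftMulMatrix bs (x - y)⁻¹ = 1 := by
      rw [← map_mul, mul_inv_cancel₀ hne, map_one]
    have h3 := congrArg Matrix.det h2
    rw [Matrix.det_mul, ← h1, h0, zero_mul, Matrix.det_one] at h3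
    exact zero_ne_one h3
  let f := Fintype.equivFin (Ix × Ix × Ix)
  let va : (Ix × Ix × Ix) → Fin (p ^ 3) → ZMod p := fun q t =>
    wR (M (e.symm t)) q.1 * wR (M (e.symm t)) q.2.1
  let vb : (Ix × Ix × Ix) → Fin (p ^ 3) → ZMod p := fun q t =>
    uL (M (e.symm t)) q.1 * wR (M (e.symm t)) q.2.2
  let vc : (Ix × Ix × Ix) → Fin (p ^ 3) → ZMod p := fun q t =>
    uL (M (e.symm t)) q.2.1 * uL (M (e.symm t)) q.2.2
  refine ⟨fun k t => ((va (f.symm k) t).val : ℤ), fun k t => ((vb (f.symm k) t).val : ℤ),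
    fun k t => ((vc (f.symm k) t).val : ℤ), ?_, ?_, ?_, ?_⟩
  · intro k t
    exact ⟨Int.natCast_nonneg _, Int.ofNat_lt.mpr (ZMod.val_lt _)⟩
  · intro k t
    exact ⟨Int.natCast_nonneg _, Int.ofNat_lt.mpr (ZMod.val_lt _)⟩
  · intro k t
    exact ⟨Int.natCast_nonneg _, Int.ofNat_lt.mpr (ZMod.val_lt _)⟩
  · intro t ht hdvd
    rw [← ZMod.intCast_zmod_eq_zero_iff_dvd] at hdvd
    have hcast : ∀ v : ZMod p, (((v.val : ℕ) : ℤ) : ZMod p) = v := by
      intro v
      simp
    have h1 : ((∑ k, dt (fun i => ((va (f.symm k) (t i)).val : ℤ))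
        (fun i => ((vb (f.symm k) (t i)).val : ℤ)) (fun i => ((vc (f.symm k) (t i)).val : ℤ)) : ℤ) : ZMod p)
        = ∑ k, dt (fun i => va (f.symm k) (t i)) (fun i => vb (f.symm k) (t i))
          (fun i => vc (f.symm k) (t i)) := by
      rw [Int.cast_sum]
      refine Finset.sum_congr rfl fun k _ => ?_
      simp only [dt, Int.cast_add, Int.cast_sub, Int.cast_mul, hcast]
    rw [h1] at hdvd
    rw [Equiv.sum_comp f.symm (fun q => dt (fun i => va q (t i)) (fun i => vb q (t i))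
          (fun i => vc q (t i)))] at hdvd
    have h2 := sum_dt_eq (fun i : Fin 3 => M (e.symm (t i)))
    simp only [va, vb, vc] at hdvd
    rw [h2] at hdvd
    have hne : ∀ i j : Fin 3, i ≠ j → e.symm (t i) ≠ e.symm (t j) := by
      intro i j hij h
      exact hij (ht (e.symm.injective h))
    have h6 : (6 : ZMod p) ≠ 0 := by
      intro h
      have h' : ((6 : ℕ) : ZMod p) = 0 := by exact_mod_cast h
      rw [ZMod.natCast_eq_zero_iff] at h'
      have h5 : p ∣ 2 * 3 := by simpa using h'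
      rcases (Nat.Prime.dvd_mul hp).mp h5 with h | h
      · have := Nat.le_of_dvd (by norm_num) h
        omega
      · have := Nat.le_of_dvd (by norm_num) h
        omega
    have hF : Fo (M (e.symm (t 0))) (M (e.symm (t 1))) (M (e.symm (t 2))) ≠ 0 := by
      unfold Fo
      refine mul_ne_zero (mul_ne_zero ?_ ?_) ?_
      · exact hdet _ _ (hne 1 0 (by decide))
      · exact hdet _ _ (hne 2 0 (by decide))
      · exact hdet _ _ (hne 2 1 (by decide))
    exact (mul_ne_zero h6 hF) hdvd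

end Crest.Agent.R032
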