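import Mathlib

/-!
Row 32 (Heilbronn), section 6b of blueprint 10070: from integer points in the box
`[0,W) × [0,W) × [W,2W)` with all determinants `> K` to points of the unit square with all
triangle areas `≥ K / (16 W^3)`.
-/

set_option autoImplicit false

namespace Crest.Agent.R032

/-- The projection `(X,Y,Z) ↦ (X/Z, Y/Z)`. -/
noncomputable def toPlane (u : Fin 3 → ℤ) : ℝ × ℝ :=
  ((u 0 : ℝ) / (u 2 : ℝ), (u 1 : ℝ) / (u 2 : ℝ))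

/-- The area expression times `Z₁ Z₂ Z₃` is the determinant. -/
theorem toPlane_area (u v w : Fin 3 → ℤ) (hu : (u 2 : ℝ) ≠ 0) (hv : (v 2 : ℝ) ≠ 0)
    (hw : (w 2 : ℝ) ≠ 0) :
    (((toPlane v).1 - (toPlane u).1) * ((toPlane w).2 - (toPlane u).2)
      - ((toPlane v).2 - (toPlane u).2) * ((toPlane w).1 - (toPlane u).1))
      * ((u 2 : ℝ) * (v 2 : ℝ) * (w 2 : ℝ))
      = ((Matrix.det (Matrix.of ![u, v, w]) : ℤ) : ℝ) := by
  rw [Matrix.det_fin_three]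
  simp only [toPlane, Matrix.of_apply, Matrix.cons_val_zero, Matrix.cons_val_one,
    Matrix.cons_val, Int.cast_sub, Int.cast_add, Int.cast_mul]
  field_simp
  ring

theorem toPlane_mem (W : ℕ) (u : Fin 3 → ℤ)
    (h : 0 ≤ u 0 ∧ u 0 < W ∧ 0 ≤ u 1 ∧ u 1 < W ∧ (W : ℤ) ≤ u 2 ∧ u 2 < 2 * W) :
    0 ≤ (toPlane u).1 ∧ (toPlane u).1 ≤ 1 ∧ 0 ≤ (toPlane u).2 ∧ (toPlane u).2 ≤ 1 := by
  obtain ⟨h0, h1, h2, h3, h4, _⟩ := h
  have hZ : (0 : ℤ) < u 2 := by omega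
  have hZ' : (0 : ℝ) < (u 2 : ℝ) := by exact_mod_cast hZ
  refine ⟨?_, ?_, ?_, ?_⟩
  · exact div_nonneg (by exact_mod_cast h0) hZ'.le
  · rw [toPlane, div_le_one hZ']
    have : u 0 ≤ u 2 := by omega
    exact_mod_cast this
  · exact div_nonneg (by exact_mod_cast h2) hZ'.le
  · rw [toPlane]
    simp only
    rw [div_le_one hZ']
    have : u 1 ≤ u 2 := by omega
    exact_mod_cast this

theorem toPlane_inj_of_det {u v w : Fin 3 → ℤ} (hu : (u 2 : ℝ) ≠ 0) (hv : (v 2 : ℝ) ≠ 0)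
    (hw : (w 2 : ℝ) ≠ 0) (hdet : Matrix.det (Matrix.of ![u, v, w]) ≠ 0) :
    toPlane u ≠ toPlane v := by
  intro h
  have := toPlane_area u v w hu hv hw
  rw [← h] at this
  simp only [sub_self, zero_mul] at this
  exact hdet (by exact_mod_cast this.symm)

/-- Section 6b. -/
theorem plane_of_int {W : ℕ} (hW : 0 < W) {K : ℝ} (hK : 0 ≤ K) (S : Finset (Fin 3 → ℤ))
    (hbox : ∀ u ∈ S, 0 ≤ u 0 ∧ u 0 < W ∧ 0 ≤ u 1 ∧ u 1 < W ∧ (W : ℤ) ≤ u 2 ∧ u 2 < 2 * W)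
    (hdet : ∀ u ∈ S, ∀ v ∈ S, ∀ w ∈ S, u ≠ v → u ≠ w → v ≠ w →
      K < |((Matrix.det (Matrix.of ![u, v, w]) : ℤ) : ℝ)|)
    (hcard : 3 ≤ S.card) :
    ∃ P : Finset (ℝ × ℝ), P.card = S.card ∧
      (∀ p ∈ P, 0 ≤ p.1 ∧ p.1 ≤ 1 ∧ 0 ≤ p.2 ∧ p.2 ≤ 1) ∧
      ∀ p ∈ P, ∀ q ∈ P, ∀ r ∈ P, p ≠ q → p ≠ r → q ≠ r →
        K / (16 * (W : ℝ) ^ 3) ≤
          |(q.1 - p.1) * (r.2 - p.2) - (q.2 - p.2) * (r.1 - p.1)| / 2 := by
  classical
  have hWR : (0 : ℝ) < (W : ℝ) := by exact_mod_cast hW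
  have hZpos : ∀ u ∈ S, (0 : ℝ) < (u 2 : ℝ) := by
    intro u hu
    have := hbox u hu
    have h' : (0 : ℤ) < u 2 := by omega
    exact_mod_cast h'
  have hinj : Set.InjOn toPlane (S : Set (Fin 3 → ℤ)) := by
    intro u hu v hv huv
    by_contra hne
    have hex : ∃ w ∈ S, w ≠ u ∧ w ≠ v := by
      by_contra hcon
      push Not at hcon
      have hsub : S ⊆ {u, v} := by
        intro w hw
        by_cases h1 : w = u
        · simp [h1]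
        · simp [hcon w hw h1]
      have := Finset.card_le_card hsub
      have h2 : ({u, v} : Finset (Fin 3 → ℤ)).card ≤ 2 := Finset.card_le_two
      omega
    obtain ⟨w, hw, hwu, hwv⟩ := hex
    have hd := hdet u hu v hv w hw hne (Ne.symm hwu) (Ne.symm hwv)
    refine toPlane_inj_of_det (hZpos u hu).ne' (hZpos v hv).ne' (hZpos w hw).ne' ?_ huv
    intro h0
    rw [h0] at hd
    simp only [Int.cast_zero, abs_zero] at hd
    linarith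
  refine ⟨S.image toPlane, Finset.card_image_of_injOn hinj, ?_, ?_⟩
  · intro p hp
    obtain ⟨u, hu, rfl⟩ := Finset.mem_image.1 hp
    exact toPlane_mem W u (hbox u hu)
  · intro p hp q hq r hr hpq hpr hqr
    obtain ⟨u, hu, rfl⟩ := Finset.mem_image.1 hp
    obtain ⟨v, hv, rfl⟩ := Finset.mem_image.1 hq
    obtain ⟨w, hw, rfl⟩ := Finset.mem_image.1 hr
    have huv : u ≠ v := fun h => hpq (by rw [h])
    have huw : u ≠ w := fun h => hpr (by rw [h])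
    have hvw : v ≠ w := fun h => hqr (by rw [h])
    have hd := hdet u hu v hv w hw huv huw hvw
    have hu0 := hZpos u hu
    have hv0 := hZpos v hv
    have hw0 := hZpos w hw
    have hle : ∀ x ∈ S, ((x 2 : ℤ) : ℝ) ≤ 2 * (W : ℝ) := by
      intro x hx
      have := (hbox x hx).2.2.2.2.2
      have h' : x 2 ≤ 2 * (W : ℤ) := this.le
      exact_mod_cast h'
    rw [← toPlane_area u v w hu0.ne' hv0.ne' hw0.ne', abs_mul] at hd
    have hprod : 0 < (u 2 : ℝ) * (v 2 : ℝ) * (w 2 : ℝ) := by positivity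
    rw [abs_of_pos hprod] at hd
    set A := |((toPlane v).1 - (toPlane u).1) * ((toPlane w).2 - (toPlane u).2)
      - ((toPlane v).2 - (toPlane u).2) * ((toPlane w).1 - (toPlane u).1)| with hA
    have hA0 : 0 ≤ A := abs_nonneg _
    have hprodle : (u 2 : ℝ) * (v 2 : ℝ) * (w 2 : ℝ) ≤ 8 * (W : ℝ) ^ 3 := by
      have h1 : (u 2 : ℝ) * (v 2 : ℝ) ≤ (2 * (W : ℝ)) * (2 * (W : ℝ)) :=
        mul_le_mul (hle u hu) (hle v hv) hv0.le (by positivity)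
      have h2 : (u 2 : ℝ) * (v 2 : ℝ) * (w 2 : ℝ)
          ≤ ((2 * (W : ℝ)) * (2 * (W : ℝ))) * (2 * (W : ℝ)) :=
        mul_le_mul h1 (hle w hw) hw0.le (by positivity)
      calc _ ≤ _ := h2
        _ = 8 * (W : ℝ) ^ 3 := by ring
    have hK2 : K ≤ A * (8 * (W : ℝ) ^ 3) :=
      hd.le.trans (mul_le_mul_of_nonneg_left hprodle hA0)
    rw [div_le_div_iff₀ (by positivity) (by norm_num)]
    nlinarith

/-- Version with the determinant written on the raw vector of rows. -/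
theorem plane_of_int' {W : ℕ} (hW : 0 < W) {K : ℝ} (hK : 0 ≤ K) (S : Finset (Fin 3 → ℤ))
    (hbox : ∀ u ∈ S, 0 ≤ u 0 ∧ u 0 < W ∧ 0 ≤ u 1 ∧ u 1 < W ∧ (W : ℤ) ≤ u 2 ∧ u 2 < 2 * W)
    (hdet : ∀ u ∈ S, ∀ v ∈ S, ∀ w ∈ S, u ≠ v → u ≠ w → v ≠ w →
      K < |((Matrix.det ![u, v, w] : ℤ) : ℝ)|)
    (hcard : 3 ≤ S.card) :
    ∃ P : Finset (ℝ × ℝ), P.card = S.card ∧
      (∀ p ∈ P, 0 ≤ p.1 ∧ p.1 ≤ 1 ∧ 0 ≤ p.2 ∧ p.2 ≤ 1) ∧
      ∀ p ∈ P, ∀ q ∈ P, ∀ r ∈ P, p ≠ q → p ≠ r → q ≠ r →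
        K / (16 * (W : ℝ) ^ 3) ≤
          |(q.1 - p.1) * (r.2 - p.2) - (q.2 - p.2) * (r.1 - p.1)| / 2 :=
  plane_of_int hW hK S hbox hdet hcard

end Crest.Agent.R032
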