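import Mathlib

set_option autoImplicit false

namespace Crest.Agent.R032

/-- integer points in the box with large determinants give plane points in the unit square. -/
theorem plane_points (W : ℕ) (hW : 0 < W) (K : ℝ) (hK : 0 ≤ K) (S : Finset (Fin 3 → ℤ))
    (h3 : 3 ≤ S.card)
    (hbox : ∀ u ∈ S, 0 ≤ u 0 ∧ u 0 < W ∧ 0 ≤ u 1 ∧ u 1 < W ∧ (W : ℤ) ≤ u 2 ∧ u 2 < 2 * W)
    (hdet : ∀ u ∈ S, ∀ v ∈ S, ∀ w ∈ S, u ≠ v → u ≠ w → v ≠ w →
      K < |((Matrix.det (Matrix.of ![u, v, w]) : ℤ) : ℝ)|) :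
    ∃ P : Finset (ℝ × ℝ), P.card = S.card ∧
        (∀ p ∈ P, 0 ≤ p.1 ∧ p.1 ≤ 1 ∧ 0 ≤ p.2 ∧ p.2 ≤ 1) ∧
        ∀ p ∈ P, ∀ q ∈ P, ∀ r ∈ P, p ≠ q → p ≠ r → q ≠ r →
          K / (16 * (W : ℝ) ^ 3) ≤
            |(q.1 - p.1) * (r.2 - p.2) - (q.2 - p.2) * (r.1 - p.1)| / 2 := by
  classical
  set F : (Fin 3 → ℤ) → ℝ × ℝ := fun u => ((u 0 : ℝ) / u 2, (u 1 : ℝ) / u 2) with hF
  have hWR : (0 : ℝ) < W := by exact_mod_cast hW
  have hpos : ∀ u ∈ S, (0 : ℝ) < u 2 := by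
    intro u hu
    obtain ⟨_, _, _, _, h, _⟩ := hbox u hu
    have : (W : ℝ) ≤ u 2 := by exact_mod_cast h
    linarith
  have hdetform : ∀ u ∈ S, ∀ v ∈ S, ∀ w ∈ S,
      ((Matrix.det (Matrix.of ![u, v, w]) : ℤ) : ℝ)
        = (u 2 : ℝ) * v 2 * w 2 * (((F v).1 - (F u).1) * ((F w).2 - (F u).2)
          - ((F v).2 - (F u).2) * ((F w).1 - (F u).1)) := by
    intro u hu v hv w hw
    have h1 := hpos u hu
    have h2 := hpos v hv
    have h3 := hpos w hw
    rw [Matrix.det_fin_three]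
    simp only [hF, Matrix.of_apply, Matrix.cons_val_zero, Matrix.cons_val_one, Matrix.cons_val]
    push_cast
    field_simp
    ring
  have hinj : Set.InjOn F S := by
    intro u hu v hv huv
    by_contra hne
    -- pick a third point
    have : ∃ w ∈ S, w ≠ u ∧ w ≠ v := by
      by_contra hcon
      push Not at hcon
      have hsub : S ⊆ {u, v} := by
        intro w hw
        by_cases hwu : w = u
        · simp [hwu]
        · simp [hcon w hw hwu]
      have := Finset.card_le_card hsub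
      have h2 : ({u, v} : Finset (Fin 3 → ℤ)).card ≤ 2 := Finset.card_le_two
      omega
    obtain ⟨w, hw, hwu, hwv⟩ := this
    have h1 := hdet u hu v hv w hw hne hwu.symm hwv.symm
    rw [hdetform u hu v hv w hw, huv] at h1
    simp at h1
    linarith
  refine ⟨S.image F, Finset.card_image_of_injOn hinj, ?_, ?_⟩
  · intro p hp
    obtain ⟨u, hu, rfl⟩ := Finset.mem_image.mp hp
    obtain ⟨a0, a1, b0, b1, c0, c1⟩ := hbox u hu
    have hu2 := hpos u hu
    have a0' : (0 : ℝ) ≤ u 0 := by exact_mod_cast a0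
    have b0' : (0 : ℝ) ≤ u 1 := by exact_mod_cast b0
    have a1' : (u 0 : ℝ) ≤ u 2 := by exact_mod_cast (by omega : u 0 ≤ u 2)
    have b1' : (u 1 : ℝ) ≤ u 2 := by exact_mod_cast (by omega : u 1 ≤ u 2)
    refine ⟨div_nonneg a0' hu2.le, (div_le_one hu2).mpr a1', div_nonneg b0' hu2.le,
      (div_le_one hu2).mpr b1'⟩
  · intro p hp q hq r hr hpq hpr hqr
    obtain ⟨u, hu, rfl⟩ := Finset.mem_image.mp hp
    obtain ⟨v, hv, rfl⟩ := Finset.mem_image.mp hq
    obtain ⟨w, hw, rfl⟩ := Finset.mem_image.mp hr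
    have huv : u ≠ v := fun h => hpq (by rw [h])
    have huw : u ≠ w := fun h => hpr (by rw [h])
    have hvw : v ≠ w := fun h => hqr (by rw [h])
    have h1 := hdet u hu v hv w hw huv huw hvw
    rw [hdetform u hu v hv w hw] at h1
    set X := ((F v).1 - (F u).1) * ((F w).2 - (F u).2)
          - ((F v).2 - (F u).2) * ((F w).1 - (F u).1) with hX
    have hu2 := hpos u hu
    have hv2 := hpos v hv
    have hw2 := hpos w hw
    have hu3 : (u 2 : ℝ) ≤ 2 * W := by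
      have := (hbox u hu).2.2.2.2.2.le
      exact_mod_cast this
    have hv3 : (v 2 : ℝ) ≤ 2 * W := by
      have := (hbox v hv).2.2.2.2.2.le
      exact_mod_cast this
    have hw3 : (w 2 : ℝ) ≤ 2 * W := by
      have := (hbox w hw).2.2.2.2.2.le
      exact_mod_cast this
    rw [abs_mul, abs_of_pos (by positivity : (0 : ℝ) < u 2 * v 2 * w 2)] at h1
    have h4 : (u 2 : ℝ) * v 2 * w 2 ≤ 8 * W ^ 3 := by
      calc (u 2 : ℝ) * v 2 * w 2 ≤ (2 * W) * (2 * W) * (2 * W) := by gcongr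
        _ = 8 * W ^ 3 := by ring
    have h5 : K ≤ 8 * W ^ 3 * |X| := h1.le.trans (mul_le_mul_of_nonneg_right h4 (abs_nonneg _))
    rw [div_le_iff₀ (by positivity)]
    linarith

end Crest.Agent.R032
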