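/-
Row 32 (S0042, Heilbronn), section 2 of the blueprint (note 10070): the realisation modulo `Q`.
helper929.
-/
import Mathlib

set_option autoImplicit false

namespace Crest.Agent.R032.RealAux

open Finset

/-- determinant of the `3 × 3` matrix with columns `a, b, c`. -/
def det3 (a b c : Fin 3 → ℤ) : ℤ :=
  a 0 * (b 1 * c 2 - b 2 * c 1) - a 1 * (b 0 * c 2 - b 2 * c 0) + a 2 * (b 0 * c 1 - b 1 * c 0)

lemma det3_add1 (a a' b c : Fin 3 → ℤ) :
    det3 (fun i => a i + a' i) b c = det3 a b c + det3 a' b c := by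
  simp only [det3]; ring

lemma det3_add2 (a b b' c : Fin 3 → ℤ) :
    det3 a (fun i => b i + b' i) c = det3 a b c + det3 a b' c := by
  simp only [det3]; ring

lemma det3_add3 (a b c c' : Fin 3 → ℤ) :
    det3 a b (fun i => c i + c' i) = det3 a b c + det3 a b c' := by
  simp only [det3]; ring

lemma det3_mul1 (r : ℤ) (a b c : Fin 3 → ℤ) :
    det3 (fun i => a i * r) b c = r * det3 a b c := by
  simp only [det3]; ring

lemma det3_mul2 (r : ℤ) (a b c : Fin 3 → ℤ) :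
    det3 a (fun i => b i * r) c = r * det3 a b c := by
  simp only [det3]; ring

lemma det3_mul3 (r : ℤ) (a b c : Fin 3 → ℤ) :
    det3 a b (fun i => c i * r) = r * det3 a b c := by
  simp only [det3]; ring

lemma det3_sum1 {ι : Type*} (s : Finset ι) (f : ι → Fin 3 → ℤ) (b c : Fin 3 → ℤ) :
    det3 (fun i => ∑ k ∈ s, f k i) b c = ∑ k ∈ s, det3 (f k) b c := by
  classical
  induction s using Finset.induction_on with
  | empty => simp [det3]
  | insert k s hk ih =>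
    simp only [Finset.sum_insert hk]
    rw [det3_add1, ih]

lemma det3_sum2 {ι : Type*} (s : Finset ι) (f : ι → Fin 3 → ℤ) (a c : Fin 3 → ℤ) :
    det3 a (fun i => ∑ k ∈ s, f k i) c = ∑ k ∈ s, det3 a (f k) c := by
  classical
  induction s using Finset.induction_on with
  | empty => simp [det3]
  | insert k s hk ih =>
    simp only [Finset.sum_insert hk]
    rw [det3_add2, ih]

lemma det3_sum3 {ι : Type*} (s : Finset ι) (f : ι → Fin 3 → ℤ) (a b : Fin 3 → ℤ) :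
    det3 a b (fun i => ∑ k ∈ s, f k i) = ∑ k ∈ s, det3 a b (f k) := by
  classical
  induction s using Finset.induction_on with
  | empty => simp [det3]
  | insert k s hk ih =>
    simp only [Finset.sum_insert hk]
    rw [det3_add3, ih]

lemma abs_mul3_le {a b c A B C : ℤ} (ha : |a| ≤ A) (hb : |b| ≤ B) (hc : |c| ≤ C) :
    |a * (b * c)| ≤ A * (B * C) := by
  rw [abs_mul, abs_mul]
  have hA : 0 ≤ A := (abs_nonneg a).trans ha
  have hB : 0 ≤ B := (abs_nonneg b).trans hb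
  exact mul_le_mul ha (mul_le_mul hb hc (abs_nonneg c) hB) (by positivity) hA

lemma det3_abs_le {a b c : Fin 3 → ℤ} {A B C : ℤ} (ha : ∀ i, |a i| ≤ A) (hb : ∀ i, |b i| ≤ B)
    (hc : ∀ i, |c i| ≤ C) : |det3 a b c| ≤ 6 * (A * (B * C)) := by
  have h1 := abs_le.mp (abs_mul3_le (ha 0) (hb 1) (hc 2))
  have h2 := abs_le.mp (abs_mul3_le (ha 0) (hb 2) (hc 1))
  have h3 := abs_le.mp (abs_mul3_le (ha 1) (hb 0) (hc 2))
  have h4 := abs_le.mp (abs_mul3_le (ha 1) (hb 2) (hc 0))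
  have h5 := abs_le.mp (abs_mul3_le (ha 2) (hb 0) (hc 1))
  have h6 := abs_le.mp (abs_mul3_le (ha 2) (hb 1) (hc 0))
  have e : det3 a b c = a 0 * (b 1 * c 2) - a 0 * (b 2 * c 1) - a 1 * (b 0 * c 2)
      + a 1 * (b 2 * c 0) + a 2 * (b 0 * c 1) - a 2 * (b 1 * c 0) := by
    simp only [det3]; ring
  rw [e, abs_le]
  constructor <;> linarith [h1.1, h1.2, h2.1, h2.2, h3.1, h3.2, h4.1, h4.2, h5.1, h5.2, h6.1, h6.2]

/-- The lacunary exponent trichotomy. -/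
lemma exp_cases (k l m : ℕ) :
    3 ^ k + 3 ^ l < 2 * 3 ^ m ∨ (k = m ∧ l = m) ∨ 2 * 3 ^ m < 3 ^ k + 3 ^ l := by
  have hm : 0 < 3 ^ m := by positivity
  by_cases h1 : m < k
  · right; right
    have : 3 ^ (m + 1) ≤ 3 ^ k := Nat.pow_le_pow_right (by norm_num) h1
    rw [pow_succ] at this
    have : 0 < 3 ^ l := by positivity
    omega
  by_cases h2 : m < l
  · right; right
    have : 3 ^ (m + 1) ≤ 3 ^ l := Nat.pow_le_pow_right (by norm_num) h2
    rw [pow_succ] at this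
    have : 0 < 3 ^ k := by positivity
    omega
  have hk : 3 ^ k ≤ 3 ^ m := Nat.pow_le_pow_right (by norm_num) (by omega)
  have hl : 3 ^ l ≤ 3 ^ m := Nat.pow_le_pow_right (by norm_num) (by omega)
  by_cases h3 : k = m
  · by_cases h4 : l = m
    · right; left; exact ⟨h3, h4⟩
    · left
      have : 3 ^ l < 3 ^ m := Nat.pow_lt_pow_right (by norm_num) (by omega)
      omega
  · left
    have : 3 ^ k < 3 ^ m := Nat.pow_lt_pow_right (by norm_num) (by omega)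
    omega

/-- one term of the triple sum -/
lemma term_cases {K0 : ℕ} (k l m : Fin K0) (R : ℤ) (hR : 1 ≤ R) (d B : ℤ) (hd : |d| ≤ B) :
    ∃ A e : ℤ, R ^ (3 ^ (k : ℕ)) * (R ^ (3 ^ (l : ℕ)) * (R ^ (2 * 3 ^ K0 - 2 * 3 ^ (m : ℕ)) * d))
      = R ^ (2 * 3 ^ K0 + 1) * A + R ^ (2 * 3 ^ K0) * (if k = m ∧ l = m then d else 0) + e
      ∧ |e| * R ≤ R ^ (2 * 3 ^ K0) * B := by
  have hm : 3 ^ (m : ℕ) ≤ 3 ^ K0 := Nat.pow_le_pow_right (by norm_num) m.2.le
  have hB : 0 ≤ B := (abs_nonneg d).trans hd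
  have hRn : ∀ n : ℕ, (0 : ℤ) < R ^ n := fun n => pow_pos (by linarith) n
  have e1 : R ^ (3 ^ (k : ℕ)) * (R ^ (3 ^ (l : ℕ)) * (R ^ (2 * 3 ^ K0 - 2 * 3 ^ (m : ℕ)) * d))
      = R ^ (3 ^ (k : ℕ) + 3 ^ (l : ℕ) + (2 * 3 ^ K0 - 2 * 3 ^ (m : ℕ))) * d := by
    rw [pow_add, pow_add]; ring
  rw [e1]
  rcases exp_cases k l m with h | h | h
  · -- small exponent
    refine ⟨0, R ^ (3 ^ (k : ℕ) + 3 ^ (l : ℕ) + (2 * 3 ^ K0 - 2 * 3 ^ (m : ℕ))) * d, ?_, ?_⟩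
    · have hne : ¬ (k = m ∧ l = m) := by
        rintro ⟨rfl, rfl⟩
        omega
      rw [if_neg hne]; ring
    · have hle : 3 ^ (k : ℕ) + 3 ^ (l : ℕ) + (2 * 3 ^ K0 - 2 * 3 ^ (m : ℕ)) + 1 ≤ 2 * 3 ^ K0 := by
        omega
      have h2 : R ^ (3 ^ (k : ℕ) + 3 ^ (l : ℕ) + (2 * 3 ^ K0 - 2 * 3 ^ (m : ℕ))) * R
          ≤ R ^ (2 * 3 ^ K0) := by
        rw [← pow_succ]
        exact pow_le_pow_right₀ hR hle
      rw [abs_mul, abs_of_pos (hRn _)]
      calc _ = R ^ (3 ^ (k : ℕ) + 3 ^ (l : ℕ) + (2 * 3 ^ K0 - 2 * 3 ^ (m : ℕ))) * R * |d| := by ring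
        _ ≤ R ^ (2 * 3 ^ K0) * B := mul_le_mul h2 hd (abs_nonneg d) (hRn _).le
  · -- equal
    obtain ⟨h1, h2⟩ := h
    have hkm : k = m := Fin.ext h1
    have hlm : l = m := Fin.ext h2
    refine ⟨0, 0, ?_, ?_⟩
    · rw [if_pos ⟨hkm, hlm⟩]
      have : 3 ^ (k : ℕ) + 3 ^ (l : ℕ) + (2 * 3 ^ K0 - 2 * 3 ^ (m : ℕ)) = 2 * 3 ^ K0 := by
        rw [h1, h2]; omega
      rw [this]; ring
    · simp only [abs_zero, zero_mul]
      exact mul_nonneg (hRn _).le hB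
  · -- large exponent
    have hne : ¬ (k = m ∧ l = m) := by
      rintro ⟨rfl, rfl⟩
      omega
    refine ⟨R ^ (3 ^ (k : ℕ) + 3 ^ (l : ℕ) - 2 * 3 ^ (m : ℕ) - 1) * d, 0, ?_, ?_⟩
    · rw [if_neg hne]
      have : 3 ^ (k : ℕ) + 3 ^ (l : ℕ) + (2 * 3 ^ K0 - 2 * 3 ^ (m : ℕ))
          = (2 * 3 ^ K0 + 1) + (3 ^ (k : ℕ) + 3 ^ (l : ℕ) - 2 * 3 ^ (m : ℕ) - 1) := by omega
      rw [this, pow_add]; ring
    · simp only [abs_zero, zero_mul]
      exact mul_nonneg (hRn _).le hB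

end Crest.Agent.R032.RealAux
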