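import Mathlib
import Crest.Agent.R032.Defs

/-!
Row 32 (S0042), section 4 of note 10070: elementary counting in `SL₃(ZMod Q)`.
-/

set_option autoImplicit false

namespace Crest.Agent.R032

open Matrix Finset

/-- `SL₃` over `ZMod Q`, as a finset of matrices. -/
def SLset (Q : ℕ) [Fact Q.Prime] : Finset (Matrix (Fin 3) (Fin 3) (ZMod Q)) :=
  Finset.univ.filter fun g => g.det = 1

theorem mem_SLset {Q : ℕ} [Fact Q.Prime] {g : Matrix (Fin 3) (Fin 3) (ZMod Q)} :
    g ∈ SLset Q ↔ g.det = 1 := by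
  simp [SLset]

/-! ### fibres over three independent vectors -/

theorem fibre3 (Q : ℕ) [Fact Q.Prime] (U C : Fin 3 → Fin 3 → ZMod Q)
    (hU : Matrix.det (Matrix.of U) ≠ 0) :
    ((SLset Q).filter fun g => ∀ i, g.mulVec (U i) = C i).card ≤ 1 := by
  rw [Finset.card_le_one]
  intro g hg g' hg'
  simp only [Finset.mem_filter] at hg hg'
  have h1 : g * (Matrix.of U)ᵀ = g' * (Matrix.of U)ᵀ := by
    ext i j
    have h2 : g.mulVec (U j) i = g'.mulVec (U j) i := by rw [hg.2 j, hg'.2 j]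
    simpa [Matrix.mul_apply, Matrix.mulVec, dotProduct] using h2
  have h3 : IsUnit ((Matrix.of U)ᵀ) := by
    rw [Matrix.isUnit_iff_isUnit_det, Matrix.det_transpose]
    exact isUnit_iff_ne_zero.mpr hU
  exact h3.mul_right_cancel h1

/-! ### an affine plane has at most `Q²` points -/

theorem plane_card (Q : ℕ) [Fact Q.Prime] (n : Fin 3 → ZMod Q) (δ : ZMod Q) (hδ : δ ≠ 0) :
    (Finset.univ.filter fun x : Fin 3 → ZMod Q => n ⬝ᵥ x = δ).card ≤ Q ^ 2 := by
  by_cases hn : n = 0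
  · subst hn
    have : (Finset.univ.filter fun x : Fin 3 → ZMod Q => (0 : Fin 3 → ZMod Q) ⬝ᵥ x = δ) = ∅ := by
      apply Finset.filter_eq_empty_iff.mpr
      intro x _ hx
      rw [zero_dotProduct] at hx
      exact hδ hx.symm
    rw [this]
    simp
  · obtain ⟨k, hk⟩ : ∃ k, n k ≠ 0 := by
      by_contra hcon
      push Not at hcon
      exact hn (funext hcon)
    have hcard : (Finset.univ : Finset (Fin 2 → ZMod Q)).card = Q ^ 2 := by
      rw [Finset.card_univ, Fintype.card_fun, ZMod.card, Fintype.card_fin]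
    rw [← hcard]
    apply Finset.card_le_card_of_injOn (fun x => fun i => x (k.succAbove i))
    · intro x _
      simp
    · intro x hx y hy hxy
      simp only [Finset.coe_filter, Finset.mem_univ, true_and, Set.mem_setOf_eq] at hx hy
      have h1 : ∀ i, x (k.succAbove i) = y (k.succAbove i) := fun i => congrFun hxy i
      have h2 : n k * x k = n k * y k := by
        have hx' := hx
        have hy' := hy
        rw [dotProduct, Fin.sum_univ_succAbove _ k] at hx' hy'
        have h3 : ∑ i, n (k.succAbove i) * x (k.succAbove i)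
            = ∑ i, n (k.succAbove i) * y (k.succAbove i) :=
          Finset.sum_congr rfl fun i _ => by rw [h1 i]
        rw [h3] at hx'
        exact add_right_cancel (hx'.trans hy'.symm)
      have h4 : x k = y k := mul_left_cancel₀ hk h2
      funext i
      rcases Fin.eq_self_or_eq_succAbove k i with h | ⟨j, hj⟩
      · rw [h, h4]
      · rw [hj, h1 j]

/-! ### fibres over two independent vectors -/

theorem exists_third (Q : ℕ) [Fact Q.Prime] (u v : Fin 3 → ZMod Q)
    (h : crossProduct u v ≠ 0) :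
    ∃ w : Fin 3 → ZMod Q, Matrix.det (Matrix.of ![u, v, w]) ≠ 0 := by
  obtain ⟨k, hk⟩ : ∃ k, (crossProduct u v) k ≠ 0 := by
    by_contra hcon
    push Not at hcon
    exact h (funext hcon)
  refine ⟨Pi.single k 1, ?_⟩
  have h1 : Matrix.det (Matrix.of ![u, v, Pi.single k 1]) = (crossProduct u v) k := by
    rw [Matrix.det_fin_three, cross_apply]
    fin_cases k <;> simp <;> ring
  rw [h1]
  exact hk

theorem det_mulVec3 (Q : ℕ) [Fact Q.Prime] (g : Matrix (Fin 3) (Fin 3) (ZMod Q))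
    (u v w : Fin 3 → ZMod Q) :
    Matrix.det (Matrix.of ![g.mulVec u, g.mulVec v, g.mulVec w])
      = g.det * Matrix.det (Matrix.of ![u, v, w]) := by
  have h1 : Matrix.of ![g.mulVec u, g.mulVec v, g.mulVec w]
      = (Matrix.of ![u, v, w]) * gᵀ := by
    ext i j
    fin_cases i <;> simp [Matrix.mul_apply, Matrix.mulVec, dotProduct, mul_comm]
  rw [h1, Matrix.det_mul, Matrix.det_transpose, mul_comm]

theorem det_of_three {R : Type*} [CommRing R] (u v w : Fin 3 → R) :
    Matrix.det (Matrix.of ![u, v, w]) = crossProduct u v ⬝ᵥ w := by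
  rw [Matrix.det_fin_three, cross_apply, vec3_dotProduct]
  simp
  ring

theorem fibre2_cross (Q : ℕ) [Fact Q.Prime] (u v c d : Fin 3 → ZMod Q)
    (h : crossProduct u v ≠ 0) :
    ((SLset Q).filter fun g => g.mulVec u = c ∧ g.mulVec v = d).card ≤ Q ^ 2 := by
  obtain ⟨w, hw⟩ := exists_third Q u v h
  refine le_trans ?_ (plane_card Q (crossProduct c d) _ hw)
  apply Finset.card_le_card_of_injOn (fun g => g.mulVec w)
  · intro g hg
    simp only [Finset.coe_filter, Set.mem_setOf_eq, mem_SLset] at hg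
    obtain ⟨hdet, hc, hd⟩ := hg
    simp only [Finset.coe_filter, Finset.mem_univ, true_and, Set.mem_setOf_eq]
    rw [← det_of_three, ← hc, ← hd, det_mulVec3, hdet, one_mul]
  · intro g hg g' hg' hgg
    simp only [Finset.coe_filter, Set.mem_setOf_eq, mem_SLset] at hg hg'
    have h3 := fibre3 Q ![u, v, w] ![c, d, g.mulVec w] hw
    rw [Finset.card_le_one] at h3
    apply h3
    · simp only [Finset.mem_filter, mem_SLset]
      refine ⟨hg.1, ?_⟩
      intro i
      fin_cases i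
      · exact hg.2.1
      · exact hg.2.2
      · rfl
    · simp only [Finset.mem_filter, mem_SLset]
      refine ⟨hg'.1, ?_⟩
      intro i
      fin_cases i
      · exact hg'.2.1
      · exact hg'.2.2
      · exact hgg.symm

theorem fibre2 (Q : ℕ) [Fact Q.Prime] (u v c d : Fin 3 → ZMod Q)
    (h : LinearIndependent (ZMod Q) ![u, v]) :
    ((SLset Q).filter fun g => g.mulVec u = c ∧ g.mulVec v = d).card ≤ Q ^ 2 :=
  fibre2_cross Q u v c d (crossProduct_ne_zero_iff_linearIndependent.mpr h)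

/-! ### fibres over one nonzero vector -/

theorem exists_second (Q : ℕ) [Fact Q.Prime] (u : Fin 3 → ZMod Q) (hu : u ≠ 0) :
    ∃ v : Fin 3 → ZMod Q, crossProduct u v ≠ 0 := by
  by_contra hcon
  push Not at hcon
  apply hu
  have h1 := hcon ![0, 1, 0]
  have h2 := hcon ![1, 0, 0]
  rw [cross_apply] at h1 h2
  have h10 := congrFun h1 0
  have h12 := congrFun h1 2
  have h22 := congrFun h2 2
  simp at h10 h12 h22
  funext i
  fin_cases i
  · exact h12
  · exact h22
  · exact h10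

theorem fibre1 (Q : ℕ) [Fact Q.Prime] (u c : Fin 3 → ZMod Q) (hu : u ≠ 0) :
    ((SLset Q).filter fun g => g.mulVec u = c).card ≤ Q ^ 5 := by
  obtain ⟨v, hv⟩ := exists_second Q u hu
  have h1 : ((SLset Q).filter fun g => g.mulVec u = c).card
      = ∑ d : Fin 3 → ZMod Q,
        (((SLset Q).filter fun g => g.mulVec u = c).filter fun g => g.mulVec v = d).card :=
    Finset.card_eq_sum_card_fiberwise (fun g _ => Finset.mem_univ _)
  rw [h1]
  have h2 : ∀ d : Fin 3 → ZMod Q,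
      (((SLset Q).filter fun g => g.mulVec u = c).filter fun g => g.mulVec v = d).card
        ≤ Q ^ 2 := by
    intro d
    rw [Finset.filter_filter]
    exact fibre2_cross Q u v c d hv
  refine (Finset.sum_le_sum fun d _ => h2 d).trans ?_
  rw [Finset.sum_const, Finset.card_univ, Fintype.card_fun, ZMod.card, Fintype.card_fin,
    smul_eq_mul, ← pow_add]

/-! ### size of `SL₃` -/

theorem card_GL_le (Q : ℕ) [Fact Q.Prime] :
    Nat.card (GL (Fin 3) (ZMod Q)) ≤ (Q - 1) * (SLset Q).card := by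
  classical
  have hcard : Nat.card (ZMod Q)ˣ = Q - 1 := by
    rw [Nat.card_eq_fintype_card, ZMod.card_units]
  have h1 : Nat.card ((ZMod Q)ˣ × {g // g ∈ SLset Q}) = (Q - 1) * (SLset Q).card := by
    rw [Nat.card_prod, hcard]
    congr 1
    rw [Nat.card_eq_fintype_card, Fintype.card_coe]
  rw [← h1]
  have hdet : ∀ g : GL (Fin 3) (ZMod Q), (g : Matrix (Fin 3) (Fin 3) (ZMod Q)).det ≠ 0 := by
    intro g
    have := (Matrix.GeneralLinearGroup.det g).ne_zero
    simpa using this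
  let F : GL (Fin 3) (ZMod Q) → (ZMod Q)ˣ × {g // g ∈ SLset Q} := fun g =>
    (Matrix.GeneralLinearGroup.det g,
      ⟨(g : Matrix (Fin 3) (Fin 3) (ZMod Q)).updateRow 0
        ((g : Matrix (Fin 3) (Fin 3) (ZMod Q)).det⁻¹ • (g : Matrix (Fin 3) (Fin 3) (ZMod Q)) 0), by
        rw [mem_SLset, Matrix.det_updateRow_smul, Matrix.updateRow_eq_self]
        exact inv_mul_cancel₀ (hdet g)⟩)
  apply Nat.card_le_card_of_injective F
  intro g g' hgg
  have e1 : Matrix.GeneralLinearGroup.det g = Matrix.GeneralLinearGroup.det g' :=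
    congrArg Prod.fst hgg
  have e2 : (g : Matrix (Fin 3) (Fin 3) (ZMod Q)).updateRow 0
        ((g : Matrix (Fin 3) (Fin 3) (ZMod Q)).det⁻¹ • (g : Matrix (Fin 3) (Fin 3) (ZMod Q)) 0)
      = (g' : Matrix (Fin 3) (Fin 3) (ZMod Q)).updateRow 0
        ((g' : Matrix (Fin 3) (Fin 3) (ZMod Q)).det⁻¹ •
          (g' : Matrix (Fin 3) (Fin 3) (ZMod Q)) 0) :=
    congrArg Subtype.val (congrArg Prod.snd hgg)
  have e3 : (g : Matrix (Fin 3) (Fin 3) (ZMod Q)).det
      = (g' : Matrix (Fin 3) (Fin 3) (ZMod Q)).det := by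
    have := congrArg Units.val e1
    simpa using this
  apply Units.ext
  ext i j
  by_cases hi : i = 0
  · subst hi
    have e4 := congrFun (congrFun e2 0) j
    rw [Matrix.updateRow_self, Matrix.updateRow_self, e3] at e4
    exact mul_left_cancel₀ (inv_ne_zero (hdet g')) e4
  · have e4 := congrFun (congrFun e2 i) j
    rw [Matrix.updateRow_ne hi, Matrix.updateRow_ne hi] at e4
    exact e4

theorem card_SLset_ge (Q : ℕ) [Fact Q.Prime] : Q ^ 8 ≤ 8 * (SLset Q).card := by
  have h2 : 2 ≤ Q := (Fact.out : Q.Prime).two_le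
  have h1 := card_GL_le Q
  rw [Matrix.card_GL_field, ZMod.card, Fin.prod_univ_three] at h1
  simp only [Fin.val_zero, Fin.val_one, Fin.val_two, pow_zero, pow_one] at h1
  obtain ⟨q, rfl⟩ : ∃ q, Q = q + 2 := ⟨Q - 2, by omega⟩
  set S := (SLset (q + 2)).card with hS
  have e1 : (q + 2) ^ 3 - 1 = q ^ 3 + 6 * q ^ 2 + 12 * q + 7 := by
    have : (q + 2) ^ 3 = q ^ 3 + 6 * q ^ 2 + 12 * q + 8 := by ring
    omega
  have e2 : (q + 2) ^ 3 - (q + 2) = q ^ 3 + 6 * q ^ 2 + 11 * q + 6 := by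
    have : (q + 2) ^ 3 = q ^ 3 + 6 * q ^ 2 + 12 * q + 8 := by ring
    omega
  have e3 : (q + 2) ^ 3 - (q + 2) ^ 2 = (q + 1) * (q + 2) ^ 2 := by
    have : (q + 2) ^ 3 = (q + 1) * (q + 2) ^ 2 + (q + 2) ^ 2 := by ring
    omega
  have e4 : q + 2 - 1 = q + 1 := by omega
  rw [e1, e2, e3, e4] at h1
  have h3 : (q ^ 3 + 6 * q ^ 2 + 12 * q + 7) * (q ^ 3 + 6 * q ^ 2 + 11 * q + 6) * (q + 2) ^ 2
      ≤ S := by
    have h4 : (q + 1) * ((q ^ 3 + 6 * q ^ 2 + 12 * q + 7) * (q ^ 3 + 6 * q ^ 2 + 11 * q + 6)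
        * (q + 2) ^ 2) ≤ (q + 1) * S := by
      calc _ = (q ^ 3 + 6 * q ^ 2 + 12 * q + 7) * (q ^ 3 + 6 * q ^ 2 + 11 * q + 6)
            * ((q + 1) * (q + 2) ^ 2) := by ring
        _ ≤ _ := h1
    exact Nat.le_of_mul_le_mul_left h4 (Nat.succ_pos q)
  have h5 : (q + 2) ^ 3 ≤ 2 * (q ^ 3 + 6 * q ^ 2 + 12 * q + 7) := by
    have : (q + 2) ^ 3 = q ^ 3 + 6 * q ^ 2 + 12 * q + 8 := by ring
    omega
  have h6 : (q + 2) ^ 3 ≤ 2 * (q ^ 3 + 6 * q ^ 2 + 11 * q + 6) := by
    have : (q + 2) ^ 3 = q ^ 3 + 6 * q ^ 2 + 12 * q + 8 := by ring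
    omega
  calc (q + 2) ^ 8 = (q + 2) ^ 3 * (q + 2) ^ 3 * (q + 2) ^ 2 := by ring
    _ ≤ (2 * (q ^ 3 + 6 * q ^ 2 + 12 * q + 7)) * (2 * (q ^ 3 + 6 * q ^ 2 + 11 * q + 6))
        * (q + 2) ^ 2 := Nat.mul_le_mul_right _ (Nat.mul_le_mul h5 h6)
    _ = 4 * ((q ^ 3 + 6 * q ^ 2 + 12 * q + 7) * (q ^ 3 + 6 * q ^ 2 + 11 * q + 6)
        * (q + 2) ^ 2) := by ring
    _ ≤ 4 * S := Nat.mul_le_mul_left _ h3
    _ ≤ 8 * S := Nat.mul_le_mul_right _ (by norm_num)

/-! ### lattice points of the box in the preimage of a set -/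

theorem count_Ico (Q : ℕ) [Fact Q.Prime] (a : ℤ) (k : ℕ) (v : ZMod Q) :
    ((Finset.Ico a (a + k * Q)).filter fun x : ℤ => (x : ZMod Q) = v).card = k := by
  have hQ : 0 < (Q : ℤ) := by exact_mod_cast (Fact.out : Q.Prime).pos
  have hQ' : (Q : ℚ) ≠ 0 := by exact_mod_cast (Fact.out : Q.Prime).ne_zero
  have h1 : (Finset.Ico a (a + k * Q)).filter (fun x : ℤ => (x : ZMod Q) = v)
      = (Finset.Ico a (a + k * Q)).filter (fun x : ℤ => x ≡ (v.val : ℤ) [ZMOD Q]) := by
    apply Finset.filter_congr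
    intro x _
    rw [← ZMod.intCast_eq_intCast_iff]
    simp
  rw [h1]
  have h2 := Int.Ico_filter_modEq_card a (a + k * Q) hQ (v.val : ℤ)
  have h3 : (((a + k * Q : ℤ) : ℚ) - ((v.val : ℤ) : ℚ)) / ((Q : ℤ) : ℚ)
      = ((a : ℚ) - ((v.val : ℤ) : ℚ)) / ((Q : ℤ) : ℚ) + (k : ℚ) := by
    push_cast
    field_simp
    ring
  rw [h3, Int.ceil_add_natCast, add_sub_cancel_left, max_eq_left (Int.natCast_nonneg k)] at h2
  exact_mod_cast h2

theorem count_cast (Q W : ℕ) [Fact Q.Prime] (hQW : Q ∣ W) (v : Fin 3 → ZMod Q) :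
    ((Box W).filter fun u => (fun i => ((u i : ℤ) : ZMod Q)) = v).card = (W / Q) ^ 3 := by
  obtain ⟨k, rfl⟩ := hQW
  have hQ0 : 0 < Q := (Fact.out : Q.Prime).pos
  rw [Nat.mul_div_cancel_left _ hQ0]
  have h1 : (Box (Q * k)).filter (fun u => (fun i => ((u i : ℤ) : ZMod Q)) = v)
      = Fintype.piFinset fun i => (if i = 2 then
          Finset.Ico ((Q * k : ℕ) : ℤ) (2 * ((Q * k : ℕ) : ℤ)) else
          Finset.Ico 0 ((Q * k : ℕ) : ℤ)).filter fun x : ℤ => (x : ZMod Q) = v i := by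
    ext u
    simp only [Box, Finset.mem_filter, Fintype.mem_piFinset, funext_iff]
    exact (forall_and).symm
  rw [h1, Fintype.card_piFinset]
  have h2 : ∀ i : Fin 3, ((if i = 2 then
          Finset.Ico ((Q * k : ℕ) : ℤ) (2 * ((Q * k : ℕ) : ℤ)) else
          Finset.Ico 0 ((Q * k : ℕ) : ℤ)).filter fun x : ℤ => (x : ZMod Q) = v i).card = k := by
    intro i
    split_ifs with hi
    · have := count_Ico Q ((Q * k : ℕ) : ℤ) k (v i)
      have e : (2 * ((Q * k : ℕ) : ℤ)) = ((Q * k : ℕ) : ℤ) + k * Q := by push_cast; ring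
      rw [e]
      exact this
    · have := count_Ico Q 0 k (v i)
      have e : ((Q * k : ℕ) : ℤ) = 0 + k * Q := by push_cast; ring
      rw [e]
      exact this
  rw [Finset.prod_congr rfl fun i _ => h2 i, Finset.prod_const, Finset.card_univ,
    Fintype.card_fin]

theorem count_box (Q W : ℕ) [Fact Q.Prime] (hQW : Q ∣ W) (C : Finset (Fin 3 → ZMod Q))
    (g : Matrix (Fin 3) (Fin 3) (ZMod Q)) (hg : g ∈ SLset Q) :
    ((Box W).filter fun u => g.mulVec (fun i => ((u i : ℤ) : ZMod Q)) ∈ C).card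
      = C.card * (W / Q) ^ 3 := by
  rw [mem_SLset] at hg
  have hu : IsUnit g.det := by rw [hg]; exact isUnit_one
  have h1 : ((Box W).filter fun u => g.mulVec (fun i => ((u i : ℤ) : ZMod Q)) ∈ C).card
      = ∑ c ∈ C, (((Box W).filter fun u => g.mulVec (fun i => ((u i : ℤ) : ZMod Q)) ∈ C).filter
          fun u => g.mulVec (fun i => ((u i : ℤ) : ZMod Q)) = c).card := by
    apply Finset.card_eq_sum_card_fiberwise
    intro u hu
    simp only [Finset.coe_filter, Set.mem_setOf_eq] at hu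
    exact hu.2
  rw [h1]
  have h2 : ∀ c ∈ C,
      (((Box W).filter fun u => g.mulVec (fun i => ((u i : ℤ) : ZMod Q)) ∈ C).filter
          fun u => g.mulVec (fun i => ((u i : ℤ) : ZMod Q)) = c).card = (W / Q) ^ 3 := by
    intro c hc
    rw [← count_cast Q W hQW (g⁻¹.mulVec c)]
    congr 1
    rw [Finset.filter_filter]
    apply Finset.filter_congr
    intro u _
    constructor
    · rintro ⟨_, h⟩
      rw [← h, Matrix.mulVec_mulVec, Matrix.nonsing_inv_mul _ hu, Matrix.one_mulVec]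
    · intro h
      have h' : g.mulVec (fun i => ((u i : ℤ) : ZMod Q)) = c := by
        rw [h, Matrix.mulVec_mulVec, Matrix.mul_nonsing_inv _ hu, Matrix.one_mulVec]
      exact ⟨h' ▸ hc, h'⟩
  rw [Finset.sum_congr rfl h2, Finset.sum_const, smul_eq_mul]

end Crest.Agent.R032
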